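import Vale.Agent.P202.Mixed2.Cover.BaseMap
import Vale.Agent.P202.Perf.Tower

/-!
# The union of the levels agrees with the untilt modulo powers of `p`

Modulo `p` level `n` becomes `k[[X_0, .., X_d]] ⧸ (X_0 ^ q)` read through `q`-th roots, so the map of
the union of the levels to the untilt is bijective modulo every power of `p`.
-/

namespace Vale.Agent.P202.Mixed2

open Ideal IsLocalRing Vale.Agent.P202.Char Vale.Agent.P202.Perf.Base

universe u

variable {p : ℕ} [hp : Fact p.Prime]

section ModP

variable {B : Type u} [CommRing B] [CharP B p]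

/-- Reduction of the untilt modulo `p`. -/
noncomputable def untiltModP (π : B) : Untilt p π →+* B ⧸ span {π} :=
  Ideal.Quotient.lift _ ((Ideal.Quotient.mk _).comp WittVector.constantCoeff) fun x hx => by
    obtain ⟨c, rfl⟩ := mem_span_singleton.1 hx
    rw [RingHom.comp_apply, map_mul, constantCoeff_xiElt, Ideal.Quotient.eq_zero_iff_mem]
    exact Ideal.mul_mem_right _ _ (neg_mem (mem_span_singleton_self π))

theorem untiltModP_mk (π : B) (w : WittVector p B) :
    untiltModP π (Ideal.Quotient.mk _ w) = Ideal.Quotient.mk _ (WittVector.constantCoeff w) :=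
  rfl

theorem untiltModP_sharp (π b : B) :
    untiltModP π (sharp (p := p) π b) = Ideal.Quotient.mk _ b := by
  show Ideal.Quotient.mk _ (WittVector.constantCoeff (WittVector.teichmuller p b)) = _
  rw [constantCoeff_teichmuller]

theorem untiltModP_eq_zero_iff [PerfectRing B p] (π : B) (x : Untilt p π) :
    untiltModP π x = 0 ↔ (p : Untilt p π) ∣ x := by
  constructor
  · intro h
    obtain ⟨b, c, hc⟩ := exists_eq_sharp_add π x
    have hx : x = sharp π b + (p : Untilt p π) * c := by rw [← hc]; ring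
    rw [hx, map_add, map_mul, map_natCast, untiltModP_sharp,
      show ((p : ℕ) : B ⧸ span {π}) = 0 by
        rw [← map_natCast (Ideal.Quotient.mk (span {π})), CharP.cast_eq_zero, map_zero],
      zero_mul, add_zero, Ideal.Quotient.eq_zero_iff_mem, mem_span_singleton] at h
    rw [hx]
    exact dvd_add ((p_dvd_sharp_iff π b).2 h) (dvd_mul_right _ _)
  · rintro ⟨c, rfl⟩
    rw [map_mul, map_natCast, ← map_natCast (Ideal.Quotient.mk (span {π})), CharP.cast_eq_zero,
      map_zero, zero_mul]

end ModP

variable {k : Type u} [Field k] [CharP k p] [PerfectRing k p] {d : ℕ}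

/-- The variables of the level inside the power series. -/
noncomputable def zEmb : MvPowerSeries (Fin d) k →+* MvPowerSeries (Fin (d + 1)) k :=
  (MvPowerSeries.finSuccEquiv k d).symm.toRingEquiv.toRingHom.comp PowerSeries.C

theorem zEmb_X (i : Fin d) :
    zEmb (k := k) (MvPowerSeries.X i) = MvPowerSeries.X i.succ := by
  show (MvPowerSeries.finSuccEquiv k d).symm (PowerSeries.C (MvPowerSeries.X i)) = _
  rw [AlgEquiv.symm_apply_eq, MvPowerSeries.finSuccEquiv_X_succ]

theorem zEmb_C (a : k) :
    zEmb (d := d) (MvPowerSeries.C a) = MvPowerSeries.C a := by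
  show (MvPowerSeries.finSuccEquiv k d).symm (PowerSeries.C (MvPowerSeries.C a)) = _
  rw [AlgEquiv.symm_apply_eq, MvPowerSeries.finSuccEquiv_C]

theorem zEmb_small {j : ℕ} {g : MvPowerSeries (Fin d) k}
    (hg : ∀ a, a.degree < j → MvPowerSeries.coeff a g = 0) :
    zEmb g ∈ maximalIdeal (MvPowerSeries (Fin (d + 1)) k) ^ j := by
  have h0 : MvPowerSeries.truncTotal j g = 0 := MvPolynomial.ext _ _ fun a => by
    rw [MvPolynomial.coeff_zero]
    by_cases ha : a.degree < j
    · rw [MvPowerSeries.coeff_truncTotal _ ha, hg a ha]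
    · exact MvPowerSeries.coeff_truncTotal_eq_zero _ (not_lt.1 ha)
  have h1 := Stage2.sub_trunc_mem g j
  rw [h0, MvPolynomial.coe_zero, zero_sub, neg_mem_iff] at h1
  have h2 := Ideal.mem_map_of_mem (zEmb (k := k) (d := d)) h1
  rw [Ideal.map_pow] at h2
  refine Ideal.pow_right_mono ?_ j h2
  rw [Ideal.map_span, Ideal.span_le]
  rintro _ ⟨_, ⟨i, rfl⟩, rfl⟩
  rw [zEmb_X]
  exact X_mem_maximalIdeal _

variable (p) in
/-- The coefficients at level `n` modulo `p`. -/
noncomputable def resLevel (n : ℕ) : WittVector p k →+* k :=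
  (iterateFrobenius k p n).comp WittVector.constantCoeff

theorem resLevel_surjective (n : ℕ) : Function.Surjective (resLevel p (k := k) n) := fun a => by
  refine ⟨WittVector.teichmuller p ((iterateFrobeniusEquiv k p n).symm a), ?_⟩
  rw [resLevel, RingHom.comp_apply, constantCoeff_teichmuller, ← iterateFrobeniusEquiv_apply,
    RingEquiv.apply_symm_apply]

theorem p_dvd_of_resLevel_eq_zero (n : ℕ) {w : WittVector p k} (h : resLevel p n w = 0) :
    (p : WittVector p k) ∣ w := by
  rw [resLevel, RingHom.comp_apply] at h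
  exact (dvd_iff_constantCoeff_eq_zero w).2 ((iterateFrobenius_inj k p n) (h.trans (map_zero _).symm))

theorem preLevel_constantCoeff_poly (n : ℕ) (P : MvPolynomial (Fin d) (WittVector p k)) :
    WittVector.constantCoeff (preLevel n (P : MvPowerSeries (Fin d) (WittVector p k))) =
      zEmb (MvPowerSeries.map (resLevel p n) (P : MvPowerSeries (Fin d) (WittVector p k))) := by
  induction P using MvPolynomial.induction_on with
  | C a =>
    rw [MvPolynomial.coe_C, preLevel_C, MvPowerSeries.map_C, zEmb_C]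
    simp [chiLevel, resLevel, WittVector.constantCoeff, WittVector.map_coeff]
  | add a b ha hb => rw [MvPolynomial.coe_add, map_add, map_add, map_add, map_add, ha, hb]
  | mul_X a i ha =>
    rw [MvPolynomial.coe_mul, MvPolynomial.coe_X, map_mul, map_mul, map_mul, map_mul, ha,
      preLevel_X, constantCoeff_teichmuller, MvPowerSeries.map_X, zEmb_X]

theorem preLevel_constantCoeff (n : ℕ) (f : MvPowerSeries (Fin d) (WittVector p k)) :
    WittVector.constantCoeff (preLevel n f) = zEmb (MvPowerSeries.map (resLevel p n) f) := by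
  refine sub_eq_zero.1 (IsHausdorff.haus
    (inferInstance : IsHausdorff (maximalIdeal (MvPowerSeries (Fin (d + 1)) k)) _) _ fun j => ?_)
  rw [SModEq.zero, smul_eq_mul, Ideal.mul_top]
  set P : MvPolynomial (Fin d) (WittVector p k) := MvPowerSeries.truncTotal j f
  have h0 : ∀ a, a.degree < j →
      MvPowerSeries.coeff a (f - (P : MvPowerSeries (Fin d) (WittVector p k))) = 0 := fun a ha => by
    rw [map_sub, MvPolynomial.coeff_coe, MvPowerSeries.coeff_truncTotal _ ha, sub_self]
  have h1 : WittVector.constantCoeff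
      (preLevel n (f - (P : MvPowerSeries (Fin d) (WittVector p k)))) ∈
      maximalIdeal (MvPowerSeries (Fin (d + 1)) k) ^ j := by
    have h := congrArg (fun z => WittVector.coeff z 0) (preLevel_small n j _ h0)
    simp only [WittVector.map_coeff, WittVector.zero_coeff, Ideal.Quotient.eq_zero_iff_mem] at h
    exact h
  have h2 : zEmb (MvPowerSeries.map (resLevel p n)
      (f - (P : MvPowerSeries (Fin d) (WittVector p k)))) ∈
      maximalIdeal (MvPowerSeries (Fin (d + 1)) k) ^ j :=
    zEmb_small fun a ha => by rw [MvPowerSeries.coeff_map, h0 a ha, map_zero]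
  have h3 := sub_mem h1 h2
  rw [map_sub, map_sub, map_sub, map_sub, preLevel_constantCoeff_poly] at h3
  simpa using h3

theorem untiltModP_unramLevel (n : ℕ) (f : MvPowerSeries (Fin d) (WittVector p k)) :
    untiltModP _ (unramLevel n f) =
      Ideal.Quotient.mk (span {cX (p := p) (k := k) (0 : Fin (d + 1))})
        (cRoot n (cOf (zEmb (MvPowerSeries.map (resLevel p n) f)))) := by
  rw [unramLevel, RingHom.comp_apply, RingHom.comp_apply, untiltModP_mk]
  congr 1
  show (WittVector.map ((cRoot n).toRingHom.comp cOf) (preLevel n f)).coeff 0 = _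
  rw [WittVector.map_coeff, ← preLevel_constantCoeff]
  rfl

variable (p k d) in
/-- The power series behind a representative at level `n`. -/
noncomputable def levelSeries (n : ℕ) :
    Polynomial (MvPowerSeries (Fin d) (WittVector p k)) →+* MvPowerSeries (Fin (d + 1)) k :=
  Polynomial.eval₂RingHom (zEmb.comp (MvPowerSeries.map (resLevel p n))) (MvPowerSeries.X 0)

theorem untiltModP_levelMap (n : ℕ) (P : Polynomial (MvPowerSeries (Fin d) (WittVector p k))) :
    untiltModP _ (levelMap n (fromAdjoin n (AdjoinRoot.mk _ P))) =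
      Ideal.Quotient.mk (span {cX (p := p) (k := k) (0 : Fin (d + 1))})
        (cRoot n (cOf (levelSeries p k d n P))) := by
  rw [levelMap_fromAdjoin, AdjoinRoot.lift_mk, Polynomial.hom_eval₂, untiltModP_sharp,
    levelSeries, Polynomial.coe_eval₂RingHom]
  refine Eq.trans ?_ (Polynomial.hom_eval₂ P _
    ((Ideal.Quotient.mk (span {cX (p := p) (k := k) (0 : Fin (d + 1))})).comp
      ((cRoot n).toRingHom.comp cOf)) _).symm
  congr 1
  exact RingHom.ext fun f => untiltModP_unramLevel n f

theorem levelSeries_surjective_mod (n : ℕ) (g : MvPowerSeries (Fin (d + 1)) k) :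
    ∃ P : Polynomial (MvPowerSeries (Fin d) (WittVector p k)),
      MvPowerSeries.X 0 ^ p ^ n ∣ g - levelSeries p k d n P := by
  classical
  set e := MvPowerSeries.finSuccEquiv k d
  have hsurj : Function.Surjective (MvPowerSeries.map (σ := Fin d) (resLevel p (k := k) n)) := by
    intro h
    choose w hw using fun a => resLevel_surjective (p := p) n (MvPowerSeries.coeff a h)
    exact ⟨fun a => w a, MvPowerSeries.ext fun a => (MvPowerSeries.coeff_map _ _ _).trans (hw a)⟩
  obtain ⟨P, hP⟩ := Polynomial.map_surjective _ hsurj (PowerSeries.trunc (p ^ n) (e g))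
  refine ⟨P, ?_⟩
  have hcoe : e (levelSeries p k d n P) =
      (↑(P.map (MvPowerSeries.map (resLevel p n))) : PowerSeries (MvPowerSeries (Fin d) k)) := by
    have hhom : (e.toRingEquiv.toRingHom).comp (levelSeries p k d n) =
        Polynomial.coeToPowerSeries.ringHom.comp
          (Polynomial.mapRingHom (MvPowerSeries.map (resLevel p (k := k) n))) := by
      refine Polynomial.ringHom_ext (fun f => ?_) ?_
      · simp [levelSeries, zEmb, e]
      · simp [levelSeries, e, MvPowerSeries.finSuccEquiv_X_zero]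
    exact RingHom.congr_fun hhom P
  have hdvd : PowerSeries.X ^ p ^ n ∣ e g - e (levelSeries p k d n P) := by
    rw [hcoe, hP, PowerSeries.X_pow_dvd_iff]
    intro m hm
    rw [map_sub, Polynomial.coeff_coe, PowerSeries.coeff_trunc, if_pos hm, sub_self]
  obtain ⟨c, hc⟩ := hdvd
  refine ⟨e.symm c, e.injective ?_⟩
  rw [map_sub, map_mul, map_pow, MvPowerSeries.finSuccEquiv_X_zero, AlgEquiv.apply_symm_apply, hc]

theorem p_dvd_of_levelSeries (n : ℕ) {P : Polynomial (MvPowerSeries (Fin d) (WittVector p k))}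
    (hdeg : ∀ i, p ^ n ≤ i → P.coeff i = 0) (h : MvPowerSeries.X 0 ^ p ^ n ∣ levelSeries p k d n P) :
    ∃ Q, P = Polynomial.C (p : MvPowerSeries (Fin d) (WittVector p k)) * Q := by
  classical
  refine (Polynomial.C_dvd_iff_dvd_coeff _ _).2 fun i => ?_
  rcases lt_or_ge i (p ^ n) with hi | hi
  swap
  · rw [hdeg i hi]
    exact dvd_zero _
  rw [← map_natCast (MvPowerSeries.C (σ := Fin d) (R := WittVector p k)), C_dvd_iff]
  intro a
  refine p_dvd_of_resLevel_eq_zero n ?_
  have h1 := map_dvd (MvPowerSeries.finSuccEquiv k d) h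
  rw [map_pow, MvPowerSeries.finSuccEquiv_X_zero, PowerSeries.X_pow_dvd_iff] at h1
  have h2 := congrArg (MvPowerSeries.coeff a) (h1 i hi)
  rw [map_zero, levelSeries, Polynomial.coe_eval₂RingHom, Polynomial.eval₂_eq_sum_range, map_sum,
    map_sum, map_sum] at h2
  rw [Finset.sum_eq_single i] at h2
  · rw [← h2, map_mul, map_pow, MvPowerSeries.finSuccEquiv_X_zero, RingHom.comp_apply, zEmb,
      RingHom.comp_apply]
    show _ = MvPowerSeries.coeff a (PowerSeries.coeff i (MvPowerSeries.finSuccEquiv k d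
      ((MvPowerSeries.finSuccEquiv k d).symm _) * _))
    rw [AlgEquiv.apply_symm_apply, PowerSeries.coeff_C_mul, PowerSeries.coeff_X_pow_self, mul_one,
      MvPowerSeries.coeff_map]
  · intro b _ hb
    rw [map_mul, map_pow, MvPowerSeries.finSuccEquiv_X_zero, RingHom.comp_apply, zEmb,
      RingHom.comp_apply]
    show MvPowerSeries.coeff a (PowerSeries.coeff i (MvPowerSeries.finSuccEquiv k d
      ((MvPowerSeries.finSuccEquiv k d).symm _) * _)) = 0
    rw [AlgEquiv.apply_symm_apply, PowerSeries.coeff_C_mul, PowerSeries.coeff_X_pow,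
      if_neg (Ne.symm hb), mul_zero, map_zero]
  · intro hi'
    rw [Finset.mem_range, not_lt] at hi'
    rw [Polynomial.coeff_eq_zero_of_natDegree_lt (by omega)]
    simp

variable (p k d) in
/-- The union of the levels in the untilt. -/
noncomputable def colMap : Acol p k (Fin d) →+* BaseUntilt p k d :=
  DirectLimit.Ring.lift (An p k (Fin d)) (trf p k (Fin d)) _ levelMap
    fun _ _ h x => levelMap_tr h x

theorem colMap_incl (n : ℕ) (f : An p k (Fin d) n) :
    colMap p k d (incl p k (Fin d) n f) = levelMap n f := rfl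

theorem colMap_surjective_modP (x : BaseUntilt p k d) :
    ∃ a, (p : BaseUntilt p k d) ∣ colMap p k d a - x := by
  obtain ⟨b, hb⟩ := exists_eq_sharp_add _ x
  obtain ⟨n, g, hg⟩ := exists_pow_eq_cOf b
  obtain ⟨P, c, hc⟩ := levelSeries_surjective_mod (p := p) n g
  refine ⟨incl p k (Fin d) n (fromAdjoin n (AdjoinRoot.mk _ P)), ?_⟩
  rw [← untiltModP_eq_zero_iff, map_sub, colMap_incl, untiltModP_levelMap, sub_eq_zero]
  have hx : untiltModP _ x = untiltModP _ (sharp _ b) := by
    rw [← sub_eq_zero, ← map_sub, untiltModP_eq_zero_iff]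
    exact hb
  rw [hx, untiltModP_sharp, Ideal.Quotient.eq, mem_span_singleton]
  refine ⟨-(cRoot n (cOf c)), ?_⟩
  have hbn : b = cRoot n (cOf g) := by
    rw [← hg, cRoot, ← iterateFrobenius_def, ← iterateFrobeniusEquiv_apply,
      RingEquiv.symm_apply_apply]
  have hX : cX (p := p) (k := k) (0 : Fin (d + 1)) =
      cRoot n (cOf (MvPowerSeries.X 0 ^ p ^ n)) := by
    rw [map_pow, cRoot, ← iterateFrobenius_def, ← iterateFrobeniusEquiv_apply,
      RingEquiv.symm_apply_apply]
    rfl
  rw [hbn, hX, mul_neg, ← map_sub, ← map_sub, ← map_mul, ← map_mul, ← hc, ← map_neg, ← map_neg,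
    neg_sub]

theorem p_dvd_of_colMap {a : Acol p k (Fin d)} (h : (p : BaseUntilt p k d) ∣ colMap p k d a) :
    (p : Acol p k (Fin d)) ∣ a := by
  obtain ⟨n, f, rfl⟩ := exists_incl a
  obtain ⟨z, rfl⟩ := (fromAdjoin_bijective n).2 f
  obtain ⟨P₀, rfl⟩ := AdjoinRoot.mk_surjective z
  set P := P₀ %ₘ unramPoly p k d n
  have hP : AdjoinRoot.mk (unramPoly p k d n) P₀ = AdjoinRoot.mk _ P := by
    rw [AdjoinRoot.mk_eq_mk]
    exact ⟨P₀ /ₘ unramPoly p k d n, sub_eq_iff_eq_add'.2
      (Polynomial.modByMonic_add_div P₀ (unramPoly p k d n)).symm⟩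
  rw [hP] at h ⊢
  rw [← untiltModP_eq_zero_iff, colMap_incl, untiltModP_levelMap,
    Ideal.Quotient.eq_zero_iff_mem, mem_span_singleton] at h
  obtain ⟨c, hc⟩ := h
  obtain ⟨e, c', hc'⟩ := exists_pow_eq_cOf (c ^ p ^ n)
  have hdvd : (MvPowerSeries.X 0 ^ p ^ n : MvPowerSeries (Fin (d + 1)) k) ^ p ^ e ∣
      levelSeries p k d n P ^ p ^ e := by
    refine ⟨c', cOf_injective (p := p) ?_⟩
    have h1 : cOf (levelSeries p k d n P) = cX (p := p) 0 ^ p ^ n * c ^ p ^ n := by
      rw [← mul_pow, ← hc, cRoot, ← iterateFrobenius_def, ← iterateFrobeniusEquiv_apply,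
        RingEquiv.apply_symm_apply]
    rw [map_mul, map_pow, map_pow, map_pow, h1, ← hc', mul_pow]
    rfl
  have : IsIntegrallyClosed (MvPowerSeries (Fin (d + 1)) k) :=
    isIntegrallyClosed_of_divClosed (divClosed_mvPowerSeries k _)
  rw [IsIntegrallyClosed.pow_dvd_pow_iff (pow_ne_zero e hp.out.ne_zero)] at hdvd
  obtain ⟨Q, hQ⟩ := p_dvd_of_levelSeries n (P := P) (fun i hi => by
    refine Polynomial.coeff_eq_zero_of_natDegree_lt (lt_of_lt_of_le ?_ hi)
    have hdeg : (unramPoly p k d n).natDegree = p ^ n := Polynomial.natDegree_X_pow_sub_C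
    calc P.natDegree < (unramPoly p k d n).natDegree :=
          Polynomial.natDegree_modByMonic_lt _ (unramPoly_monic n) fun h1 => by
            rw [h1, Polynomial.natDegree_one] at hdeg
            exact pow_ne_zero n hp.out.ne_zero hdeg.symm
      _ = p ^ n := hdeg) hdvd
  refine ⟨incl p k (Fin d) n (fromAdjoin n (AdjoinRoot.mk _ Q)), ?_⟩
  simp [hQ]

theorem colMap_surjective_mod (K : ℕ) (x : BaseUntilt p k d) :
    ∃ a, (p : BaseUntilt p k d) ^ K ∣ colMap p k d a - x := by
  induction K with
  | zero => exact ⟨0, by simp⟩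
  | succ K ih =>
    obtain ⟨a, c, hc⟩ := ih
    obtain ⟨b, e, he⟩ := colMap_surjective_modP (-c)
    refine ⟨a + (p : Acol p k (Fin d)) ^ K * b, e, ?_⟩
    rw [map_add, map_mul, map_pow, map_natCast, pow_succ]
    linear_combination hc + (p : BaseUntilt p k d) ^ K * he

theorem pow_dvd_of_colMap {K : ℕ} {a : Acol p k (Fin d)}
    (h : (p : BaseUntilt p k d) ^ K ∣ colMap p k d a) : (p : Acol p k (Fin d)) ^ K ∣ a := by
  induction K generalizing a with
  | zero => simp
  | succ K ih =>
    obtain ⟨b, rfl⟩ := p_dvd_of_colMap (dvd_trans (dvd_pow_self _ K.succ_ne_zero) h)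
    obtain ⟨c, hc⟩ := h
    rw [map_mul, map_natCast, pow_succ', mul_assoc] at hc
    rw [pow_succ']
    exact mul_dvd_mul_left _ (ih ⟨c, mul_left_cancel_p (cX_ne_zero 0) hc⟩)

end Vale.Agent.P202.Mixed2
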