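import Vale.Agent.P202.Mixed2.Cover.Model
import Vale.Agent.P202.Mixed2.Cover.ModP
import Vale.Agent.P202.Mixed2.BaseTower
import Vale.Agent.P202.Mixed2.Choices
import Vale.Agent.P202.Mixed2.Sums

/-!
# The cover as an algebra over the union of the levels

`E.O` is the untilt over `E.B`, `E.TK K` its reduction modulo `p ^ K`. For a monic polynomial over the
base with lower coefficients in the maximal ideal there is a cover on which it splits modulo `p ^ K`;
the root maps and the discriminant are recorded.
-/

namespace Vale.Agent.P202.Mixed2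

open Ideal IsLocalRing Vale.Agent.P202.Char Vale.Agent.P202.Perf.Base

universe u

variable {p : ℕ} [hp : Fact p.Prime] {k : Type u} [Field k] [CharP k p] [PerfectRing k p] {d : ℕ}

namespace CoverExt

variable (E : CoverExt p k (d + 1))

/-- The untilt of the cover. -/
abbrev O : Type u := Untilt p (E.inB (cX (0 : Fin (d + 1))))

/-- The union of the levels in the untilt of the cover. -/
noncomputable def toO : Acol p k (Fin d) →+* E.O :=
  (mapUntilt E.inB (cX (0 : Fin (d + 1)))).comp (colMap p k d)

noncomputable instance algColO : Algebra (Acol p k (Fin d)) E.O := E.toO.toAlgebra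

noncomputable instance algBotO : Algebra (An p k (Fin d) 0) E.O :=
  (E.toO.comp (incl p k (Fin d) 0)).toAlgebra

instance towerO : IsScalarTower (An p k (Fin d) 0) (Acol p k (Fin d)) E.O :=
  IsScalarTower.of_algebraMap_eq fun _ => rfl

theorem algebraMap_col (a : Acol p k (Fin d)) :
    algebraMap (Acol p k (Fin d)) E.O a = mapUntilt E.inB (cX 0) (colMap p k d a) := rfl

theorem algebraMap_bot (a : An p k (Fin d) 0) :
    algebraMap (An p k (Fin d) 0) E.O a = mapUntilt E.inB (cX 0) (levelMap 0 a) := rfl

/-- The cover modulo `p ^ K`. -/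
abbrev TK (K : ℕ) : Type u := E.O ⧸ span {(p : E.O) ^ K}

/-- Teichmüller elements modulo `p ^ K`. -/
noncomputable def sharpT (K : ℕ) : E.B →* E.TK K :=
  (Ideal.Quotient.mk (span {(p : E.O) ^ K})).toMonoidHom.comp (sharp _)

theorem sharpT_apply (K : ℕ) (b : E.B) :
    E.sharpT K b = Ideal.Quotient.mk _ (sharp (E.inB (cX 0)) b) := rfl

end CoverExt

section Base

variable (p k d) in
/-- The regular base as the bottom level. -/
noncomputable def baseIso : Base p k d →+* An p k (Fin d) 0 :=
  MvPowerSeries.map (AdjoinRoot.of (Perf.Base.rootPoly p k 0))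

theorem levelMap_baseIso (f : Base p k d) :
    levelMap 0 (baseIso p k d f) = unramLevel 0 f :=
  levelMap_map 0 f

theorem baseIso_bijective : Function.Bijective (baseIso p k d) := by
  refine ⟨?_, fun g => ?_⟩
  · intro f g h
    refine MvPowerSeries.ext fun a => ?_
    refine AdjoinRoot.of.injective_of_degree_ne_zero (Perf.Base.rootPoly_degree_ne_zero 0) ?_
    have h' := congrArg (MvPowerSeries.coeff a) h
    simpa [baseIso] using h'
  · have hsurj : Function.Surjective (AdjoinRoot.of (Perf.Base.rootPoly p k 0)) := by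
      intro x
      obtain ⟨P, rfl⟩ := AdjoinRoot.mk_surjective x
      refine ⟨P.eval (p : WittVector p k), ?_⟩
      rw [← AdjoinRoot.mk_C, AdjoinRoot.mk_eq_mk]
      have h : Perf.Base.rootPoly p k 0 = Polynomial.X - Polynomial.C (p : WittVector p k) := by
        simp [Perf.Base.rootPoly]
      rw [h]
      exact dvd_sub_comm.1 (Polynomial.X_sub_C_dvd_sub_C_eval)
    choose w hw using fun a => hsurj (MvPowerSeries.coeff a g)
    exact ⟨fun a => w a, MvPowerSeries.ext fun a => (MvPowerSeries.coeff_map _ _ _).trans (hw a)⟩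

/-- A nonunit of the base is congruent modulo `p` to a topologically nilpotent Teichmüller element. -/
theorem exists_sharp_nonunit {f : Base p k d} (hf : ¬IsUnit f) :
    ∃ x : MvPowerSeries (Fin (d + 1)) k, x ∈ maximalIdeal (MvPowerSeries (Fin (d + 1)) k) ∧
      (p : BaseUntilt p k d) ∣ unramLevel 0 f - sharp _ (cOf x) := by
  refine ⟨zEmb (MvPowerSeries.map (resLevel p 0) f), ?_, ?_⟩
  · have h := zEmb_small (j := 1) (g := MvPowerSeries.map (resLevel p (k := k) 0) f) fun a ha => by
      rw [Nat.lt_one_iff, Finsupp.degree_eq_zero_iff] at ha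
      subst ha
      rw [MvPowerSeries.coeff_map, MvPowerSeries.coeff_zero_eq_constantCoeff_apply]
      rw [MvPowerSeries.isUnit_iff_constantCoeff] at hf
      rw [resLevel, RingHom.comp_apply]
      have h0 : WittVector.constantCoeff (MvPowerSeries.constantCoeff f) = 0 := by
        by_contra hne
        exact hf (WittVector.isUnit_of_coeff_zero_ne_zero _ hne)
      rw [h0, map_zero]
    rwa [pow_one] at h
  · rw [← untiltModP_eq_zero_iff, map_sub, untiltModP_unramLevel, untiltModP_sharp, sub_eq_zero]
    congr 1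
    rw [cRoot, RingEquiv.symm_apply_eq, iterateFrobeniusEquiv_apply, iterateFrobenius_def, pow_zero,
      pow_one]

end Base

/-- A cover on which the polynomial splits modulo `p ^ K`. -/
theorem exists_cover (Φ : Polynomial (Base p k d)) (hm : Φ.Monic)
    (hc : ∀ i < Φ.natDegree, ¬IsUnit (Φ.coeff i)) (K : ℕ) :
    ∃ (E : CoverExt p k (d + 1)) (τ : Fin Φ.natDegree → E.B),
      (Φ.map (baseIso p k d)).map (algebraMap (An p k (Fin d) 0) (E.TK K)) =
          ∏ i, (Polynomial.X - Polynomial.C (E.sharpT K (τ i))) ∧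
        ∀ i, ∃ N : ℕ, τ i ^ N ∈ span (Set.range fun l => E.inB (cX l)) := by
  choose x hx hxd using fun j : Fin Φ.natDegree => exists_sharp_nonunit (hc j j.2)
  obtain ⟨E, τ, hroot, hnil⟩ := exists_rootModel (fun j : Fin Φ.natDegree => unramLevel 0 (Φ.coeff j))
    (fun j => cOf (x j)) hxd (fun j => ⟨0, x j, by rw [pow_zero, pow_one], hx j⟩) K
  refine ⟨E, τ, ?_, hnil⟩
  rcases subsingleton_or_nontrivial (E.TK K) with h | h
  · exact Subsingleton.elim _ _
  have hprod : (∏ i, (Polynomial.X - Polynomial.C (E.sharpT K (τ i)))) =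
      (rootPoly fun i => sharp (E.inB (cX 0)) (τ i)).map (Ideal.Quotient.mk (span {(p : E.O) ^ K})) := by
    rw [map_rootPoly]
    rfl
  rw [hprod]
  refine Polynomial.ext fun j => ?_
  rw [Polynomial.coeff_map, Polynomial.coeff_map, Polynomial.coeff_map,
    IsScalarTower.algebraMap_apply (An p k (Fin d) 0) E.O (E.TK K), E.algebraMap_bot,
    levelMap_baseIso, Ideal.Quotient.algebraMap_eq]
  have hr : (rootPoly fun i => sharp (p := p) (E.inB (cX 0)) (τ i)).Monic :=
    Polynomial.monic_prod_of_monic _ _ fun i _ => Polynomial.monic_X_sub_C _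
  have : Nontrivial E.O := (Ideal.Quotient.mk (span {(p : E.O) ^ K})).domain_nontrivial
  have hrd : (rootPoly fun i => sharp (p := p) (E.inB (cX 0)) (τ i)).natDegree = Φ.natDegree := by
    rw [rootPoly, Polynomial.natDegree_prod_of_monic _ _ fun i _ => Polynomial.monic_X_sub_C _]
    simp
  rcases lt_trichotomy j Φ.natDegree with hj | rfl | hj
  · rw [eq_comm, Ideal.Quotient.eq, mem_span_singleton]
    exact hroot ⟨j, hj⟩
  · rw [hm.coeff_natDegree, map_one, map_one, map_one]
    have := hr.coeff_natDegree
    rw [hrd] at this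
    rw [this, map_one]
  · rw [Polynomial.coeff_eq_zero_of_natDegree_lt hj,
      Polynomial.coeff_eq_zero_of_natDegree_lt (by omega : (rootPoly fun i => sharp (p := p) (E.inB (cX 0)) (τ i)).natDegree < j), map_zero, map_zero, map_zero]

section RootMap

variable {E : CoverExt p k (d + 1)} {K r : ℕ} {τ : Fin r → E.B}
variable {Φ₀ : Polynomial (An p k (Fin d) 0)}

/-- The root maps. -/
noncomputable def rootMap
    (h : Φ₀.map (algebraMap (An p k (Fin d) 0) (E.TK K)) =
      ∏ i, (Polynomial.X - Polynomial.C (E.sharpT K (τ i)))) (i : Fin r) :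
    AdjoinRoot Φ₀ →ₐ[An p k (Fin d) 0] E.TK K :=
  AdjoinRoot.liftAlgHom Φ₀ (Algebra.ofId _ _) (E.sharpT K (τ i)) (by
    show Polynomial.eval₂ (algebraMap (An p k (Fin d) 0) (E.TK K)) _ Φ₀ = 0
    rw [← Polynomial.eval_map, h, Polynomial.eval_prod]
    exact Finset.prod_eq_zero (Finset.mem_univ i) (by simp))

theorem rootMap_root
    (h : Φ₀.map (algebraMap (An p k (Fin d) 0) (E.TK K)) =
      ∏ i, (Polynomial.X - Polynomial.C (E.sharpT K (τ i)))) (i : Fin r) :
    rootMap h i (AdjoinRoot.root Φ₀) = E.sharpT K (τ i) := by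
  rw [rootMap, AdjoinRoot.liftAlgHom_root]

theorem rootMaps
    (h : Φ₀.map (algebraMap (An p k (Fin d) 0) (E.TK K)) =
      ∏ i, (Polynomial.X - Polynomial.C (E.sharpT K (τ i)))) :
    RootMaps (AdjoinRoot.root Φ₀) (rootMap h) :=
  ⟨AdjoinRoot.adjoinRoot_eq_top, Φ₀, by rw [AdjoinRoot.aeval_eq, AdjoinRoot.mk_self], by
    simp only [rootMap_root]
    exact h⟩

end RootMap

/-- The product of the differences of the roots is the discriminant up to sign. -/
theorem discProd_eq {S T : Type*} [CommRing S] [CommRing T] (f : S →+* T) {r : ℕ} (t : Fin r → T)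
    {Φ : Polynomial S} (hm : Φ.Monic) (hr : Φ.natDegree = r) (hpos : 0 < r)
    (h : Φ.map f = ∏ i, (Polynomial.X - Polynomial.C (t i))) :
    discProd t = f ((-1) ^ (r * (r - 1) / 2) * Φ.discr) := by
  classical
  nontriviality T
  have hdeg : 0 < Φ.degree := by
    rw [← Polynomial.natDegree_pos_iff_degree_pos, hr]
    exact hpos
  have h1 := Polynomial.resultant_deriv hdeg
  rw [hr, hm.leadingCoeff, mul_one] at h1
  rw [← h1, ← Polynomial.resultant_map_map, ← Polynomial.derivative_map, h]
  have hd : (∏ i, (Polynomial.X - Polynomial.C (t i))).natDegree = r := by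
    rw [Polynomial.natDegree_prod_of_monic _ _ fun i _ => Polynomial.monic_X_sub_C _]
    simp
  have hnd : (Polynomial.derivative (∏ i, (Polynomial.X - Polynomial.C (t i)))).natDegree ≤ r - 1 :=
    (Polynomial.natDegree_derivative_le _).trans (by rw [hd])
  have key := Polynomial.resultant_prod_left Finset.univ
    (fun i => Polynomial.X - Polynomial.C (t i))
    (Polynomial.derivative (∏ i, (Polynomial.X - Polynomial.C (t i)))) (r - 1) (by simp) hnd
  rw [hd] at key
  rw [key, discProd]
  refine Finset.prod_congr rfl fun i hi => ?_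
  rw [Polynomial.natDegree_X_sub_C, Polynomial.resultant_X_sub_C_left (hg := hnd),
    show (∏ j, (Polynomial.X - Polynomial.C (t j))) = Lagrange.nodal Finset.univ t from rfl,
    Lagrange.eval_nodal_derivative_eval_node_eq hi, Lagrange.eval_nodal]

end Vale.Agent.P202.Mixed2
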