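import Vale.Agent.P202.Mixed2.Cover.Loss
import Mathlib.RingTheory.MvPowerSeries.NoZeroDivisors

/-!
# Approximations of a Teichmüller element of the base avoid a power of the maximal ideal

For `a ≠ 0` in the perfection there is one exponent `w` such that no element of the union of the
levels that is congruent to `sharp a` modulo `p ^ w` lies in the power `w` of the maximal ideal.
-/

namespace Vale.Agent.P202.Mixed2

open Ideal IsLocalRing Vale.Agent.P202.Perf.Base BaseTower Filter

universe u

variable {p : ℕ} [hp : Fact p.Prime] {k : Type u} [Field k] [CharP k p]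

/-- Membership in a power of the variables bounds the order from below. -/
theorem le_order_of_mem_pow {M s : ℕ} {y : MvPowerSeries (Fin M) k}
    (hy : y ∈ span (Set.range fun i : Fin M => (MvPowerSeries.X i : MvPowerSeries (Fin M) k)) ^ s) :
    (s : ℕ∞) ≤ y.order := by
  induction s generalizing y with
  | zero => simp
  | succ s ih =>
    rw [pow_succ] at hy
    induction hy using Submodule.mul_induction_on' with
    | mem_mul_mem a ha b hb =>
      have hb1 : (1 : ℕ∞) ≤ b.order := by
        induction hb using Submodule.span_induction with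
        | mem z hz =>
          obtain ⟨i, rfl⟩ := hz
          exact MvPowerSeries.one_le_order_iff_constCoeff_eq_zero.2 (MvPowerSeries.constantCoeff_X i)
        | zero => simp
        | add u v _ _ hu hv => exact (le_min hu hv).trans MvPowerSeries.min_order_le_add
        | smul c z _ hz =>
          rw [smul_eq_mul, MvPowerSeries.order_mul]
          exact hz.trans le_add_self
      rw [MvPowerSeries.order_mul, Nat.cast_succ]
      exact add_le_add (ih ha) hb1
    | add a _ b _ ha hb => exact (le_min ha hb).trans MvPowerSeries.min_order_le_add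

theorem pow_p_mem {M : ℕ} (m : ℕ) {c : Cinf p k M}
    (hc : c ∈ span (Set.range fun i : Fin M => cX (p := p) (k := k) i) ^ m) :
    ∃ (N : ℕ) (y : MvPowerSeries (Fin M) k), c ^ p ^ N = cOf y ∧
      y ∈ span (Set.range fun i : Fin M => (MvPowerSeries.X i : MvPowerSeries (Fin M) k)) ^
        (m * p ^ N) := by
  have hadd : ∀ {s : ℕ} {a b : Cinf p k M},
      (∃ (N : ℕ) (y : MvPowerSeries (Fin M) k), a ^ p ^ N = cOf y ∧
        y ∈ span (Set.range fun i : Fin M => (MvPowerSeries.X i : MvPowerSeries (Fin M) k)) ^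
          (s * p ^ N)) →
      (∃ (N : ℕ) (y : MvPowerSeries (Fin M) k), b ^ p ^ N = cOf y ∧
        y ∈ span (Set.range fun i : Fin M => (MvPowerSeries.X i : MvPowerSeries (Fin M) k)) ^
          (s * p ^ N)) →
      ∃ (N : ℕ) (y : MvPowerSeries (Fin M) k), (a + b) ^ p ^ N = cOf y ∧
        y ∈ span (Set.range fun i : Fin M => (MvPowerSeries.X i : MvPowerSeries (Fin M) k)) ^
          (s * p ^ N) := by
    rintro s a b ⟨N, y, hy, hym⟩ ⟨N', z, hz, hzm⟩
    refine ⟨N + N', y ^ p ^ N' + z ^ p ^ N, ?_, add_mem ?_ ?_⟩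
    · rw [add_pow_char_pow, map_add, map_pow, map_pow, ← hy, ← hz, ← pow_mul, ← pow_mul, ← pow_add,
        ← pow_add, add_comm N' N]
    · rw [pow_add, ← mul_assoc, pow_mul]
      exact Ideal.pow_mem_pow hym _
    · rw [pow_add, mul_comm (p ^ N), ← mul_assoc, pow_mul]
      exact Ideal.pow_mem_pow hzm _
  induction m generalizing c with
  | zero =>
    obtain ⟨n, x, hx⟩ := exists_pow_eq_cOf c
    exact ⟨n, x, hx, by simp⟩
  | succ m ih =>
    rw [pow_succ] at hc
    induction hc using Submodule.mul_induction_on' with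
    | add a _ b _ ha hb => exact hadd ha hb
    | mem_mul_mem a ha b hb =>
      obtain ⟨N, y, hy, hym⟩ := ih ha
      obtain ⟨N', z, hz, hzm⟩ : ∃ (N : ℕ) (z : MvPowerSeries (Fin M) k), b ^ p ^ N = cOf z ∧
          z ∈ span (Set.range fun i : Fin M => (MvPowerSeries.X i : MvPowerSeries (Fin M) k)) ^
            (1 * p ^ N) := by
        induction hb using Submodule.span_induction with
        | mem x hx =>
          obtain ⟨i, rfl⟩ := hx
          refine ⟨0, MvPowerSeries.X i, by rw [pow_zero, pow_one]; rfl, ?_⟩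
          rw [pow_zero, one_mul, pow_one]
          exact Ideal.subset_span ⟨i, rfl⟩
        | zero => exact ⟨0, 0, by simp, zero_mem _⟩
        | add u v _ _ hu hv => exact hadd hu hv
        | smul e x _ hx =>
          obtain ⟨N, z, hz, hzm⟩ := hx
          obtain ⟨n, w, hw⟩ := exists_pow_eq_cOf e
          refine ⟨n + N, w ^ p ^ N * z ^ p ^ n, ?_, Ideal.mul_mem_left _ _ ?_⟩
          · rw [smul_eq_mul, mul_pow, map_mul, map_pow, map_pow, ← hw, ← hz, ← pow_mul, ← pow_mul,
              ← pow_add, ← pow_add, add_comm N n]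
          · rw [pow_add, mul_comm (p ^ n), ← mul_assoc, pow_mul]
            exact Ideal.pow_mem_pow hzm _
      refine ⟨N + N', y ^ p ^ N' * z ^ p ^ N, ?_, ?_⟩
      · rw [mul_pow, map_mul, map_pow, map_pow, ← hy, ← hz, ← pow_mul, ← pow_mul, ← pow_add,
          ← pow_add, add_comm N' N]
      · rw [show (m + 1) * p ^ (N + N') = m * p ^ N * p ^ N' + 1 * p ^ N' * p ^ N by ring, pow_add,
          pow_mul, pow_mul _ (1 * p ^ N')]
        exact Ideal.mul_mem_mul (Ideal.pow_mem_pow hym _) (Ideal.pow_mem_pow hzm _)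

/-- The powers of the variables in the perfection meet in zero. -/
theorem exists_not_mem_span_cX {M : ℕ} {a : Cinf p k M} (ha : a ≠ 0) :
    ∃ o, ∀ E, o < E → a ∉ span (Set.range fun i : Fin M => cX (p := p) (k := k) i) ^ E := by
  obtain ⟨n, x, hx⟩ := exists_pow_eq_cOf a
  have hx0 : x ≠ 0 := fun h => ha (by
    rw [h, map_zero] at hx
    exact (pow_eq_zero_iff (pow_ne_zero _ hp.out.ne_zero)).1 hx)
  obtain ⟨o, ho⟩ := ENat.ne_top_iff_exists.1 (mt MvPowerSeries.order_eq_top_iff.1 hx0)
  refine ⟨o, fun E hE hmem => ?_⟩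
  obtain ⟨N, y, hy, hym⟩ := pow_p_mem E hmem
  have h : x ^ p ^ N = y ^ p ^ n := cOf_injective (p := p) (by
    rw [map_pow, map_pow, ← hx, ← hy, ← pow_mul, ← pow_mul, mul_comm])
  have hord : ∀ (f : MvPowerSeries (Fin M) k) (j : ℕ), (f ^ j).order = j • f.order := by
    intro f j
    induction j with
    | zero =>
      rw [pow_zero, zero_smul]
      exact le_antisymm (MvPowerSeries.order_le (d := 0) (by simp)) zero_le
    | succ j ih => rw [pow_succ, MvPowerSeries.order_mul, ih, succ_nsmul]
  have h1 := congrArg MvPowerSeries.order h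
  rw [hord, hord, ← ho, nsmul_eq_mul, nsmul_eq_mul] at h1
  have h2 : ((p ^ n : ℕ) : ℕ∞) * ((E * p ^ N : ℕ) : ℕ∞) ≤ ((p ^ N : ℕ) : ℕ∞) * (o : ℕ∞) :=
    (mul_le_mul' le_rfl (le_order_of_mem_pow hym)).trans_eq h1.symm
  rw [← Nat.cast_mul, ← Nat.cast_mul, Nat.cast_le] at h2
  have hP : 0 < p ^ N := pow_pos hp.out.pos _
  have hn : 1 ≤ p ^ n := pow_pos hp.out.pos _
  have : E * p ^ N ≤ o * p ^ N := by
    rw [mul_comm o]
    exact (Nat.le_mul_of_pos_left _ hn).trans h2
  exact absurd (Nat.le_of_mul_le_mul_right this hP) (Nat.not_le.2 hE)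

variable [PerfectRing k p] {d : ℕ}

/-- An approximation of a Teichmüller element of the base avoids a fixed power of the maximal
ideal. -/
theorem exists_not_mem_of_sharp {a : Cinf p k (d + 1)} (ha : a ≠ 0) :
    ∃ w, ∀ K, w ≤ K → ∀ y : Acol p k (Fin d),
      (p : BaseUntilt p k d) ^ K ∣ colMap p k d y - sharp (cX (0 : Fin (d + 1))) a →
        y ∉ mPow p k (Fin d) w := by
  obtain ⟨o, ho⟩ := exists_not_mem_span_cX ha
  refine ⟨o + d + 2, fun K hK y ⟨c, hc⟩ hy => ho (o + d + 2 - 1 - d) (by omega) ?_⟩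
  refine Filt.mem_pow_of_sharp_mem (K := FractionRing (Cinf p k (d + 1))) (p := p) (M := 1)
    (π := cX (0 : Fin (d + 1))) (cX_ne_zero 0)
    (by rw [pow_one]; exact Ideal.mem_span_range_self (x := (0 : Fin (d + 1)))) ?_
  rw [show sharp (cX (0 : Fin (d + 1))) a = colMap p k d y - (p : BaseUntilt p k d) ^ K * c by
    rw [← hc, sub_sub_cancel]]
  exact sub_mem (colMap_mPow hy)
    (Ideal.mul_mem_right _ _ (Ideal.pow_le_pow_right hK (Ideal.pow_mem_pow p_mem_baseU K)))

/-- Approximations of deep roots of a nonzero element of the perfection are almost units. -/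
theorem almostUnit_approx {a : Cinf p k (d + 1)} (ha : a ≠ 0) :
    ∃ w, ∀ (L : ℕ) (I : Ideal (An p k (Fin d) 0)), maximalIdeal (An p k (Fin d) 0) ^ L ≤ I →
      ∀ β : ℕ → Acol p k (Fin d),
        (∀ j, (p : BaseUntilt p k d) ^ w ∣
          colMap p k d (β j) - sharp (cX (0 : Fin (d + 1))) (Filt.root p j a)) →
        AlmostUnit (lvl p k (Fin d)) (cc p (Fin d)) I β := by
  obtain ⟨w, hw⟩ := exists_not_mem_of_sharp ha
  refine ⟨w, fun L I hI β hβ => almostUnit L w I hI β (fun j => p ^ j)
    (tendsto_pow_atTop_atTop_of_one_lt hp.out.one_lt) fun j => hw w le_rfl _ ?_⟩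
  have h1 := (hβ j).trans (sub_dvd_pow_sub_pow _ _ (p ^ j))
  rwa [← map_pow, ← map_pow, Filt.root_pow] at h1

end Vale.Agent.P202.Mixed2
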