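import Vale.Agent.P202.Mixed2.Cover.BaseBasis
import Vale.Agent.P202.Mixed2.Cover.LossBase

/-!
# The cover is almost free over the union of the levels

Modulo an ideal `I` of the bottom level containing a power of the maximal ideal, the untilt of the
cover agrees with a fixed power of the union of the levels, up to almost units.
-/

namespace Vale.Agent.P202.Mixed2

open Ideal IsLocalRing Vale.Agent.P202.Perf.Base Filter BaseTower

universe u

variable {p : ℕ} [hp : Fact p.Prime] {k : Type u} [Field k] [CharP k p] [PerfectRing k p] {d : ℕ}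

section Weight

/-- Bounded powers of lifts of deep roots of `sharp a` are almost units. -/
theorem almostUnit_roots {a : Cinf p k (d + 1)} (ha : a ≠ 0) :
    ∃ w : ℕ, ∀ (L : ℕ) (I : Ideal (An p k (Fin d) 0)), maximalIdeal (An p k (Fin d) 0) ^ L ≤ I →
      ∀ (β : ℕ → Acol p k (Fin d)) (m e : ℕ), e ≤ p ^ m →
        (∀ j, (p : BaseUntilt p k d) ^ w ∣ colMap p k d (β j) - sharp _ (Filt.root p (j + m) a)) →
        AlmostUnit (lvl p k (Fin d)) (cc p (Fin d)) I fun j => β j ^ e := by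
  obtain ⟨w, hw⟩ := exists_not_mem_of_sharp ha
  refine ⟨w, fun L I hI β m e he hβ =>
    BaseTower.almostUnit L w I hI _ (fun j => p ^ j)
      (tendsto_pow_atTop_atTop_of_one_lt hp.out.one_lt) fun j hmem =>
        hw w le_rfl (β j ^ p ^ (j + m)) ?_ ?_⟩
  · have h1 := (hβ j).trans (sub_dvd_pow_sub_pow _ _ (p ^ (j + m)))
    rwa [← map_pow, ← map_pow, Filt.root_pow] at h1
  · rw [pow_add, mul_comm, pow_mul, show p ^ m = e + (p ^ m - e) by omega, pow_add, mul_pow]
    exact Ideal.mul_mem_right _ _ hmem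

end Weight

/-- `T` is free of rank `nT` over `B` modulo `I`, up to every `γ P`. -/
def AlmostFreeMod {A₀ B : Type*} [CommRing A₀] [CommRing B] [Algebra A₀ B] (T : Type*) [CommRing T]
    [Algebra A₀ T] [Algebra B T] (I : Ideal A₀) (nT : ℕ) (γ : ℕ → B) : Prop :=
  ∃ (f : ℕ → (Fin nT → B ⧸ extI B I) →ₗ[B] T ⧸ I.map (algebraMap A₀ T))
    (g : ℕ → (T ⧸ I.map (algebraMap A₀ T)) →ₗ[B] Fin nT → B ⧸ extI B I),
    (∀ P x, g P (f P x) = γ P • x) ∧ ∀ P x, f P (g P x) = γ P • x

/-- A linear map vanishing on an ideal factors through the quotient. -/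
theorem exists_quot_lift {A T V : Type*} [CommRing A] [CommRing T] [Algebra A T] [AddCommGroup V]
    [Module A V] (J : Ideal T) (G : T →ₗ[A] V) (h : J.restrictScalars A ≤ LinearMap.ker G) :
    ∃ g : (T ⧸ J) →ₗ[A] V, ∀ z, g (Ideal.Quotient.mk J z) = G z :=
  ⟨(J.restrictScalars A).liftQ G h ∘ₗ (Submodule.Quotient.restrictScalarsEquiv A J).symm.toLinearMap,
    fun _ => rfl⟩

/-- Almost inverse maps are transported along an equivalence. -/
theorem exists_maps_congr {A V W W' : Type*} [CommRing A] [AddCommGroup V] [Module A V]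
    [AddCommGroup W] [Module A W] [AddCommGroup W'] [Module A W'] (Φ : W' ≃ₗ[A] W) {γ : ℕ → A}
    {f : ℕ → V →ₗ[A] W} {g : ℕ → W →ₗ[A] V} (hgf : ∀ P x, g P (f P x) = γ P • x)
    (hfg : ∀ P x, f P (g P x) = γ P • x) :
    ∃ (f' : ℕ → V →ₗ[A] W') (g' : ℕ → W' →ₗ[A] V),
      (∀ P x, g' P (f' P x) = γ P • x) ∧ ∀ P x, f' P (g' P x) = γ P • x :=
  ⟨fun P => Φ.symm.toLinearMap ∘ₗ f P, fun P => g P ∘ₗ Φ.toLinearMap,
    fun P x => by simp [hgf], fun P x => by simp [hfg]⟩

/-- Maps between a quotient and a power from coordinates. -/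
theorem exists_maps_of_coord {A T : Type*} [CommRing A] [CommRing T] [Algebra A T] {n : ℕ}
    {I : Ideal A} (J : Ideal T) (F : (Fin n → A ⧸ I) →ₗ[A] T ⧸ J) (G : T →ₗ[A] Fin n → A ⧸ I)
    (h : J.restrictScalars A ≤ LinearMap.ker G) (es : Fin n → T) {c : A}
    (hF : ∀ a : Fin n → A, F (fun i => Submodule.Quotient.mk (a i)) =
      (Ideal.Quotient.mkₐ A J).toLinearMap (∑ i, algebraMap A T (a i) * es i))
    (hGF : ∀ a : Fin n → A, G (∑ i, algebraMap A T (a i) * es i) =
      c • fun i => (Submodule.Quotient.mk (a i) : A ⧸ I))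
    (hFG : ∀ z, F (G z) = (Ideal.Quotient.mkₐ A J).toLinearMap (algebraMap A T c * z)) :
    ∃ (f : (Fin n → A ⧸ I) →ₗ[A] T ⧸ J) (g : (T ⧸ J) →ₗ[A] Fin n → A ⧸ I),
      (∀ x, g (f x) = c • x) ∧ ∀ x, f (g x) = c • x := by
  obtain ⟨g, hg⟩ := exists_quot_lift J G h
  refine ⟨F, g, fun x => ?_, fun x => ?_⟩
  · choose a ha using fun i => Submodule.Quotient.mk_surjective _ (x i)
    obtain rfl : x = fun i => Submodule.Quotient.mk (a i) := funext fun i => (ha i).symm
    rw [hF]
    exact (hg _).trans (hGF a)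
  · obtain ⟨z, rfl⟩ := Ideal.Quotient.mk_surjective x
    rw [hg, hFG, ← Algebra.smul_def, map_smul]
    rfl

namespace CoverExt

variable (E : CoverExt p k (d + 1))

theorem algebraMap_natCast (c : ℕ) :
    algebraMap (Acol p k (Fin d)) E.O (c : Acol p k (Fin d)) = (c : E.O) := map_natCast _ _

variable {n : ℕ} {e : Fin n → E.B} {c₀ : Cinf p k (d + 1)}
  (hspan : ∀ b, ∃ c : Fin n → Cinf p k (d + 1), E.inB c₀ * b = ∑ i, E.inB (c i) * e i)
  (hind : ∀ c : Fin n → Cinf p k (d + 1), ∑ i, E.inB (c i) * e i = 0 → c = 0)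

include hspan in
/-- Modulo `p` the basis spans up to `sharp c₀`. -/
theorem span_modp (x : E.O) : ∃ a : Fin n → Acol p k (Fin d), (p : E.O) ∣
    sharp (E.inB (cX 0)) (E.inB c₀) * x -
      ∑ i, algebraMap (Acol p k (Fin d)) E.O (a i) * sharp (E.inB (cX 0)) (e i) := by
  obtain ⟨b, hb⟩ := exists_eq_sharp_add (E.inB (cX 0)) x
  obtain ⟨c, hc⟩ := hspan b
  choose a ha using fun i => colMap_surjective_modP (sharp (cX 0) (c i))
  refine ⟨a, ?_⟩
  have h1 := Filt.dvd_sharp_sum_sub (p := p) (π := E.inB (cX 0)) Finset.univ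
    fun i => E.inB (c i) * e i
  rw [← hc, map_mul] at h1
  have h2 : ∀ i, (p : E.O) ∣ sharp (E.inB (cX 0)) (E.inB (c i) * e i) -
      algebraMap (Acol p k (Fin d)) E.O (a i) * sharp (E.inB (cX 0)) (e i) := fun i => by
    rw [map_mul, ← sub_mul, E.algebraMap_col, ← mapUntilt_sharp E.inB]
    refine dvd_mul_of_dvd_left ?_ _
    rw [← map_sub, ← map_natCast (mapUntilt E.inB (cX (0 : Fin (d + 1)))), dvd_sub_comm] at *
    exact map_dvd _ (dvd_sub_comm.1 (ha i))
  rw [show sharp (E.inB (cX 0)) (E.inB c₀) * x -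
      ∑ i, algebraMap (Acol p k (Fin d)) E.O (a i) * sharp (E.inB (cX 0)) (e i) =
    sharp (E.inB (cX 0)) (E.inB c₀) * (x - sharp (E.inB (cX 0)) b) +
      (sharp (E.inB (cX 0)) (E.inB c₀) * sharp (E.inB (cX 0)) b -
        ∑ i, sharp (E.inB (cX 0)) (E.inB (c i) * e i)) +
      ∑ i, (sharp (E.inB (cX 0)) (E.inB (c i) * e i) -
        algebraMap (Acol p k (Fin d)) E.O (a i) * sharp (E.inB (cX 0)) (e i)) by
    rw [Finset.sum_sub_distrib]; ring]
  exact dvd_add (dvd_add (dvd_mul_of_dvd_right hb _) h1) (Finset.dvd_sum fun i _ => h2 i)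

include hspan hind in
/-- Modulo `p` the basis is independent up to `sharp c₀`. -/
theorem indep_modp {a : Fin n → Acol p k (Fin d)}
    (h : (p : E.O) ∣ ∑ i, algebraMap (Acol p k (Fin d)) E.O (a i) * sharp (E.inB (cX 0)) (e i))
    {s : Acol p k (Fin d)} (hs : (p : BaseUntilt p k d) ∣ colMap p k d s - sharp _ c₀) (i : Fin n) :
    (p : Acol p k (Fin d)) ∣ s * a i := by
  choose c hc using fun i => exists_eq_sharp_add (cX (0 : Fin (d + 1))) (colMap p k d (a i))
  have h1 : (p : E.O) ∣ sharp (E.inB (cX 0)) (∑ i, E.inB (c i) * e i) := by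
    have h2 := Filt.dvd_sharp_sum_sub (p := p) (π := E.inB (cX 0)) Finset.univ
      fun i => E.inB (c i) * e i
    refine (dvd_iff_dvd_of_dvd_sub h2).2 ?_
    refine (dvd_iff_dvd_of_dvd_sub ?_).1 h
    rw [← Finset.sum_sub_distrib]
    refine Finset.dvd_sum fun i _ => ?_
    rw [map_mul, ← sub_mul, E.algebraMap_col, ← mapUntilt_sharp E.inB, ← map_sub,
      ← map_natCast (mapUntilt E.inB (cX (0 : Fin (d + 1))))]
    exact dvd_mul_of_dvd_left (map_dvd _ (hc i)) _
  obtain ⟨b, hb⟩ := (p_dvd_sharp_iff _ _).1 h1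
  obtain ⟨c', hc'⟩ := hspan b
  have h3 : ∑ i, E.inB (c₀ * c i - cX 0 * c' i) * e i = 0 := by
    simp only [map_sub, sub_mul, Finset.sum_sub_distrib, map_mul, mul_assoc, ← Finset.mul_sum]
    rw [hb, ← hc']
    ring
  have h4 : c₀ * c i = cX 0 * c' i := sub_eq_zero.1 (congrFun (hind _ h3) i)
  refine dvd_trans (by rw [pow_one]) (pow_dvd_of_colMap (K := 1) ?_)
  rw [pow_one, map_mul]
  refine (dvd_iff_dvd_of_dvd_sub (dvd_mul_sub_mul hs (hc i))).2 ?_
  rw [← map_mul, h4, p_dvd_sharp_iff]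
  exact dvd_mul_right _ _

variable {s : Acol p k (Fin d)} {K : ℕ}
  (hs : (p : BaseUntilt p k d) ^ K ∣ colMap p k d s - sharp _ c₀)

include hs in
theorem dvd_algebraMap_sub : (p : E.O) ^ K ∣
    algebraMap (Acol p k (Fin d)) E.O s - sharp (E.inB (cX 0)) (E.inB c₀) := by
  have := map_dvd (mapUntilt E.inB (cX (0 : Fin (d + 1)))) hs
  rwa [map_pow, map_natCast, map_sub, mapUntilt_sharp, ← E.algebraMap_col] at this

include hspan hs in
/-- Spanning modulo powers of `p`. -/
theorem span_pow {t : ℕ} (ht : t ≤ K) (x : E.O) :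
    ∃ a : Fin n → Acol p k (Fin d), (p : E.O) ^ t ∣ algebraMap (Acol p k (Fin d)) E.O s ^ t * x -
      ∑ i, algebraMap (Acol p k (Fin d)) E.O (a i) * sharp (E.inB (cX 0)) (e i) := by
  induction t generalizing x with
  | zero => exact ⟨0, by simp⟩
  | succ t ih =>
    obtain ⟨a, z, hz⟩ := ih (by omega) x
    obtain ⟨a', hz'⟩ := E.span_modp hspan z
    set σ := algebraMap (Acol p k (Fin d)) E.O s with hσ
    have hσs : (p : E.O) ∣ σ - sharp (E.inB (cX 0)) (E.inB c₀) :=
      (dvd_pow_self _ (by omega)).trans (E.dvd_algebraMap_sub hs)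
    obtain ⟨z', hz''⟩ : (p : E.O) ∣ σ * z -
        ∑ i, algebraMap (Acol p k (Fin d)) E.O (a' i) * sharp (E.inB (cX 0)) (e i) := by
      refine (dvd_iff_dvd_of_dvd_sub ?_).2 hz'
      rw [sub_sub_sub_cancel_right, ← sub_mul]
      exact dvd_mul_of_dvd_left hσs _
    refine ⟨fun i => s * a i + (p : Acol p k (Fin d)) ^ t * a' i, z', ?_⟩
    simp only [map_add, map_mul, map_pow, map_natCast, add_mul, Finset.sum_add_distrib, mul_assoc,
      ← Finset.mul_sum]
    rw [← hσ, pow_succ' σ, pow_succ (p : E.O)]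
    linear_combination σ * hz + (p : E.O) ^ t * hz''

include hspan hind hs in
/-- Independence modulo powers of `p`. -/
theorem indep_pow {t : ℕ} (ht : t ≤ K) {a : Fin n → Acol p k (Fin d)}
    (h : (p : E.O) ^ t ∣
      ∑ i, algebraMap (Acol p k (Fin d)) E.O (a i) * sharp (E.inB (cX 0)) (e i)) (i : Fin n) :
    (p : Acol p k (Fin d)) ^ t ∣ s ^ t * a i := by
  induction t generalizing a i with
  | zero => simp
  | succ t ih =>
    choose a' ha' using fun i => E.indep_modp hspan hind ((dvd_pow_self _ (by omega)).trans h)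
      (s := s) ((dvd_pow_self _ (by omega)).trans hs) i
    obtain ⟨z, hz⟩ := h
    have h' : (p : E.O) ^ t ∣
        ∑ i, algebraMap (Acol p k (Fin d)) E.O (a' i) * sharp (E.inB (cX 0)) (e i) := by
      refine ⟨algebraMap (Acol p k (Fin d)) E.O s * z, mul_left_cancel_p
        (Fact.out : E.inB (cX (0 : Fin (d + 1))) ≠ 0) ?_⟩
      rw [← mul_assoc, ← pow_succ', mul_left_comm, ← hz, Finset.mul_sum, Finset.mul_sum]
      refine Finset.sum_congr rfl fun i _ => ?_
      rw [← mul_assoc, ← mul_assoc, ← map_mul, ha' i, map_mul, map_natCast]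
    obtain ⟨b, hb⟩ := ih (by omega) h' i
    refine ⟨b, ?_⟩
    rw [pow_succ, mul_assoc, ha' i, mul_left_comm, hb, ← mul_assoc, ← pow_succ']

theorem p_pow_mem_map {I : Ideal (An p k (Fin d) 0)} (hI : (p : An p k (Fin d) 0) ^ K ∈ I)
    {z : E.O} (hz : (p : E.O) ^ K ∣ z) : z ∈ I.map (algebraMap (An p k (Fin d) 0) E.O) := by
  refine Ideal.mem_of_dvd _ hz ?_
  rw [← map_natCast (algebraMap (An p k (Fin d) 0) E.O), ← map_pow]
  exact Ideal.mem_map_of_mem _ hI

theorem algebraMap_mem_map {I : Ideal (An p k (Fin d) 0)} {b : Acol p k (Fin d)}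
    (hb : b ∈ extI (Acol p k (Fin d)) I) :
    algebraMap (Acol p k (Fin d)) E.O b ∈ I.map (algebraMap (An p k (Fin d) 0) E.O) := by
  have h := Ideal.mem_map_of_mem (algebraMap (Acol p k (Fin d)) E.O) hb
  rwa [extI, Ideal.map_map, ← IsScalarTower.algebraMap_eq] at h

include hspan hind hs in
/-- The coordinates of the cover modulo `I`, up to `s ^ K`. -/
theorem exists_coord {I : Ideal (An p k (Fin d) 0)} (hI : (p : An p k (Fin d) 0) ^ K ∈ I) :
    ∃ G : E.O →ₗ[Acol p k (Fin d)] Fin n → Acol p k (Fin d) ⧸ extI (Acol p k (Fin d)) I,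
      ∀ (x : E.O) (a : Fin n → Acol p k (Fin d)),
        (p : E.O) ^ K ∣ algebraMap (Acol p k (Fin d)) E.O s ^ K * x -
            ∑ i, algebraMap (Acol p k (Fin d)) E.O (a i) * sharp (E.inB (cX 0)) (e i) →
          G x = fun i => Submodule.Quotient.mk (s ^ K * a i) := by
  choose ax hax using fun x => E.span_pow hspan hs le_rfl x
  have hpI : (p : Acol p k (Fin d)) ^ K ∈ extI (Acol p k (Fin d)) I := by
    rw [← map_natCast (algebraMap (An p k (Fin d) 0) (Acol p k (Fin d))), ← map_pow]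
    exact Ideal.mem_map_of_mem _ hI
  have huniq : ∀ (x : E.O) (a : Fin n → Acol p k (Fin d)),
      (p : E.O) ^ K ∣ algebraMap (Acol p k (Fin d)) E.O s ^ K * x -
          ∑ i, algebraMap (Acol p k (Fin d)) E.O (a i) * sharp (E.inB (cX 0)) (e i) →
      (fun i => (Submodule.Quotient.mk (s ^ K * ax x i) :
        Acol p k (Fin d) ⧸ extI (Acol p k (Fin d)) I)) =
        fun i => Submodule.Quotient.mk (s ^ K * a i) := by
    intro x a ha
    funext i
    refine (Submodule.Quotient.eq _).2 ?_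
    rw [← mul_sub]
    refine Ideal.mem_of_dvd _ (E.indep_pow hspan hind hs le_rfl (a := fun i => ax x i - a i) ?_ i) hpI
    have h := dvd_sub ha (hax x)
    rw [sub_sub_sub_cancel_left, ← Finset.sum_sub_distrib] at h
    simpa only [map_sub, sub_mul] using h
  refine ⟨{ toFun := fun x i => Submodule.Quotient.mk (s ^ K * ax x i)
            map_add' := fun x y => ?_
            map_smul' := fun b x => ?_ }, huniq⟩
  · rw [huniq (x + y) (fun i => ax x i + ax y i) (by
      simp only [map_add, add_mul, Finset.sum_add_distrib, mul_add]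
      rw [add_sub_add_comm]
      exact dvd_add (hax x) (hax y))]
    funext i
    simp only [Pi.add_apply, mul_add, Submodule.Quotient.mk_add]
  · rw [huniq (b • x) (fun i => b * ax x i) (by
      simp only [Algebra.smul_def, map_mul, mul_assoc, ← Finset.mul_sum]
      rw [mul_left_comm, ← mul_sub]
      exact dvd_mul_of_dvd_right (hax x) _)]
    funext i
    rw [RingHom.id_apply, Pi.smul_apply, ← Submodule.Quotient.mk_smul, smul_eq_mul, mul_left_comm]

theorem coord_ker {I : Ideal (An p k (Fin d) 0)}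
    (G : E.O →ₗ[Acol p k (Fin d)] Fin n → Acol p k (Fin d) ⧸ extI (Acol p k (Fin d)) I) :
    (I.map (algebraMap (An p k (Fin d) 0) E.O)).restrictScalars (Acol p k (Fin d)) ≤
      LinearMap.ker G := by
  intro z hz
  rw [Submodule.restrictScalars_mem] at hz
  suffices ∀ c : E.O, G (c * z) = 0 by simpa using this 1
  induction hz using Submodule.span_induction with
  | mem z hz =>
    obtain ⟨a, ha, rfl⟩ := hz
    intro c
    rw [mul_comm, IsScalarTower.algebraMap_apply (An p k (Fin d) 0) (Acol p k (Fin d)) E.O,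
      ← Algebra.smul_def, map_smul]
    funext i
    obtain ⟨b, hb⟩ := Submodule.Quotient.mk_surjective _ (G c i)
    rw [Pi.smul_apply, Pi.zero_apply, ← hb, ← Submodule.Quotient.mk_smul,
      Submodule.Quotient.mk_eq_zero, smul_eq_mul]
    exact Ideal.mul_mem_right _ _ (Ideal.mem_map_of_mem _ ha)
  | zero => intro c; rw [mul_zero, map_zero]
  | add x y _ _ hx hy => intro c; rw [mul_add, map_add, hx, hy, add_zero]
  | smul r x _ hx => intro c; rw [smul_eq_mul, ← mul_assoc]; exact hx _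

variable (e) in
/-- The combinations of the basis modulo `I`. -/
noncomputable def comb (I : Ideal (An p k (Fin d) 0)) :
    (Fin n → Acol p k (Fin d) ⧸ extI (Acol p k (Fin d)) I) →ₗ[Acol p k (Fin d)]
      E.O ⧸ I.map (algebraMap (An p k (Fin d) 0) E.O) :=
  ∑ i, ((extI (Acol p k (Fin d)) I).liftQ
    (LinearMap.toSpanSingleton (Acol p k (Fin d)) _
      ((Ideal.Quotient.mkₐ (Acol p k (Fin d)) _).toLinearMap (sharp (E.inB (cX 0)) (e i))))
    fun b hb => by
      rw [LinearMap.mem_ker, LinearMap.toSpanSingleton_apply, ← map_smul, Algebra.smul_def]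
      exact Ideal.Quotient.eq_zero_iff_mem.2
        (Ideal.mul_mem_right _ _ (E.algebraMap_mem_map hb))) ∘ₗ LinearMap.proj i

theorem comb_mk (I : Ideal (An p k (Fin d) 0)) (a : Fin n → Acol p k (Fin d)) :
    E.comb e I (fun i => Submodule.Quotient.mk (a i)) =
      (Ideal.Quotient.mkₐ (Acol p k (Fin d)) _).toLinearMap
        (∑ i, algebraMap (Acol p k (Fin d)) E.O (a i) * sharp (E.inB (cX 0)) (e i)) := by
  simp only [comb, LinearMap.sum_apply, LinearMap.comp_apply, LinearMap.proj_apply,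
    Submodule.liftQ_apply, LinearMap.toSpanSingleton_apply, map_sum]
  exact Finset.sum_congr rfl fun i _ => by rw [← map_smul, Algebra.smul_def]

theorem sum_mul_eq (K : ℕ) (a : Fin n → Acol p k (Fin d)) (es : Fin n → E.O) :
    algebraMap (Acol p k (Fin d)) E.O s ^ K * ∑ i, algebraMap (Acol p k (Fin d)) E.O (a i) * es i =
      ∑ i, algebraMap (Acol p k (Fin d)) E.O (s ^ K * a i) * es i := by
  rw [Finset.mul_sum]
  exact Finset.sum_congr rfl fun i _ => by rw [map_mul, map_pow, mul_assoc]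

/-- Coordinates of a combination. -/
theorem coord_comb {I : Ideal (An p k (Fin d) 0)}
    {G : E.O →ₗ[Acol p k (Fin d)] Fin n → Acol p k (Fin d) ⧸ extI (Acol p k (Fin d)) I}
    (hG : ∀ (x : E.O) (a : Fin n → Acol p k (Fin d)),
      (p : E.O) ^ K ∣ algebraMap (Acol p k (Fin d)) E.O s ^ K * x -
          ∑ i, algebraMap (Acol p k (Fin d)) E.O (a i) * sharp (E.inB (cX 0)) (e i) →
        G x = fun i => Submodule.Quotient.mk (s ^ K * a i))
    (a : Fin n → Acol p k (Fin d)) :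
    G (∑ i, algebraMap (Acol p k (Fin d)) E.O (a i) * sharp (E.inB (cX 0)) (e i)) =
      s ^ (2 * K) • fun i => (Submodule.Quotient.mk (a i) :
        Acol p k (Fin d) ⧸ extI (Acol p k (Fin d)) I) := by
  rw [hG _ (fun i => s ^ K * a i) (by rw [sum_mul_eq, sub_self]; exact dvd_zero _)]
  funext i
  rw [Pi.smul_apply, ← Submodule.Quotient.mk_smul, smul_eq_mul, two_mul, pow_add, mul_assoc]

include hspan hs in
/-- The combination of the coordinates. -/
theorem comb_coord {I : Ideal (An p k (Fin d) 0)} (hI : (p : An p k (Fin d) 0) ^ K ∈ I)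
    {G : E.O →ₗ[Acol p k (Fin d)] Fin n → Acol p k (Fin d) ⧸ extI (Acol p k (Fin d)) I}
    (hG : ∀ (x : E.O) (a : Fin n → Acol p k (Fin d)),
      (p : E.O) ^ K ∣ algebraMap (Acol p k (Fin d)) E.O s ^ K * x -
          ∑ i, algebraMap (Acol p k (Fin d)) E.O (a i) * sharp (E.inB (cX 0)) (e i) →
        G x = fun i => Submodule.Quotient.mk (s ^ K * a i))
    (z : E.O) :
    E.comb e I (G z) = (Ideal.Quotient.mkₐ (Acol p k (Fin d)) _).toLinearMap
      (algebraMap (Acol p k (Fin d)) E.O (s ^ (2 * K)) * z) := by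
  obtain ⟨a, ha⟩ := E.span_pow hspan hs le_rfl z
  rw [hG z a ha, comb_mk]
  refine Ideal.Quotient.eq.2 ?_
  rw [← sum_mul_eq, map_pow, two_mul, pow_add, mul_assoc, ← mul_sub]
  exact Ideal.mul_mem_left _ _
    (neg_sub (algebraMap (Acol p k (Fin d)) E.O s ^ K * z) _ ▸ neg_mem (E.p_pow_mem_map hI ha))

include hspan hind hs in
/-- Modulo `I` the cover is free up to `s ^ (2 K)`. -/
theorem exists_maps {I : Ideal (An p k (Fin d) 0)} (hI : (p : An p k (Fin d) 0) ^ K ∈ I) :
    ∃ (f : (Fin n → Acol p k (Fin d) ⧸ extI (Acol p k (Fin d)) I) →ₗ[Acol p k (Fin d)]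
        E.O ⧸ I.map (algebraMap (An p k (Fin d) 0) E.O))
      (g : (E.O ⧸ I.map (algebraMap (An p k (Fin d) 0) E.O)) →ₗ[Acol p k (Fin d)]
        Fin n → Acol p k (Fin d) ⧸ extI (Acol p k (Fin d)) I),
      (∀ x, g (f x) = s ^ (2 * K) • x) ∧ ∀ x, f (g x) = s ^ (2 * K) • x := by
  obtain ⟨G, hG⟩ := E.exists_coord hspan hind hs hI
  exact exists_maps_of_coord _ (E.comb e I) G (E.coord_ker G)
    (fun a => sharp (E.inB (cX 0)) (e a)) (E.comb_mk I) (E.coord_comb hG) (E.comb_coord hspan hs hI hG)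

omit hs in
/-- The cover modulo `p ^ K` modulo `I` is the cover modulo `I`. -/
noncomputable def quotTKEquiv {I : Ideal (An p k (Fin d) 0)} {K : ℕ}
    (hI : (p : An p k (Fin d) 0) ^ K ∈ I) :
    (E.TK K ⧸ I.map (algebraMap (An p k (Fin d) 0) (E.TK K))) ≃ₐ[Acol p k (Fin d)]
      E.O ⧸ I.map (algebraMap (An p k (Fin d) 0) E.O) :=
  (Ideal.quotientEquivAlgOfEq _ (Ideal.map_map (I := I) (algebraMap (An p k (Fin d) 0) E.O)
    (Ideal.Quotient.mkₐ (Acol p k (Fin d)) (span {(p : E.O) ^ K})).toRingHom).symm).trans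
    (DoubleQuot.quotQuotEquivQuotOfLEₐ (Acol p k (Fin d))
      (I := span {(p : E.O) ^ K}) (J := I.map (algebraMap (An p k (Fin d) 0) E.O)) (by
        rw [span_singleton_le_iff_mem, ← map_natCast (algebraMap (An p k (Fin d) 0) E.O), ← map_pow]
        exact Ideal.mem_map_of_mem _ hI))

omit hspan hind hs [PerfectRing k p] in
theorem pos_of_span (hspan' : ∀ b, ∃ c : Fin n → Cinf p k (d + 1),
    E.inB c₀ * b = ∑ i, E.inB (c i) * e i) (hc₀ : c₀ ≠ 0) : 0 < n := by
  refine Nat.pos_of_ne_zero ?_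
  rintro rfl
  obtain ⟨c, hc⟩ := hspan' 1
  rw [mul_one, Finset.univ_eq_empty, Finset.sum_empty] at hc
  exact hc₀ (E.inB_injective (hc.trans (map_zero _).symm))

omit hspan hind hs in
theorem almostFreeMod_TK {nT : ℕ} {I : Ideal (An p k (Fin d) 0)} {γ : ℕ → Acol p k (Fin d)}
    (h : AlmostFreeMod E.O I nT γ) {K : ℕ} (hK : (p : An p k (Fin d) 0) ^ K ∈ I) :
    AlmostFreeMod (E.TK K) I nT γ :=
  h.elim fun _ hf => hf.elim fun _ hfg =>
    exists_maps_congr (E.quotTKEquiv hK).toLinearEquiv hfg.1 hfg.2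

omit hspan hind hs in
/-- The cover is almost free modulo `I` with the rank of a given basis. -/
theorem almostFreeMod_of_basis {e : ℕ → Fin n → E.B} {δ : Cinf p k (d + 1)} (hδ : δ ≠ 0)
    (he : ∀ j, (∀ b, ∃ c : Fin n → Cinf p k (d + 1),
        E.inB (Filt.root p j δ) * b = ∑ i, E.inB (c i) * e j i) ∧
      ∀ c : Fin n → Cinf p k (d + 1), ∑ i, E.inB (c i) * e j i = 0 → c = 0)
    (L : ℕ) (I : Ideal (An p k (Fin d) 0)) (hI : maximalIdeal (An p k (Fin d) 0) ^ L ≤ I) :
    ∃ γ : ℕ → Acol p k (Fin d), AlmostUnit (lvl p k (Fin d)) (cc p (Fin d)) I γ ∧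
      AlmostFreeMod E.O I n γ := by
  obtain ⟨w, hw⟩ := almostUnit_roots (p := p) (k := k) (d := d) hδ
  choose σ hσ using fun j => colMap_surjective_mod (max L w)
    (sharp (cX (0 : Fin (d + 1))) (Filt.root p (j + 2 * L) δ))
  have hpL : (p : An p k (Fin d) 0) ^ L ∈ I := hI (Ideal.pow_mem_pow (by
    rw [← pow_one (IsLocalRing.maximalIdeal _), ← le_ord_iff_mem_pow, ord_p, pow_zero]) L)
  choose f g hgf hfg using fun j => E.exists_maps (he (j + 2 * L)).1 (he (j + 2 * L)).2
    ((pow_dvd_pow _ (le_max_left L w)).trans (hσ j)) hpL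
  exact ⟨fun j => σ j ^ (2 * L), hw L I hI σ (2 * L) (2 * L) (Nat.lt_pow_self hp.out.one_lt).le
    fun j => (pow_dvd_pow _ (le_max_right L w)).trans (hσ j), f, g, hgf, hfg⟩

omit hspan hind hs in
/-- The cover is almost free over the union of the levels, of one positive rank. -/
theorem exists_almostFree :
    ∃ nT : ℕ, 0 < nT ∧ ∀ (L : ℕ) (I : Ideal (An p k (Fin d) 0)),
      maximalIdeal (An p k (Fin d) 0) ^ L ≤ I →
      ∃ γ : ℕ → Acol p k (Fin d), AlmostUnit (lvl p k (Fin d)) (cc p (Fin d)) I γ ∧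
        AlmostFreeMod E.O I nT γ ∧
        ∀ K, (p : An p k (Fin d) 0) ^ K ∈ I → AlmostFreeMod (E.TK K) I nT γ :=
  (Side.exists_baseBasis_roots E).elim fun n hn => hn.elim fun e hn' => hn'.elim fun δ h =>
    ⟨n, E.pos_of_span (h.2 0).1 (fun h0 => h.1 (by
        rw [← Filt.root_pow p 0 δ, h0, zero_pow (pow_ne_zero _ hp.out.ne_zero)])),
      fun L I hI => (E.almostFreeMod_of_basis h.1 h.2 L I hI).elim fun γ hγ =>
        ⟨γ, hγ.1, hγ.2, fun _ hK => E.almostFreeMod_TK hγ.2 hK⟩⟩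

end CoverExt

end Vale.Agent.P202.Mixed2
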