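import Vale.Agent.P202.Mixed2.Cover.SideBasis

/-!
# The almost basis of the cover over the first base

`B` is free over `Cinf` up to one element `δ` of `Cinf`, and up to all its roots.
-/

namespace Vale.Agent.P202.Mixed2.Side

open Vale.Agent.P202.Mixed2.Filt

universe u

variable {p : ℕ} [hp : Fact p.Prime] {k : Type u} [Field k] [CharP k p] {M : ℕ}

/-- The almost basis over `Cinf` itself. -/
theorem exists_baseBasis (E : CoverExt p k M) :
    ∃ (n : ℕ) (e : Fin n → E.B) (δ : Cinf p k M), δ ≠ 0 ∧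
      (∀ b, ∃ c : Fin n → Cinf p k M, E.inB δ * b = ∑ i, E.inB (c i) * e i) ∧
      ∀ c : Fin n → Cinf p k M, ∑ i, E.inB (c i) * e i = 0 → c = 0 := by
  obtain ⟨n, e, δ, hδ, he, hspan, hind⟩ :=
    almost_basis (Cinf p k M) (FractionRing (Cinf p k M)) E.L
  refine ⟨n, fun i => ⟨e i, he i⟩, δ, hδ, fun b => ?_, fun c hc => hind c ?_⟩
  · obtain ⟨c, hc⟩ := hspan b b.2
    refine ⟨c, Subtype.ext ?_⟩
    rw [MulMemClass.coe_mul, AddSubmonoidClass.coe_finsetSum]
    exact hc
  · have := congrArg Subtype.val hc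
    rw [AddSubmonoidClass.coe_finsetSum] at this
    exact this

/-- The same up to any root of `δ`. -/
theorem exists_baseBasis_roots (E : CoverExt p k M) :
    ∃ (n : ℕ) (e : ℕ → Fin n → E.B) (δ : Cinf p k M), δ ≠ 0 ∧
      ∀ j, (∀ b, ∃ c : Fin n → Cinf p k M,
          E.inB (root p j δ) * b = ∑ i, E.inB (c i) * e j i) ∧
        ∀ c : Fin n → Cinf p k M, ∑ i, E.inB (c i) * e j i = 0 → c = 0 := by
  obtain ⟨n, e, δ, hδ, hspan, hind⟩ := exists_baseBasis E
  refine ⟨n, fun j i => root p j (e i), δ, hδ, fun j => ?_⟩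
  have h : root p j (E.inB δ) = E.inB (root p j δ) := by
    refine iterateFrobenius_inj E.B p j ?_
    rw [iterateFrobenius_def, iterateFrobenius_def, root_pow, ← map_pow, root_pow]
  rw [← h]
  exact root_sideBasis E E.inB e _ hspan hind j

end Vale.Agent.P202.Mixed2.Side
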