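import Vale.Agent.P202.Mixed2.Cover.EvalWitt
import Vale.Agent.P202.Mixed2.Untilt
import Vale.Agent.P202.Perf.Base

/-!
# The tower of regular levels maps to the untilt of the perfected power series ring

Level `n` is `W(k)[p ^ (1/q)][[T ^ (1/q)]]`; `varpi` goes to the untilt of the root of `X_0` and the
variables to the untilts of the roots of the `X_(i+1)`.
-/

namespace Vale.Agent.P202.Mixed2

open IsLocalRing Vale.Agent.P202.Char Vale.Agent.P202.Perf.Base

universe u

variable (p : ℕ) [hp : Fact p.Prime] (k : Type u) [Field k] [CharP k p] [PerfectRing k p] (d : ℕ)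

/-- The untilt over the perfected power series in `d + 1` variables. -/
abbrev BaseUntilt : Type u := Untilt p (cX (p := p) (k := k) (0 : Fin (d + 1)))

variable {p k d}

instance isAdicComplete_ps {D : ℕ} :
    IsAdicComplete (maximalIdeal (MvPowerSeries (Fin D) k)) (MvPowerSeries (Fin D) k) :=
  Stage2.maximalIdeal_ps (L := k) (r := D) ▸ inferInstance

/-- Roots in the perfection. -/
noncomputable def cRoot (n : ℕ) : Cinf p k (d + 1) ≃+* Cinf p k (d + 1) :=
  (iterateFrobeniusEquiv (Cinf p k (d + 1)) p n).symm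

theorem cRoot_pow_eq (n m : ℕ) (x : Cinf p k (d + 1)) :
    cRoot (n + m) x ^ p ^ m = cRoot n x := by
  refine (iterateFrobeniusEquiv (Cinf p k (d + 1)) p n).injective ?_
  rw [cRoot, cRoot, RingEquiv.apply_symm_apply, iterateFrobeniusEquiv_apply, iterateFrobenius_def,
    ← pow_mul, ← pow_add, add_comm m n, ← iterateFrobenius_def p,
    ← iterateFrobeniusEquiv_apply, RingEquiv.apply_symm_apply]

/-- The coefficients at level `n`. -/
noncomputable def chiLevel (n : ℕ) :
    WittVector p k →+* WittVector p (MvPowerSeries (Fin (d + 1)) k) :=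
  WittVector.map ((MvPowerSeries.C).comp (iterateFrobenius k p n))

/-- Evaluation at level `n` before taking roots. -/
noncomputable def preLevel (n : ℕ) :
    MvPowerSeries (Fin d) (WittVector p k) →+* WittVector p (MvPowerSeries (Fin (d + 1)) k) :=
  wittEval (maximalIdeal _) (chiLevel n) (fun i => MvPowerSeries.X i.succ)
    (fun i => X_mem_maximalIdeal i.succ)

/-- The unramified part of level `n` in the untilt. -/
noncomputable def unramLevel (n : ℕ) :
    MvPowerSeries (Fin d) (WittVector p k) →+* BaseUntilt p k d :=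
  (Ideal.Quotient.mk _).comp
    ((WittVector.map ((cRoot n).toRingHom.comp cOf)).comp (preLevel n))

theorem cRoot_C (n : ℕ) (a : k) :
    cRoot (p := p) (d := d) n (cOf (MvPowerSeries.C (iterateFrobenius k p n a))) =
      cOf (MvPowerSeries.C a) := by
  rw [cRoot, RingEquiv.symm_apply_eq, iterateFrobeniusEquiv_apply, iterateFrobenius_def,
    iterateFrobenius_def, map_pow, map_pow]

theorem unramLevel_C (n : ℕ) (w : WittVector p k) :
    unramLevel (d := d) n (MvPowerSeries.C w) =
      Ideal.Quotient.mk _ (WittVector.map ((cOf).comp MvPowerSeries.C) w) := by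
  rw [unramLevel, RingHom.comp_apply, RingHom.comp_apply, preLevel, wittEval_C, chiLevel]
  congr 1
  ext i
  simp [WittVector.map_coeff, cRoot_C]

theorem unramLevel_X (n : ℕ) (i : Fin d) :
    unramLevel (p := p) (k := k) n (MvPowerSeries.X i) = sharp _ (cRoot n (cX i.succ)) := by
  rw [unramLevel, RingHom.comp_apply, RingHom.comp_apply, preLevel, wittEval_X,
    WittVector.map_teichmuller]
  rfl

theorem preLevel_C (n : ℕ) (w : WittVector p k) :
    preLevel (d := d) n (MvPowerSeries.C w) = chiLevel n w :=
  wittEval_C _ _ _ _ w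

theorem preLevel_X (n : ℕ) (i : Fin d) :
    preLevel (p := p) (k := k) n (MvPowerSeries.X i) =
      WittVector.teichmuller p (MvPowerSeries.X i.succ) :=
  wittEval_X _ _ _ _ i

theorem preLevel_small (n j : ℕ) (g : MvPowerSeries (Fin d) (WittVector p k))
    (hg : ∀ a, a.degree < j → MvPowerSeries.coeff a g = 0) :
    WittVector.map (Ideal.Quotient.mk (maximalIdeal (MvPowerSeries (Fin (d + 1)) k) ^ j))
      (preLevel n g) = 0 :=
  map_wittEval_eq_zero _ _ _ _ j g hg

attribute [local irreducible] preLevel

theorem expand_small (e j : ℕ) (g : MvPowerSeries (Fin d) (WittVector p k))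
    (hg : ∀ a, a.degree < j → MvPowerSeries.coeff a g = 0) (a : Fin d →₀ ℕ) (ha : a.degree < j) :
    MvPowerSeries.coeff a
      (MvPowerSeries.expand (p ^ e) (pow_ne_zero e hp.out.ne_zero) g) = 0 := by
  by_cases hdiv : ∀ i, p ^ e ∣ a i
  · obtain ⟨b, rfl⟩ : ∃ b : Fin d →₀ ℕ, a = p ^ e • b :=
      ⟨Finsupp.mapRange (fun x => x / p ^ e) (Nat.zero_div _) a, Finsupp.ext fun i => by
        simp [Nat.mul_div_cancel' (hdiv i)]⟩
    rw [MvPowerSeries.coeff_expand_smul]
    refine hg b (lt_of_le_of_lt ?_ ha)
    rw [map_nsmul, smul_eq_mul]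
    exact Nat.le_mul_of_pos_left _ (pow_pos hp.out.pos e)
  · push Not at hdiv
    obtain ⟨i, hi⟩ := hdiv
    exact MvPowerSeries.coeff_expand_of_not_dvd _ _ _ hi

theorem preLevel_expand_poly (n e : ℕ) (P : MvPolynomial (Fin d) (WittVector p k)) :
    preLevel (n + e) (MvPowerSeries.expand (p ^ e) (pow_ne_zero e hp.out.ne_zero)
      (P : MvPowerSeries (Fin d) (WittVector p k))) =
    WittVector.map (iterateFrobenius (MvPowerSeries (Fin (d + 1)) k) p e) (preLevel n P) := by
  induction P using MvPolynomial.induction_on with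
  | C a =>
    rw [MvPolynomial.coe_C, MvPowerSeries.expand_C, preLevel_C, preLevel_C]
    ext i
    simp only [chiLevel, WittVector.map_coeff, RingHom.comp_apply, iterateFrobenius_def]
    rw [← map_pow, ← pow_mul, ← pow_add]
  | add a b ha hb => rw [MvPolynomial.coe_add, map_add, map_add, map_add, map_add, ha, hb]
  | mul_X a i ha =>
    rw [MvPolynomial.coe_mul, MvPolynomial.coe_X, map_mul, map_mul, map_mul, map_mul, ha,
      MvPowerSeries.expand_X, map_pow, preLevel_X, preLevel_X, WittVector.map_teichmuller,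
      iterateFrobenius_def, map_pow]

theorem preLevel_expand (n e : ℕ) (f : MvPowerSeries (Fin d) (WittVector p k)) :
    preLevel (n + e) (MvPowerSeries.expand (p ^ e) (pow_ne_zero e hp.out.ne_zero) f) =
    WittVector.map (iterateFrobenius (MvPowerSeries (Fin (d + 1)) k) p e) (preLevel n f) := by
  refine RingHom.congr_fun (wittEval_unique (maximalIdeal (MvPowerSeries (Fin (d + 1)) k))
    (F := (preLevel (n + e)).comp (MvPowerSeries.expand (p ^ e)
      (pow_ne_zero e hp.out.ne_zero)).toRingHom)
    (G := (WittVector.map (iterateFrobenius (MvPowerSeries (Fin (d + 1)) k) p e)).comp (preLevel n))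
    (fun P => ?_) (fun j g hg => ?_) (fun j g hg => ?_)) f
  · exact preLevel_expand_poly n e P
  · exact preLevel_small (n + e) j _ (expand_small e j g hg)
  · ext i
    have h1 := congrArg (fun z => WittVector.coeff z i) (preLevel_small n j g hg)
    simp only [WittVector.map_coeff, WittVector.zero_coeff, Ideal.Quotient.eq_zero_iff_mem] at h1
    rw [RingHom.comp_apply, WittVector.map_coeff, WittVector.map_coeff, WittVector.zero_coeff,
      Ideal.Quotient.eq_zero_iff_mem, iterateFrobenius_def]
    exact Ideal.pow_mem_of_mem _ h1 _ (pow_pos hp.out.pos e)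

/-- Compatibility of the unramified parts. -/
theorem unramLevel_expand (n e : ℕ) (f : MvPowerSeries (Fin d) (WittVector p k)) :
    unramLevel (p := p) (n + e) (MvPowerSeries.expand (p ^ e) (pow_ne_zero e hp.out.ne_zero) f) =
      unramLevel n f := by
  rw [unramLevel, unramLevel, RingHom.comp_apply, RingHom.comp_apply, RingHom.comp_apply,
    RingHom.comp_apply, preLevel_expand]
  congr 1
  ext i
  simp only [WittVector.map_coeff, RingHom.comp_apply, RingEquiv.toRingHom_eq_coe, RingHom.coe_coe,
    iterateFrobenius_def, map_pow, cRoot_pow_eq]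

variable (p k d) in
/-- The polynomial of `varpi` over the unramified part. -/
noncomputable def unramPoly (n : ℕ) : Polynomial (MvPowerSeries (Fin d) (WittVector p k)) :=
  Polynomial.X ^ p ^ n - Polynomial.C (p : MvPowerSeries (Fin d) (WittVector p k))

theorem unramPoly_monic (n : ℕ) : (unramPoly p k d n).Monic :=
  Polynomial.monic_X_pow_sub_C _ (pow_ne_zero _ hp.out.ne_zero)

/-- The level as an extension of its unramified part. -/
noncomputable def fromAdjoin (n : ℕ) : AdjoinRoot (unramPoly p k d n) →+* An p k (Fin d) n :=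
  AdjoinRoot.lift (MvPowerSeries.map (AdjoinRoot.of (rootPoly p k n)))
    (MvPowerSeries.C (varpi p k n)) (by
      rw [unramPoly, Polynomial.eval₂_sub, Polynomial.eval₂_X_pow, Polynomial.eval₂_C, map_natCast,
        ← map_pow, varpi_pow, map_natCast, sub_self])

theorem fromAdjoin_of (n : ℕ) (f : MvPowerSeries (Fin d) (WittVector p k)) :
    fromAdjoin n (AdjoinRoot.of _ f) = MvPowerSeries.map (AdjoinRoot.of (rootPoly p k n)) f :=
  AdjoinRoot.lift_of _

theorem fromAdjoin_root (n : ℕ) :
    fromAdjoin (p := p) (k := k) (d := d) n (AdjoinRoot.root _) = MvPowerSeries.C (varpi p k n) :=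
  AdjoinRoot.lift_root _

theorem fromAdjoin_bijective (n : ℕ) : Function.Bijective (fromAdjoin (p := p) (k := k) (d := d) n) := by
  classical
  set b := (AdjoinRoot.powerBasis' (rootPoly_monic (p := p) (k := k) n)).basis
  set B := (AdjoinRoot.powerBasis' (unramPoly_monic (p := p) (k := k) (d := d) n)).basis
  have hdim : (AdjoinRoot.powerBasis' (unramPoly_monic (p := p) (k := k) (d := d) n)).dim =
      (AdjoinRoot.powerBasis' (rootPoly_monic (p := p) (k := k) n)).dim := by
    rw [AdjoinRoot.powerBasis'_dim, AdjoinRoot.powerBasis'_dim, rootPoly_natDegree, unramPoly,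
      Polynomial.natDegree_X_pow_sub_C]
  have hval : ∀ i, fromAdjoin n (B i) = MvPowerSeries.C (varpi p k n ^ (i : ℕ)) := fun i => by
    rw [PowerBasis.coe_basis, map_pow, AdjoinRoot.powerBasis'_gen, fromAdjoin_root, map_pow]
  have hcoeff : ∀ (g : Fin _ → MvPowerSeries (Fin d) (WittVector p k)) (a : Fin d →₀ ℕ),
      MvPowerSeries.coeff a (fromAdjoin n (∑ i, g i • B i)) =
        ∑ i, MvPowerSeries.coeff a (g i) • b (Fin.cast hdim i) := fun g a => by
    rw [map_sum, map_sum]
    refine Finset.sum_congr rfl fun i _ => ?_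
    rw [Algebra.smul_def, map_mul, hval, AdjoinRoot.algebraMap_eq, fromAdjoin_of, mul_comm,
      MvPowerSeries.coeff_C_mul, MvPowerSeries.coeff_map, PowerBasis.coe_basis,
      AdjoinRoot.powerBasis'_gen, Algebra.smul_def, mul_comm]
    rfl
  constructor
  · refine (injective_iff_map_eq_zero _).2 fun x hx => ?_
    rw [← B.sum_repr x] at hx ⊢
    have h0 : ∀ i, B.repr x i = 0 := fun i => MvPowerSeries.ext fun a => by
      have h1 := congrArg (MvPowerSeries.coeff a) hx
      rw [hcoeff, map_zero] at h1
      have h2 := Fintype.linearIndependent_iff.1 (b.linearIndependent.comp _ (Fin.cast_injective hdim))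
        _ h1 i
      rw [h2, map_zero]
    simp [h0]
  · intro f
    refine ⟨∑ i, (show MvPowerSeries (Fin d) (WittVector p k) from
      fun a => b.repr (MvPowerSeries.coeff a f) (Fin.cast hdim i)) • B i, MvPowerSeries.ext fun a => ?_⟩
    rw [hcoeff]
    conv_rhs => rw [← b.sum_repr (MvPowerSeries.coeff a f)]
    rw [← Equiv.sum_comp (finCongr hdim)]
    rfl

/-- Level `n` in the untilt. -/
noncomputable def levelMap (n : ℕ) : An p k (Fin d) n →+* BaseUntilt p k d :=
  (AdjoinRoot.lift (unramLevel n) (sharp _ (cRoot n (cX 0))) (by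
    rw [unramPoly, Polynomial.eval₂_sub, Polynomial.eval₂_X_pow, Polynomial.eval₂_C, map_natCast,
      ← map_pow, cRoot, show ((iterateFrobeniusEquiv (Cinf p k (d + 1)) p n).symm (cX 0)) ^ p ^ n =
        cX 0 by
        rw [← iterateFrobenius_def, ← iterateFrobeniusEquiv_apply, RingEquiv.apply_symm_apply],
      sharp_self, sub_self])).comp
    (RingEquiv.ofBijective _ (fromAdjoin_bijective n)).symm.toRingHom

theorem levelMap_fromAdjoin (n : ℕ) (x : AdjoinRoot (unramPoly p k d n)) :
    levelMap n (fromAdjoin n x) = AdjoinRoot.lift (unramLevel n) (sharp _ (cRoot n (cX 0))) (by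
      rw [unramPoly, Polynomial.eval₂_sub, Polynomial.eval₂_X_pow, Polynomial.eval₂_C, map_natCast,
        ← map_pow, cRoot, show ((iterateFrobeniusEquiv (Cinf p k (d + 1)) p n).symm (cX 0)) ^ p ^ n =
          cX 0 by
          rw [← iterateFrobenius_def, ← iterateFrobeniusEquiv_apply, RingEquiv.apply_symm_apply],
        sharp_self, sub_self]) x := by
  rw [levelMap, RingHom.comp_apply]
  congr 1
  exact (RingEquiv.ofBijective _ (fromAdjoin_bijective n)).symm_apply_apply x

theorem levelMap_map (n : ℕ) (f : MvPowerSeries (Fin d) (WittVector p k)) :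
    levelMap n (MvPowerSeries.map (AdjoinRoot.of (rootPoly p k n)) f) = unramLevel n f := by
  rw [← fromAdjoin_of, levelMap_fromAdjoin, AdjoinRoot.lift_of]

theorem levelMap_varpi (n : ℕ) :
    levelMap (p := p) (k := k) (d := d) n (MvPowerSeries.C (varpi p k n)) =
      sharp _ (cRoot n (cX 0)) := by
  rw [← fromAdjoin_root, levelMap_fromAdjoin, AdjoinRoot.lift_root]

theorem levelMap_X (n : ℕ) (i : Fin d) :
    levelMap (p := p) (k := k) n (MvPowerSeries.X i) = sharp _ (cRoot n (cX i.succ)) := by
  rw [← MvPowerSeries.map_X (AdjoinRoot.of (rootPoly p k n)) i, levelMap_map, unramLevel_X]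

theorem tr_map (n e : ℕ) (h : n ≤ n + e) (g : MvPowerSeries (Fin d) (WittVector p k)) :
    tr p k (Fin d) h (MvPowerSeries.map (AdjoinRoot.of (rootPoly p k n)) g) =
      MvPowerSeries.map (AdjoinRoot.of (rootPoly p k (n + e)))
        (MvPowerSeries.expand (p ^ e) (pow_ne_zero e hp.out.ne_zero) g) := by
  rw [MvPowerSeries.map_expand, tr, RingHom.comp_apply, AlgHom.toRingHom_eq_coe, RingHom.coe_coe]
  have hc : MvPowerSeries.map (trans p k h) (MvPowerSeries.map (AdjoinRoot.of (rootPoly p k n)) g) =
      MvPowerSeries.map (AdjoinRoot.of (rootPoly p k (n + e))) g :=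
    MvPowerSeries.ext fun a => by
      rw [MvPowerSeries.coeff_map, MvPowerSeries.coeff_map, MvPowerSeries.coeff_map]
      exact trans_of h _
  rw [hc]
  simp only [Nat.add_sub_cancel_left]

theorem tr_varpi (n e : ℕ) (h : n ≤ n + e) :
    tr p k (Fin d) h (MvPowerSeries.C (varpi p k n)) =
      MvPowerSeries.C (varpi p k (n + e)) ^ p ^ e := by
  rw [tr, RingHom.comp_apply, AlgHom.toRingHom_eq_coe, RingHom.coe_coe, MvPowerSeries.map_C,
    MvPowerSeries.expand_C, trans_varpi, Nat.add_sub_cancel_left, map_pow]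

attribute [local irreducible] levelMap unramLevel

theorem levelMap_tr {n m : ℕ} (h : n ≤ m) (f : An p k (Fin d) n) :
    levelMap m (tr p k (Fin d) h f) = levelMap n f := by
  obtain ⟨x, rfl⟩ := (fromAdjoin_bijective n).2 f
  obtain ⟨e, rfl⟩ := Nat.exists_eq_add_of_le h
  have hcomp : (levelMap (n + e)).comp ((tr p k (Fin d) h).comp (fromAdjoin n)) =
      (levelMap n).comp (fromAdjoin n) := by
    refine AdjoinRoot.ringHom_ext (RingHom.ext fun g => ?_) ?_
    · rw [RingHom.comp_apply, RingHom.comp_apply, RingHom.comp_apply, RingHom.comp_apply,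
        RingHom.comp_apply, fromAdjoin_of, tr_map, levelMap_map, levelMap_map, unramLevel_expand]
    · rw [RingHom.comp_apply, RingHom.comp_apply, RingHom.comp_apply, fromAdjoin_root, tr_varpi,
        map_pow, levelMap_varpi, levelMap_varpi, ← map_pow, cRoot_pow_eq]
  exact RingHom.congr_fun hcomp x

end Vale.Agent.P202.Mixed2
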