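import Vale.Agent.P202.Char.Stage2Dim
import Vale.Agent.P202.Zero.PSLength

/-!
# A component of full dimension of a square system of equations

`G` is a family of `r` power series in `M + r` variables over a field such that the last `r` variables
are nilpotent modulo `G` and the first `M` variables. Then some prime containing `G` has quotient
finite over the power series in the first `M` variables, which inject.
-/

namespace Vale.Agent.P202.Mixed2

open IsLocalRing Vale.Agent.P202.Char Vale.Agent.P202.Zero

universe u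

variable {k : Type u} [Field k]

/-- Substitution of the variables `e i`, and zero for the others, as a ring map. -/
noncomputable def psMap {M D : ℕ} (y : Fin M → MvPowerSeries (Fin D) k)
    (hy : ∀ i, y i ∈ maximalIdeal (MvPowerSeries (Fin D) k)) :
    MvPowerSeries (Fin M) k →+* MvPowerSeries (Fin D) k :=
  have : IsAdicComplete (maximalIdeal (MvPowerSeries (Fin D) k)) (MvPowerSeries (Fin D) k) :=
    Stage2.maximalIdeal_ps (L := k) (r := D) ▸ inferInstance
  EvalPS.eval (N := maximalIdeal (MvPowerSeries (Fin D) k)) MvPowerSeries.C y hy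

theorem psMap_X {M D : ℕ} (y : Fin M → MvPowerSeries (Fin D) k)
    (hy : ∀ i, y i ∈ maximalIdeal (MvPowerSeries (Fin D) k)) (i : Fin M) :
    psMap y hy (MvPowerSeries.X i) = y i := by
  have : IsAdicComplete (maximalIdeal (MvPowerSeries (Fin D) k)) (MvPowerSeries (Fin D) k) :=
    Stage2.maximalIdeal_ps (L := k) (r := D) ▸ inferInstance
  exact EvalPS.eval_X _ y hy i

theorem psMap_C {M D : ℕ} (y : Fin M → MvPowerSeries (Fin D) k)
    (hy : ∀ i, y i ∈ maximalIdeal (MvPowerSeries (Fin D) k)) (c : k) :
    psMap y hy (MvPowerSeries.C c) = MvPowerSeries.C c := by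
  have : IsAdicComplete (maximalIdeal (MvPowerSeries (Fin D) k)) (MvPowerSeries (Fin D) k) :=
    Stage2.maximalIdeal_ps (L := k) (r := D) ▸ inferInstance
  exact EvalPS.eval_C _ y hy c

theorem X_mem_maximalIdeal {D : ℕ} (i : Fin D) :
    (MvPowerSeries.X i : MvPowerSeries (Fin D) k) ∈ maximalIdeal _ := by
  rw [Stage2.maximalIdeal_ps]
  exact Ideal.subset_span ⟨i, rfl⟩

/-- The quotient by the last variable. -/
theorem le_ringKrullDim_ps (D : ℕ) : (D : WithBot ℕ∞) ≤ ringKrullDim (MvPowerSeries (Fin D) k) := by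
  induction D with
  | zero => exact_mod_cast ringKrullDim_nonneg_of_nontrivial
  | succ D ih =>
    have : IsDomain (MvPowerSeries (Fin (D + 1)) k) := NoZeroDivisors.to_isDomain _
    let y : Fin (D + 1) → MvPowerSeries (Fin D) k :=
      Fin.lastCases 0 (fun i => MvPowerSeries.X i)
    have hy : ∀ i, y i ∈ maximalIdeal (MvPowerSeries (Fin D) k) := by
      refine Fin.lastCases ?_ (fun i => ?_)
      · simp [y]
      · simpa [y] using X_mem_maximalIdeal (k := k) i
    have hemb : ∀ i : Fin D, (MvPowerSeries.X i.castSucc : MvPowerSeries (Fin (D + 1)) k) ∈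
        maximalIdeal (MvPowerSeries (Fin (D + 1)) k) := fun i => X_mem_maximalIdeal _
    set ρ := psMap y hy
    set j := psMap (fun i : Fin D => (MvPowerSeries.X i.castSucc : MvPowerSeries (Fin (D + 1)) k)) hemb
    have hsurj : Function.Surjective ρ := by
      intro f
      refine ⟨j f, ?_⟩
      have hid : ∀ g, ρ (j g) - g ∈ (⨅ N : ℕ, maximalIdeal (MvPowerSeries (Fin D) k) ^ N) := by
        intro g
        refine Submodule.mem_iInf _ |>.2 fun N => ?_
        have h1 := Stage2.sub_trunc_mem g N
        rw [← Stage2.maximalIdeal_ps] at h1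
        have h2 : ρ (j (MvPowerSeries.truncTotal N g : MvPowerSeries (Fin D) k)) =
            (MvPowerSeries.truncTotal N g : MvPowerSeries (Fin D) k) := by
          generalize MvPowerSeries.truncTotal N g = P
          induction P using MvPolynomial.induction_on with
          | C a => rw [MvPolynomial.coe_C]; simp [ρ, j, psMap_C]
          | add a b ha hb => rw [MvPolynomial.coe_add, map_add, map_add, ha, hb]
          | mul_X a i ha =>
            rw [MvPolynomial.coe_mul, MvPolynomial.coe_X, map_mul, map_mul, ha]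
            simp [ρ, j, psMap_X, y]
        have hmap : ∀ x ∈ maximalIdeal (MvPowerSeries (Fin D) k),
            ρ (j x) ∈ maximalIdeal (MvPowerSeries (Fin D) k) := by
          rw [Stage2.maximalIdeal_ps (L := k) (r := D)]
          intro x hx
          induction hx using Submodule.span_induction with
          | mem x hx =>
            obtain ⟨i, rfl⟩ := hx
            simp only [ρ, j, psMap_X, y, Fin.lastCases_castSucc]
            exact Ideal.subset_span ⟨i, rfl⟩
          | zero => simp
          | add a b _ _ ha hb => rw [map_add, map_add]; exact add_mem ha hb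
          | smul c x _ hx => rw [smul_eq_mul, map_mul, map_mul]; exact Ideal.mul_mem_left _ _ hx
        have h3 : (ρ.comp j) ((MvPowerSeries.truncTotal N g : MvPowerSeries (Fin D) k) - g) ∈
            maximalIdeal (MvPowerSeries (Fin D) k) ^ N :=
          Ideal.pow_right_mono (Ideal.map_le_iff_le_comap.2 hmap) N
            (Ideal.map_pow (ρ.comp j) _ N ▸ Ideal.mem_map_of_mem _ h1)
        rw [RingHom.comp_apply, map_sub, map_sub, h2] at h3
        have := sub_mem h1 h3
        rwa [show (MvPowerSeries.truncTotal N g : MvPowerSeries (Fin D) k) - g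
          - ((MvPowerSeries.truncTotal N g : MvPowerSeries (Fin D) k) - ρ (j g)) = ρ (j g) - g by
            ring] at this
      have h0 := hid f
      rw [Ideal.iInf_pow_eq_bot_of_isLocalRing _ (IsLocalRing.maximalIdeal.isMaximal _).ne_top,
        Ideal.mem_bot, sub_eq_zero] at h0
      exact h0
    refine le_trans ?_ (ringKrullDim_succ_le_of_surjective ρ hsurj
      (mem_nonZeroDivisors_of_ne_zero (x := MvPowerSeries.X (Fin.last D)) ?_) ?_)
    · push_cast
      exact add_le_add ih le_rfl
    · intro h
      simpa using congrArg (MvPowerSeries.coeff (Finsupp.single (Fin.last D) 1)) h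
    · simp [ρ, psMap_X, y]

/-- The component. -/
theorem exists_finite_prime {M r : ℕ} (G : Fin r → MvPowerSeries (Fin (M + r)) k)
    (hG : ∀ i, G i ∈ maximalIdeal (MvPowerSeries (Fin (M + r)) k))
    (hnil : ∀ j : Fin r, ∃ N : ℕ, (MvPowerSeries.X (Fin.natAdd M j) :
        MvPowerSeries (Fin (M + r)) k) ^ N ∈ Ideal.span (Set.range G) ⊔
          Ideal.span (Set.range fun i : Fin M =>
            (MvPowerSeries.X (Fin.castAdd r i) : MvPowerSeries (Fin (M + r)) k))) :
    ∃ P : Ideal (MvPowerSeries (Fin (M + r)) k), P.IsPrime ∧ (∀ i, G i ∈ P) ∧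
      ((Ideal.Quotient.mk P).comp (psMap (fun i : Fin M => MvPowerSeries.X (Fin.castAdd r i))
        (fun _ => X_mem_maximalIdeal _))).Finite ∧
      Function.Injective ((Ideal.Quotient.mk P).comp
        (psMap (fun i : Fin M => (MvPowerSeries.X (Fin.castAdd r i) :
          MvPowerSeries (Fin (M + r)) k)) (fun _ => X_mem_maximalIdeal _))) := by
  classical
  set y := fun i : Fin M => (MvPowerSeries.X (Fin.castAdd r i) : (MvPowerSeries (Fin (M + r)) k))
  have hy : ∀ i, y i ∈ maximalIdeal (MvPowerSeries (Fin (M + r)) k) := fun _ => X_mem_maximalIdeal _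
  set ι := psMap y hy with hι
  have hιX : ∀ i, ι (MvPowerSeries.X i) = y i := psMap_X y hy
  have hιC : ∀ a, ι (MvPowerSeries.C a) = MvPowerSeries.C a := psMap_C y hy
  set I := Ideal.span (Set.range G) with hIdef
  have hIle : I ≤ maximalIdeal (MvPowerSeries (Fin (M + r)) k) := by
    rw [hIdef, Ideal.span_le]
    rintro _ ⟨i, rfl⟩
    exact hG i
  have hItop : I ≠ ⊤ := fun h => (IsLocalRing.maximalIdeal.isMaximal (MvPowerSeries (Fin (M + r)) k)).ne_top
    (top_le_iff.1 (h ▸ hIle))
  obtain ⟨Q, s, hQ, hQdim, hIdim⟩ := Stage2.exists_minimalPrime_dim hItop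
  have hQp : Q.IsPrime := hQ.1.1
  have hIQ : I ≤ Q := hQ.1.2
  have : Nontrivial ((MvPowerSeries (Fin (M + r)) k) ⧸ Q) := Ideal.Quotient.nontrivial_iff.2 hQp.ne_top
  have hloc : IsLocalRing ((MvPowerSeries (Fin (M + r)) k) ⧸ Q) :=
    IsLocalRing.of_surjective' (Ideal.Quotient.mk Q) Ideal.Quotient.mk_surjective
  have hmax : maximalIdeal ((MvPowerSeries (Fin (M + r)) k) ⧸ Q) = (maximalIdeal (MvPowerSeries (Fin (M + r)) k)).map (Ideal.Quotient.mk Q) := by
    symm
    exact IsLocalRing.eq_maximalIdeal (Ideal.IsMaximal.map_of_surjective_of_ker_le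
      Ideal.Quotient.mk_surjective (by rw [Ideal.mk_ker]; exact le_maximalIdeal hQp.ne_top))
  set f := (Ideal.Quotient.mk Q).comp ι with hf
  have hfX : ∀ i, f (MvPowerSeries.X i) ∈ maximalIdeal ((MvPowerSeries (Fin (M + r)) k) ⧸ Q) := fun i => by
    rw [hmax, hf, RingHom.comp_apply, hιX]
    exact Ideal.mem_map_of_mem _ (hy i)
  have hres : ((residue ((MvPowerSeries (Fin (M + r)) k) ⧸ Q)).comp (f.comp MvPowerSeries.C)).Finite := by
    refine RingHom.Finite.of_surjective _ fun z => ?_
    obtain ⟨w, rfl⟩ := residue_surjective z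
    obtain ⟨g, rfl⟩ := Ideal.Quotient.mk_surjective w
    refine ⟨MvPowerSeries.constantCoeff g, ?_⟩
    rw [RingHom.comp_apply, RingHom.comp_apply, hf, RingHom.comp_apply, ← sub_eq_zero,
      ← map_sub, ← RingHom.mem_ker, ker_residue, ← map_sub, hmax]
    refine Ideal.mem_map_of_mem _ ((mem_maximalIdeal _).2 fun hu => ?_)
    have := MvPowerSeries.isUnit_iff_constantCoeff.1 hu
    simp [hιC] at this
  choose N hN using hnil
  set c := (M + r + 1) * (Finset.univ.sup N + 1) + 1
  have hc : maximalIdeal ((MvPowerSeries (Fin (M + r)) k) ⧸ Q) ^ c ≤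
      Ideal.span (Set.range fun i => f (MvPowerSeries.X i)) := by
    rw [hmax, ← Ideal.map_pow]
    refine Ideal.map_le_iff_le_comap.2 ?_
    rw [Stage2.maximalIdeal_ps]
    refine le_trans (PSLen.zI_pow_le_zPow (k := k) (d := M + r) (Finset.univ.sup N + 1)
      |>.trans' (Ideal.pow_le_pow_right (by
        exact le_rfl))) ?_
    rw [zPow, Ideal.span_le]
    rintro _ ⟨i, rfl⟩
    rw [SetLike.mem_coe, Ideal.mem_comap]
    induction i using Fin.addCases with
    | left i =>
      simp only [pow_succ, map_mul]
      refine Ideal.mul_mem_left _ _ (Ideal.subset_span ⟨i, ?_⟩)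
      simp [hf, hιX, y]
    | right j =>
      have hmem : (MvPowerSeries.X (Fin.natAdd M j) : (MvPowerSeries (Fin (M + r)) k)) ^ (Finset.univ.sup N + 1) ∈
          I ⊔ Ideal.span (Set.range y) := by
        obtain ⟨t, ht⟩ := Nat.exists_eq_add_of_le
          (show N j ≤ Finset.univ.sup N + 1 from (Finset.le_sup (Finset.mem_univ j)).trans (by omega))
        rw [ht, pow_add]
        exact Ideal.mul_mem_right _ _ (hN j)
      have := Ideal.mem_map_of_mem (Ideal.Quotient.mk Q) hmem
      rw [Ideal.map_sup, (Ideal.map_eq_bot_iff_le_ker _).2 (by rw [Ideal.mk_ker]; exact hIQ),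
        bot_sup_eq, Ideal.map_span, ← Set.range_comp] at this
      refine (Ideal.span_mono ?_) this
      rintro _ ⟨i, rfl⟩
      exact ⟨i, by simp [hf, hιX, y]⟩
  have hfin : f.Finite := Stage2.finite_of_param f hfX hres hc
  refine ⟨Q, hQp, fun i => hIQ (Ideal.subset_span ⟨i, rfl⟩), hfin, ?_⟩
  have : IsDomain ((MvPowerSeries (Fin (M + r)) k) ⧸ Q) := Ideal.Quotient.isDomain Q
  refine Stage2.injective_of_dim f hfin (le_antisymm ?_ ?_)
  · let : Algebra (MvPowerSeries (Fin M) k) ((MvPowerSeries (Fin (M + r)) k) ⧸ Q) := f.toAlgebra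
    have : Module.Finite (MvPowerSeries (Fin M) k) ((MvPowerSeries (Fin (M + r)) k) ⧸ Q) := hfin
    refine le_trans ?_ (Stage2.dim_ps_le (L := k) (r := M))
    refine Order.krullDim_le_of_strictMono
      (fun P : PrimeSpectrum ((MvPowerSeries (Fin (M + r)) k) ⧸ Q) => PrimeSpectrum.comap f P) fun P P' h => ?_
    have := P.isPrime
    exact Ideal.IsIntegral.comap_lt_comap (R := MvPowerSeries (Fin M) k) h
  · have h1 := ringKrullDim_le_ringKrullDim_quotient_add_encard (Set.range G) (R := (MvPowerSeries (Fin (M + r)) k))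
      (fun x hx => by
        rw [IsLocalRing.ringJacobson_eq_maximalIdeal]
        exact hIle (Ideal.subset_span hx))
    have h2 : ((Set.range G).encard : WithBot ℕ∞) ≤ r := by
      have : (Set.range G).encard ≤ (r : ℕ∞) := by
        rw [← Set.image_univ]
        exact (Set.encard_image_le _ _).trans (by simp)
      exact_mod_cast this
    rw [← hIdef, hIdim, ← hQdim] at h1
    have h3 := (le_ringKrullDim_ps (k := k) (M + r)).trans (h1.trans (add_le_add le_rfl h2))
    rw [hQdim] at h3 ⊢
    have : M + r ≤ s + r := by exact_mod_cast h3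
    exact_mod_cast (by omega : M ≤ s)

end Vale.Agent.P202.Mixed2
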