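import Vale.Agent.P202.Mixed2.Cover.PSNormal
import Vale.Agent.P202.Mixed2.Cover.Dim

/-!
# The perfection of a power series ring over a perfect field

`Cinf p k M` is the perfection of `k[[X_0, .., X_(M-1)]]`; it is a normal domain and the perfect
fraction field is `FractionRing (Cinf p k M)`.
-/

namespace Vale.Agent.P202.Mixed2

open IsLocalRing

universe u

variable (p : ℕ) [hp : Fact p.Prime] (k : Type u) [Field k] [CharP k p]

instance charP_mvPowerSeries (σ : Type) : CharP (MvPowerSeries σ k) p :=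
  charP_of_injective_ringHom (MvPowerSeries.C_injective (σ := σ) (R := k)) p

instance isDomain_mvPowerSeries (σ : Type) : IsDomain (MvPowerSeries σ k) :=
  NoZeroDivisors.to_isDomain _

/-- The perfection of the power series ring in `M` variables. -/
abbrev Cinf (M : ℕ) : Type u := PerfectClosure (MvPowerSeries (Fin M) k) p

variable {p k} {M : ℕ}

/-- The inclusion of the power series. -/
noncomputable def cOf : MvPowerSeries (Fin M) k →+* Cinf p k M :=
  PerfectClosure.of (MvPowerSeries (Fin M) k) p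

/-- The variables in the perfection. -/
noncomputable def cX (i : Fin M) : Cinf p k M := cOf (MvPowerSeries.X i)

theorem cOf_injective : Function.Injective (cOf (p := p) (k := k) (M := M)) := fun x y h => by
  simp only [cOf, PerfectClosure.of_apply, PerfectClosure.eq_iff] at h
  simpa using h

theorem exists_pow_eq_cOf (c : Cinf p k M) : ∃ (n : ℕ) (x : MvPowerSeries (Fin M) k),
    c ^ p ^ n = cOf x := by
  obtain ⟨⟨n, x⟩, rfl⟩ := PerfectClosure.mk_surjective _ p c
  refine ⟨n, x, ?_⟩
  rw [← iterate_frobenius, PerfectClosure.iterate_frobenius_mk]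
  rfl

instance isDomain_cinf : IsDomain (Cinf p k M) := by
  have : NoZeroDivisors (Cinf p k M) := ⟨fun {a b} hab => by
    obtain ⟨n, x, hx⟩ := exists_pow_eq_cOf a
    obtain ⟨m, y, hy⟩ := exists_pow_eq_cOf b
    have h : cOf (p := p) (x ^ p ^ m * y ^ p ^ n) = 0 := by
      rw [map_mul, map_pow, map_pow, ← hx, ← hy, ← pow_mul, ← pow_mul, mul_comm (p ^ m), ← mul_pow,
        hab, zero_pow (mul_ne_zero (pow_ne_zero _ hp.out.ne_zero) (pow_ne_zero _ hp.out.ne_zero))]
    have h' := cOf_injective (h.trans (map_zero _).symm)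
    rcases mul_eq_zero.1 h' with h0 | h0
    · left
      rw [pow_eq_zero_iff (pow_ne_zero _ hp.out.ne_zero)] at h0
      rw [h0, map_zero, pow_eq_zero_iff (pow_ne_zero _ hp.out.ne_zero)] at hx
      exact hx
    · right
      rw [pow_eq_zero_iff (pow_ne_zero _ hp.out.ne_zero)] at h0
      rw [h0, map_zero, pow_eq_zero_iff (pow_ne_zero _ hp.out.ne_zero)] at hy
      exact hy⟩
  exact NoZeroDivisors.to_isDomain _

theorem cX_ne_zero (i : Fin M) : cX (p := p) (k := k) i ≠ 0 := fun h => by
  have := cOf_injective (h.trans (map_zero _).symm)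
  simpa using congrArg (MvPowerSeries.coeff (Finsupp.single i 1)) this

theorem cOf_isUnit_iff (x : MvPowerSeries (Fin M) k) : IsUnit (cOf (p := p) x) ↔ IsUnit x := by
  refine ⟨fun ⟨u, hu⟩ => ?_, fun h => h.map _⟩
  obtain ⟨n, y, hy⟩ := exists_pow_eq_cOf ((u⁻¹ : (Cinf p k M)ˣ) : Cinf p k M)
  refine (isUnit_pow_iff (pow_ne_zero n hp.out.ne_zero)).1 (IsUnit.of_mul_eq_one y ?_)
  refine cOf_injective (p := p) ?_
  rw [map_mul, map_pow, ← hy, map_one, ← mul_pow, ← hu, Units.mul_inv, one_pow]

theorem cX_not_isUnit (i : Fin M) : ¬IsUnit (cX (p := p) (k := k) i) := fun h => by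
  have h' := (cOf_isUnit_iff _).1 h
  exact (mem_maximalIdeal _).1 (X_mem_maximalIdeal (k := k) i) h'

instance charP_fractionRing_cinf : CharP (FractionRing (Cinf p k M)) p :=
  charP_of_injective_ringHom (IsFractionRing.injective (Cinf p k M) _) p

instance expChar_fractionRing_cinf : ExpChar (FractionRing (Cinf p k M)) p :=
  ExpChar.prime hp.out

/-- Fraction fields of perfect domains are perfect. -/
instance perfectRing_fractionRing_cinf : PerfectRing (FractionRing (Cinf p k M)) p := by
  refine PerfectRing.ofSurjective _ p fun x => ?_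
  obtain ⟨a, b, -, rfl⟩ := IsFractionRing.div_surjective (A := Cinf p k M) x
  refine ⟨algebraMap _ _ ((frobeniusEquiv (Cinf p k M) p).symm a) /
    algebraMap _ _ ((frobeniusEquiv (Cinf p k M) p).symm b), ?_⟩
  have h : ∀ z : Cinf p k M, algebraMap (Cinf p k M) (FractionRing (Cinf p k M))
      ((frobeniusEquiv (Cinf p k M) p).symm z) ^ p = algebraMap _ _ z := fun z =>
    (map_pow _ _ _).symm.trans (congrArg _ (frobeniusEquiv_symm_pow_p _ p z))
  rw [frobenius_def, div_pow, h, h]

instance perfectField_fractionRing_cinf : PerfectField (FractionRing (Cinf p k M)) :=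
  PerfectRing.toPerfectField _ p

theorem divClosed_cinf : DivClosed (Cinf p k M) := by
  intro a b c hb hc hm
  obtain ⟨na, a', ha⟩ := exists_pow_eq_cOf a
  obtain ⟨nb, b', hb'⟩ := exists_pow_eq_cOf b
  obtain ⟨nc, c', hc'⟩ := exists_pow_eq_cOf c
  set n := na + nb + nc with hn
  have hpow : ∀ {z : Cinf p k M} {j : ℕ} {z' : MvPowerSeries (Fin M) k}, z ^ p ^ j = cOf z' →
      j ≤ n → z ^ p ^ n = cOf (z' ^ p ^ (n - j)) := fun {z j z'} h hj => by
    rw [map_pow, ← h, ← pow_mul, ← pow_add, Nat.add_sub_cancel' hj]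
  have hA := hpow ha (by omega)
  have hB := hpow hb' (by omega)
  have hC := hpow hc' (by omega)
  set A := a' ^ p ^ (n - na)
  set B := b' ^ p ^ (n - nb)
  set C' := c' ^ p ^ (n - nc)
  have hB0 : B ≠ 0 := fun h => by
    rw [h, map_zero, pow_eq_zero_iff (pow_ne_zero _ hp.out.ne_zero)] at hB
    exact hb hB
  have hC0 : C' ≠ 0 := fun h => by
    rw [h, map_zero, pow_eq_zero_iff (pow_ne_zero _ hp.out.ne_zero)] at hC
    exact hc hC
  clear_value A B C'
  have hdiv : B ∣ A := by
    refine divClosed_mvPowerSeries k M A B C' hB0 hC0 fun m => ?_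
    obtain ⟨g, hg⟩ := hm m
    obtain ⟨j, g', hg'⟩ := exists_pow_eq_cOf (g ^ p ^ n)
    have h1 : B ^ (m * p ^ j) * g' = C' ^ (p ^ j) * A ^ (m * p ^ j) := by
      refine cOf_injective (p := p) ?_
      rw [map_mul, map_mul, map_pow, map_pow, map_pow, ← hA, ← hB, ← hC, ← hg', ← pow_mul,
        ← pow_mul, ← pow_mul, ← pow_mul, show p ^ n * (m * p ^ j) = m * (p ^ n * p ^ j) by ring,
        pow_mul, pow_mul a, ← mul_pow, ← mul_pow, ← hg]
    have h2 : (B ^ m) ^ p ^ j ∣ (C' * A ^ m) ^ p ^ j := ⟨g', by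
      rw [mul_pow, ← pow_mul, ← pow_mul, h1]⟩
    -- roots of divisibility in a normal domain
    exact (isIntegrallyClosed_of_divClosed (divClosed_mvPowerSeries k M)).pow_dvd_pow_iff
      (pow_ne_zero _ hp.out.ne_zero) |>.1 h2
  have : b ^ p ^ n ∣ a ^ p ^ n := by rw [hA, hB]; exact map_dvd _ hdiv
  obtain ⟨g, hg⟩ := this
  refine ⟨(iterateFrobeniusEquiv (Cinf p k M) p n).symm g,
    (iterateFrobeniusEquiv (Cinf p k M) p n).injective ?_⟩
  rw [map_mul, RingEquiv.apply_symm_apply, iterateFrobeniusEquiv_apply,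
    iterateFrobeniusEquiv_apply, iterateFrobenius_def, iterateFrobenius_def, hg]

instance isIntegrallyClosed_cinf : IsIntegrallyClosed (Cinf p k M) :=
  isIntegrallyClosed_of_divClosed divClosed_cinf

end Vale.Agent.P202.Mixed2
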