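import Vale.Agent.P202.Mixed2.Cover.Cinf
import Vale.Agent.P202.Char.EvalPS

/-!
# Evaluation of power series over Witt vectors at Teichmüller representatives

For `y i` in the maximal ideal of `C = k[[X]]` there is a ring map from `W(k)[[T]]` to `W(C)` extending
a given map of coefficients and sending `T i` to `[y i]`; it is built coefficientwise from the finite
levels `W(C ⧸ m ^ j)`.
-/

namespace Vale.Agent.P202.Mixed2

open IsLocalRing

universe u

variable {p : ℕ} [hp : Fact p.Prime] {R : Type u} [CommRing R] {C : Type u} [CommRing C]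
variable (I : Ideal C) [IsAdicComplete I C] {σ : Type} [Finite σ]
variable (φ : R →+* WittVector p C) (y : σ → C) (hy : ∀ i, y i ∈ I)

/-- The polynomial map at level `j`. -/
noncomputable def wittPolyLevel (j : ℕ) : MvPolynomial σ R →+* WittVector p (C ⧸ I ^ j) :=
  MvPolynomial.eval₂Hom ((WittVector.map (Ideal.Quotient.mk (I ^ j))).comp φ)
    fun i => WittVector.teichmuller p (Ideal.Quotient.mk (I ^ j) (y i))

include hy in
theorem wittPolyLevel_zero (j : ℕ) {P : MvPolynomial σ R}
    (hP : P ∈ MvPolynomial.idealOfVars σ R ^ j) : wittPolyLevel I φ y j P = 0 := by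
  classical
  rw [MvPolynomial.mem_pow_idealOfVars_iff'] at hP
  rw [wittPolyLevel, MvPolynomial.coe_eval₂Hom, MvPolynomial.eval₂_eq]
  refine Finset.sum_eq_zero fun a ha => ?_
  have hdeg : j ≤ a.degree := by
    by_contra hlt
    exact MvPolynomial.mem_support_iff.1 ha (hP a (not_le.1 hlt))
  have hz : ∏ i ∈ a.support, (Ideal.Quotient.mk (I ^ j) (y i)) ^ a i = 0 := by
    simp only [← map_pow, ← map_prod]
    rw [Ideal.Quotient.eq_zero_iff_mem]
    refine Ideal.pow_le_pow_right hdeg ?_
    rw [Finsupp.degree_apply, ← Finset.prod_pow_eq_pow_sum]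
    exact Ideal.prod_mem_prod fun i _ => Ideal.pow_mem_pow (hy i) _
  simp only [← map_pow, ← map_prod] at hz ⊢
  rw [hz, WittVector.teichmuller_zero, mul_zero]

/-- The map at level `j`. -/
noncomputable def wittLevel (j : ℕ) : MvPowerSeries σ R →+* WittVector p (C ⧸ I ^ j) :=
  ((Ideal.Quotient.lift (MvPolynomial.idealOfVars σ R ^ j) (wittPolyLevel I φ y j)
    fun _ h => wittPolyLevel_zero I φ y hy j h).comp
    (AdicCompletion.evalₐ (MvPolynomial.idealOfVars σ R) j).toRingHom).comp
    (MvPowerSeries.toAdicCompletionAlgEquiv σ R).toRingEquiv.toRingHom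

theorem wittLevel_eq (j : ℕ) (f : MvPowerSeries σ R) :
    wittLevel I φ y hy j f = wittPolyLevel I φ y j (MvPowerSeries.truncTotal j f) := by
  have h : AdicCompletion.evalₐ (MvPolynomial.idealOfVars σ R) j
      (MvPowerSeries.toAdicCompletionAlgEquiv σ R f) =
      Ideal.Quotient.mk _ (MvPowerSeries.truncTotal j f) := by
    rw [MvPowerSeries.toAdicCompletionAlgEquiv_apply, MvPowerSeries.toAdicCompletion,
      AdicCompletion.evalₐ_liftAlgHom]
    · rfl
    · exact fun h => AlgHom.ext fun _ => by
        simpa [Ideal.Quotient.mk_eq_mk_iff_sub_mem] using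
          MvPowerSeries.truncTotal_sub_truncTotal_mem_pow_idealOfVars h (le_refl _) _
  change Ideal.Quotient.lift (MvPolynomial.idealOfVars σ R ^ j) (wittPolyLevel I φ y j)
      (fun _ h => wittPolyLevel_zero I φ y hy j h)
    (AdicCompletion.evalₐ (MvPolynomial.idealOfVars σ R) j
      (MvPowerSeries.toAdicCompletionAlgEquiv σ R f)) = _
  rw [h, Ideal.Quotient.lift_mk]

theorem wittLevel_compat {i j : ℕ} (hij : i ≤ j) (f : MvPowerSeries σ R) :
    WittVector.map (Ideal.Quotient.factorPow I hij) (wittLevel I φ y hy j f) =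
      wittLevel I φ y hy i f := by
  have hcomp : (WittVector.map (Ideal.Quotient.factorPow I hij)).comp (wittPolyLevel I φ y j) =
      wittPolyLevel I φ y i := by
    refine MvPolynomial.ringHom_ext (fun r => ?_) (fun l => ?_)
    · simp only [wittPolyLevel, RingHom.comp_apply, MvPolynomial.eval₂Hom_C]
      ext n
      simp [WittVector.map_coeff]
    · simp [wittPolyLevel, WittVector.map_teichmuller]
  rw [wittLevel_eq, wittLevel_eq, ← RingHom.comp_apply, hcomp, ← sub_eq_zero, ← map_sub]
  exact wittPolyLevel_zero I φ y hy i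
    (MvPowerSeries.truncTotal_sub_truncTotal_mem_pow_idealOfVars hij le_rfl _)

theorem exists_wittCoeff (f : MvPowerSeries σ R) (n : ℕ) :
    ∃ c : C, ∀ j, Ideal.Quotient.mk (I ^ j) c = (wittLevel I φ y hy j f).coeff n := by
  choose g hg using fun j => Ideal.Quotient.mk_surjective ((wittLevel I φ y hy j f).coeff n)
  obtain ⟨c, hc⟩ := IsPrecomplete.prec (inferInstance : IsPrecomplete I C) (f := g) fun {i j} hij => by
    rw [SModEq.sub_mem, smul_eq_mul, Ideal.mul_top, ← Ideal.Quotient.eq, hg i,
      ← wittLevel_compat I φ y hy hij f, WittVector.map_coeff, ← hg j, Ideal.Quotient.factor_mk]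
  refine ⟨c, fun j => ?_⟩
  have := hc j
  rw [SModEq.sub_mem, smul_eq_mul, Ideal.mul_top, ← Ideal.Quotient.eq, hg j] at this
  exact this.symm

/-- The value. -/
noncomputable def wittEvalFun (f : MvPowerSeries σ R) : WittVector p C :=
  WittVector.mk p fun n => (exists_wittCoeff I φ y hy f n).choose

theorem map_wittEvalFun (j : ℕ) (f : MvPowerSeries σ R) :
    WittVector.map (Ideal.Quotient.mk (I ^ j)) (wittEvalFun I φ y hy f) =
      wittLevel I φ y hy j f := by
  ext n
  rw [WittVector.map_coeff, wittEvalFun, WittVector.coeff_mk]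
  exact (exists_wittCoeff I φ y hy f n).choose_spec j

theorem witt_eq_of_levels {a b : WittVector p C}
    (h : ∀ j, WittVector.map (Ideal.Quotient.mk (I ^ j)) a =
      WittVector.map (Ideal.Quotient.mk (I ^ j)) b) : a = b := by
  ext n
  refine sub_eq_zero.1 (IsHausdorff.haus (inferInstance : IsHausdorff I C) _ fun j => ?_)
  have := congrArg (fun z => z.coeff n) (h j)
  simp only [WittVector.map_coeff, Ideal.Quotient.eq] at this
  rw [SModEq.zero, smul_eq_mul, Ideal.mul_top]
  exact this

/-- Evaluation at Teichmüller representatives. -/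
noncomputable def wittEval : MvPowerSeries σ R →+* WittVector p C where
  toFun := wittEvalFun I φ y hy
  map_one' := witt_eq_of_levels I fun j => by rw [map_wittEvalFun, map_one, map_one]
  map_mul' a b := witt_eq_of_levels I fun j => by
    rw [map_mul, map_wittEvalFun, map_wittEvalFun, map_wittEvalFun, map_mul]
  map_zero' := witt_eq_of_levels I fun j => by rw [map_wittEvalFun, map_zero, map_zero]
  map_add' a b := witt_eq_of_levels I fun j => by
    rw [map_add, map_wittEvalFun, map_wittEvalFun, map_wittEvalFun, map_add]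

theorem wittLevel_coe (j : ℕ) (P : MvPolynomial σ R) :
    wittLevel I φ y hy j (P : MvPowerSeries σ R) = wittPolyLevel I φ y j P := by
  rw [wittLevel_eq, ← sub_eq_zero, ← map_sub]
  refine wittPolyLevel_zero I φ y hy j ((MvPolynomial.mem_pow_idealOfVars_iff' ..).mpr fun x hx => ?_)
  simp [MvPowerSeries.coeff_truncTotal _ hx]

theorem wittEval_C (r : R) : wittEval I φ y hy (MvPowerSeries.C r) = φ r :=
  witt_eq_of_levels I fun j => by
    change WittVector.map _ (wittEvalFun I φ y hy _) = _
    rw [map_wittEvalFun, ← MvPolynomial.coe_C, wittLevel_coe]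
    simp [wittPolyLevel]

theorem wittEval_X (i : σ) :
    wittEval I φ y hy (MvPowerSeries.X i) = WittVector.teichmuller p (y i) :=
  witt_eq_of_levels I fun j => by
    change WittVector.map _ (wittEvalFun I φ y hy _) = _
    rw [map_wittEvalFun, ← MvPolynomial.coe_X, wittLevel_coe, WittVector.map_teichmuller]
    simp [wittPolyLevel]

/-- Maps out of power series with values in `W(C)` agree as soon as they agree on polynomials. -/
theorem wittEval_unique {F G : MvPowerSeries σ R →+* WittVector p C}
    (hP : ∀ P : MvPolynomial σ R, F P = G P)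
    (hF : ∀ (j : ℕ) (f : MvPowerSeries σ R), (∀ a, a.degree < j → MvPowerSeries.coeff a f = 0) →
      WittVector.map (Ideal.Quotient.mk (I ^ j)) (F f) = 0)
    (hG : ∀ (j : ℕ) (f : MvPowerSeries σ R), (∀ a, a.degree < j → MvPowerSeries.coeff a f = 0) →
      WittVector.map (Ideal.Quotient.mk (I ^ j)) (G f) = 0) : F = G := by
  refine RingHom.ext fun f => witt_eq_of_levels I fun j => ?_
  set P : MvPolynomial σ R := MvPowerSeries.truncTotal j f
  have h0 : ∀ a, a.degree < j → MvPowerSeries.coeff a (f - (P : MvPowerSeries σ R)) = 0 := fun a ha => by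
    rw [map_sub, MvPolynomial.coeff_coe, MvPowerSeries.coeff_truncTotal _ ha, sub_self]
  have h1 := hF j _ h0
  have h2 := hG j _ h0
  rw [map_sub F, map_sub, sub_eq_zero] at h1
  rw [map_sub G, map_sub, sub_eq_zero] at h2
  rw [h1, h2, hP]

theorem map_wittEval_eq_zero (j : ℕ) (f : MvPowerSeries σ R)
    (hf : ∀ a, a.degree < j → MvPowerSeries.coeff a f = 0) :
    WittVector.map (Ideal.Quotient.mk (I ^ j)) (wittEval I φ y hy f) = 0 := by
  change WittVector.map _ (wittEvalFun I φ y hy f) = 0
  rw [map_wittEvalFun, wittLevel_eq]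
  refine wittPolyLevel_zero I φ y hy j ((MvPolynomial.mem_pow_idealOfVars_iff' ..).mpr fun x hx => ?_)
  rw [MvPowerSeries.coeff_truncTotal _ hx, hf x hx]

end Vale.Agent.P202.Mixed2
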