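import Vale.Agent.P202.Mixed2.Cover.Cinf
import Vale.Agent.P202.Mixed2.Points

/-!
# Finite extensions of the perfected power series ring

`CoverExt` is a perfect field, finite over the fraction field of `Cinf p k M`. Its ring `B` of
integral elements is a perfect normal domain, and `π` stays a nonzero nonunit in it.
-/

namespace Vale.Agent.P202.Mixed2

universe u

variable (p : ℕ) [hp : Fact p.Prime] (k : Type u) [Field k] [CharP k p] (M : ℕ)

/-- A finite perfect extension of the perfected power series ring. -/
structure CoverExt where
  /-- the field -/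
  L : Type u
  [fieldL : Field L]
  [charPL : CharP L p]
  [algC : Algebra (Cinf p k M) L]
  [algK : Algebra (FractionRing (Cinf p k M)) L]
  [towerCK : IsScalarTower (Cinf p k M) (FractionRing (Cinf p k M)) L]
  [fin : FiniteDimensional (FractionRing (Cinf p k M)) L]

namespace CoverExt

variable {p k M} (E : CoverExt p k M)

noncomputable instance instFieldL : Field E.L := E.fieldL

noncomputable instance instCharPL : CharP E.L p := E.charPL

noncomputable instance instAlgebraCinf : Algebra (Cinf p k M) E.L := E.algC

noncomputable instance instAlgebraFrac : Algebra (FractionRing (Cinf p k M)) E.L := E.algK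

noncomputable instance instTowerL : IsScalarTower (Cinf p k M) (FractionRing (Cinf p k M)) E.L := E.towerCK

noncomputable instance instFiniteL : FiniteDimensional (FractionRing (Cinf p k M)) E.L := E.fin

noncomputable instance instExpCharL : ExpChar E.L p := ExpChar.prime hp.out

noncomputable instance instPerfectL : PerfectRing E.L p :=
  have : PerfectField E.L := Algebra.IsAlgebraic.perfectField (FractionRing (Cinf p k M))
  PerfectField.toPerfectRing p

theorem algebraMap_injective : Function.Injective (algebraMap (Cinf p k M) E.L) := by
  rw [IsScalarTower.algebraMap_eq (Cinf p k M) (FractionRing (Cinf p k M)) E.L]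
  exact (algebraMap (FractionRing (Cinf p k M)) E.L).injective.comp
    (IsFractionRing.injective (Cinf p k M) _)

/-- The integral elements. -/
noncomputable abbrev B : Subalgebra (Cinf p k M) E.L := integralClosure (Cinf p k M) E.L

noncomputable instance instIsDomainB : IsDomain E.B := inferInstance

noncomputable instance instCharPB : CharP E.B p :=
  charP_of_injective_ringHom (f := algebraMap (Cinf p k M) E.B) (fun x y h => E.algebraMap_injective
    (congrArg (algebraMap E.B E.L) h)) p

noncomputable instance instExpCharB : ExpChar E.B p := ExpChar.prime hp.out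

theorem root_mem {x : E.L} (hx : x ^ p ∈ E.B) : x ∈ E.B := IsIntegral.of_pow hp.out.pos hx

noncomputable instance instPerfectB : PerfectRing E.B p := by
  refine PerfectRing.ofSurjective _ p fun x => ?_
  exact ⟨⟨(frobeniusEquiv E.L p).symm x, E.root_mem (by
    rw [frobeniusEquiv_symm_pow_p]; exact x.2)⟩, Subtype.ext (frobeniusEquiv_symm_pow_p E.L p (x : E.L))⟩

noncomputable instance instIsFractionRingB : IsFractionRing E.B E.L :=
  IsIntegralClosure.isFractionRing_of_finite_extension (Cinf p k M) (FractionRing (Cinf p k M)) E.L E.B

noncomputable instance instIsIntegrallyClosedB : IsIntegrallyClosed E.B :=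
  integralClosure.isIntegrallyClosedOfFiniteExtension (FractionRing (Cinf p k M))

/-- An element of the base in `B`. -/
noncomputable abbrev inB : Cinf p k M →+* E.B := algebraMap (Cinf p k M) E.B

theorem inB_injective : Function.Injective E.inB := fun _ _ h =>
  E.algebraMap_injective (congrArg (algebraMap E.B E.L) h)

theorem not_isUnit_inB {c : Cinf p k M} (hc : ¬IsUnit c) : ¬IsUnit (E.inB c) := by
  have : FaithfulSMul (Cinf p k M) E.B := (faithfulSMul_iff_algebraMap_injective _ _).2 E.inB_injective
  exact fun h => hc ((isUnit_map_iff (algebraMap (Cinf p k M) E.B) c).1 h)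

noncomputable instance instFactNeZero (i : Fin M) : Fact (E.inB (cX i) ≠ 0) :=
  ⟨fun h => cX_ne_zero i (E.inB_injective (h.trans (map_zero _).symm))⟩

noncomputable instance instFactNotUnit (i : Fin M) : Fact ¬IsUnit (E.inB (cX i)) :=
  ⟨E.not_isUnit_inB (cX_not_isUnit i)⟩

/-- The extension attached to a finite extension of the power series. -/
theorem exists_coverExt {D : Type u} [CommRing D] [IsDomain D] [CharP D p]
    (f : MvPowerSeries (Fin M) k →+* D) (hinj : Function.Injective f) (hfin : f.Finite) :
    ∃ (E : CoverExt p k M) (g : D →+* E.L), Function.Injective g ∧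
      (∀ x, g (f x) = algebraMap (Cinf p k M) E.L (cOf x)) ∧ ∀ d, g d ∈ E.B := by
  let F := FractionRing D
  have : CharP F p := charP_of_injective_ringHom (IsFractionRing.injective D F) p
  let L := PerfectClosure F p
  let g : D →+* L := (PerfectClosure.of F p).comp (algebraMap D F)
  have hg : Function.Injective g :=
    (PerfectClosure.of F p).injective.comp (IsFractionRing.injective D F)
  let φ : Cinf p k M →+* L := PerfectClosure.lift (MvPowerSeries (Fin M) k) p L (g.comp f)
  have hφ : ∀ x, φ (cOf x) = g (f x) := fun x =>
    RingHom.congr_fun ((PerfectClosure.lift (MvPowerSeries (Fin M) k) p L).left_inv (g.comp f)) x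
  have hφinj : Function.Injective φ := by
    refine (injective_iff_map_eq_zero φ).2 fun c hc => ?_
    obtain ⟨n, x, hx⟩ := exists_pow_eq_cOf c
    have h0 : φ (cOf x) = 0 := by
      rw [← hx, map_pow, hc, zero_pow (pow_ne_zero n hp.out.ne_zero)]
    rw [hφ] at h0
    rw [hinj (hg (h0.trans (map_zero g).symm) |>.trans (map_zero f).symm), map_zero,
      pow_eq_zero_iff (pow_ne_zero n hp.out.ne_zero)] at hx
    exact hx
  let : Algebra (Cinf p k M) L := φ.toAlgebra
  let K := FractionRing (Cinf p k M)
  let : Algebra K L := (IsFractionRing.lift (g := φ) hφinj).toAlgebra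
  have : IsScalarTower (Cinf p k M) K L :=
    IsScalarTower.of_algebraMap_eq fun c => (IsFractionRing.lift_algebraMap hφinj c).symm
  let : Algebra (MvPowerSeries (Fin M) k) D := f.toAlgebra
  have : Module.Finite (MvPowerSeries (Fin M) k) D := hfin
  have hint : ∀ d, IsIntegral (Cinf p k M) (g d) := fun d => by
    obtain ⟨P, hP, hP0⟩ := Algebra.IsIntegral.isIntegral (R := MvPowerSeries (Fin M) k) d
    refine ⟨P.map (cOf (p := p)), hP.map _, ?_⟩
    rw [Polynomial.eval₂_map, show (algebraMap (Cinf p k M) L).comp cOf = g.comp f from
      RingHom.ext hφ, ← Polynomial.hom_eval₂, show f = algebraMap _ D from rfl, hP0, map_zero]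
  obtain ⟨t, gen, hgen⟩ := Module.Finite.exists_fin (R := MvPowerSeries (Fin M) k) (M := D)
  let S : Set L := Set.range fun i => g (gen i)
  have hSint : ∀ x ∈ S, IsIntegral K x := by
    rintro _ ⟨i, rfl⟩
    exact (hint _).tower_top
  let I : IntermediateField K L := IntermediateField.adjoin K S
  have : FiniteDimensional K I := IntermediateField.finiteDimensional_adjoin hSint
  have : PerfectField I := Algebra.IsAlgebraic.perfectField K
  have : PerfectRing I p := PerfectField.toPerfectRing p
  have hgI : ∀ d, g d ∈ I := fun d => by
    have hd : d ∈ Submodule.span (MvPowerSeries (Fin M) k) (Set.range gen) := by rw [hgen]; trivial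
    induction hd using Submodule.span_induction with
    | mem x hx =>
      obtain ⟨i, rfl⟩ := hx
      exact IntermediateField.subset_adjoin K S ⟨i, rfl⟩
    | zero => simp
    | add a b _ _ ha hb => rw [map_add]; exact add_mem ha hb
    | smul c x _ hx =>
      rw [Algebra.smul_def, map_mul, RingHom.algebraMap_toAlgebra, ← hφ]
      refine mul_mem ?_ hx
      rw [show φ (cOf c) = algebraMap K L (algebraMap (Cinf p k M) K (cOf c)) from
        (IsFractionRing.lift_algebraMap hφinj _).symm]
      exact I.algebraMap_mem _
  have htop : ∀ x : L, x ∈ I := fun x => by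
    obtain ⟨⟨n, y⟩, rfl⟩ := PerfectClosure.mk_surjective F p x
    have hy : PerfectClosure.of F p y ∈ I := by
      obtain ⟨a, b, -, rfl⟩ := IsFractionRing.div_surjective (A := D) y
      rw [map_div₀]
      exact div_mem (hgI a) (hgI b)
    set z : I := (iterateFrobeniusEquiv I p n).symm ⟨_, hy⟩
    have hz : (z : L) ^ p ^ n = PerfectClosure.of F p y := by
      have := (iterateFrobeniusEquiv I p n).apply_symm_apply ⟨_, hy⟩
      rw [iterateFrobeniusEquiv_apply, iterateFrobenius_def] at this
      exact congrArg Subtype.val this
    have hx : PerfectClosure.mk F p (n, y) ^ p ^ n = PerfectClosure.of F p y := by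
      rw [← iterate_frobenius, PerfectClosure.iterate_frobenius_mk]
    have := (frobenius_inj L p).iterate n (a₁ := PerfectClosure.mk F p (n, y)) (a₂ := (z : L)) (by
      rw [iterate_frobenius, iterate_frobenius, hx, hz])
    exact this ▸ z.2
  have : FiniteDimensional K L :=
    Module.Finite.of_surjective I.val.toLinearMap fun x => ⟨⟨x, htop x⟩, rfl⟩
  exact ⟨⟨L⟩, g, hg, fun x => (hφ x).symm, hint⟩

end CoverExt

end Vale.Agent.P202.Mixed2
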