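import Vale.Agent.P202.Mixed2.Sigma

/-!
# The root maps of `Sums` against the evaluations of `Sigma`

The root map on `A₀[X] ⧸ Φ` is evaluation at the root, and the product of the differences of the roots
is the image of the discriminant of the equation over the base, up to sign.
-/

namespace Vale.Agent.P202.Mixed2

open Ideal Polynomial Vale.Agent.P202.Perf.Base

universe u

variable {p : ℕ} [hp : Fact p.Prime] {k : Type u} [Field k] [CharP k p] [PerfectRing k p] {d : ℕ}
variable {E : CoverExt p k (d + 1)} {K r : ℕ} {τ : Fin r → E.B} {Φ : (Base p k d)[X]}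

theorem algebraMap_baseIso (f : Base p k d) :
    algebraMap (An p k (Fin d) 0) (E.TK K) (baseIso p k d f) =
      Ideal.Quotient.mk _ (E.baseToO f) := rfl

/-- The root map is evaluation at the root. -/
theorem rootMap_mk
    (h : (Φ.map (baseIso p k d)).map (algebraMap (An p k (Fin d) 0) (E.TK K)) =
      ∏ i, (Polynomial.X - Polynomial.C (E.sharpT K (τ i)))) (i : Fin r) (Q : (Base p k d)[X]) :
    rootMap h i (AdjoinRoot.mk (Φ.map (baseIso p k d)) (Q.map (baseIso p k d))) =
      Ideal.Quotient.mk _ (E.evQ (τ i) Q) := by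
  rw [rootMap, AdjoinRoot.liftAlgHom_mk, Polynomial.eval₂_map, CoverExt.evQ, coe_eval₂RingHom,
    Polynomial.hom_eval₂]
  rfl

/-- Every element of the root ring comes from the base. -/
theorem mk_map_surjective (x : AdjoinRoot (Φ.map (baseIso p k d))) :
    ∃ Q : (Base p k d)[X], AdjoinRoot.mk _ (Q.map (baseIso p k d)) = x := by
  obtain ⟨P, rfl⟩ := AdjoinRoot.mk_surjective x
  obtain ⟨Q, rfl⟩ := Polynomial.map_surjective (baseIso p k d) baseIso_bijective.2 P
  exact ⟨Q, rfl⟩

/-- The discriminant over the base. -/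
theorem discProd_rootMap (hm : Φ.Monic) (hr : Φ.natDegree = r) (hpos : 0 < r)
    (h : (Φ.map (baseIso p k d)).map (algebraMap (An p k (Fin d) 0) (E.TK K)) =
      ∏ i, (Polynomial.X - Polynomial.C (E.sharpT K (τ i)))) :
    discProd (fun i => rootMap h i (AdjoinRoot.root _)) =
      algebraMap (An p k (Fin d) 0) (E.TK K)
        (baseIso p k d ((-1) ^ (r * (r - 1) / 2) * Φ.discr)) := by
  simp only [rootMap_root]
  have h' : Φ.map ((algebraMap (An p k (Fin d) 0) (E.TK K)).comp (baseIso p k d)) =
      ∏ i, (Polynomial.X - Polynomial.C (E.sharpT K (τ i))) := by rw [← Polynomial.map_map]; exact h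
  exact discProd_eq _ _ hm hr hpos h'

end Vale.Agent.P202.Mixed2
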