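import Vale.Agent.P202.Mixed2.Division
import Vale.Agent.P202.Mixed2.Cover.Algebra

/-!
# The loss of the division is almost zero

For `h ≠ 0` in the base and `sharp b` approximating it at every point to high precision, no lift of
`sharp b` lies in a fixed high power of the maximal ideal, uniformly in the precision; hence lifts of
deep roots of such `b` are almost units.
-/

namespace Vale.Agent.P202.Mixed2

open Ideal IsLocalRing Vale.Agent.P202.Perf.Base Filter BaseTower

universe u

variable {p : ℕ} [hp : Fact p.Prime] {k : Type u} [Field k] [CharP k p] [PerfectRing k p] {d : ℕ}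

variable (p k d) in
/-- The variables in the untilt. -/
noncomputable abbrev baseU : Fin (d + 1) → BaseUntilt p k d :=
  Filt.US (cX (p := p) (k := k) (0 : Fin (d + 1))) fun l => cX l

noncomputable instance fact_cX_ne_zero {M : ℕ} (i : Fin M) : Fact (cX (p := p) (k := k) i ≠ 0) :=
  ⟨cX_ne_zero i⟩

noncomputable instance fact_cX_not_isUnit {M : ℕ} (i : Fin M) :
    Fact ¬IsUnit (cX (p := p) (k := k) i) :=
  ⟨cX_not_isUnit i⟩

theorem p_mem_baseU : (p : BaseUntilt p k d) ∈ aI (baseU p k d) := by
  rw [← sharp_self (p := p) (cX (p := p) (k := k) (0 : Fin (d + 1)))]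
  exact Ideal.mem_span_range_self (x := (0 : Fin (d + 1)))

/-- An element bounded by a power of the variables at every point lies in a smaller power. -/
theorem mem_baseU_pow_of_bound (E : ℕ) (t : ℕ) (x : BaseUntilt p k d)
    (hx : ∀ (Γ : Type u) [LinearOrderedCommGroupWithZero Γ] (w : Valuation (BaseUntilt p k d) Γ),
      IsPt w → ∃ l, w x ≤ w (baseU p k d l) ^ E) :
    x ∈ aI (baseU p k d) ^ (E - 1 - d - d) ⊔ span {(p : BaseUntilt p k d) ^ t} := by
  induction t generalizing x with
  | zero =>
    rw [pow_zero, Ideal.span_singleton_one, sup_top_eq]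
    trivial
  | succ t ih =>
    obtain ⟨g, -, hg⟩ := exists_sharp_approx_dvd.{u, u} x E
    have hgb : ∀ (Γ : Type u) [LinearOrderedCommGroupWithZero Γ]
        (w : Valuation (BaseUntilt p k d) Γ), IsPt w →
          ∃ l, w (sharp _ g) ≤ w (baseU p k d l) ^ E := by
      intro Γ _ w hw
      obtain ⟨l, hl⟩ := hx Γ w hw
      obtain ⟨l', -, hl'⟩ := Finset.exists_max_image Finset.univ
        (fun i => w (baseU p k d i)) Finset.univ_nonempty
      refine ⟨l', le_of_le_max_mul hw.p_lt_one ?_⟩
      rw [show sharp _ g = x - (x - sharp (p := p) (cX (0 : Fin (d + 1))) g) by ring]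
      refine w.map_sub_le (le_max_of_le_left (hl.trans (pow_le_pow_left' (hl' l (Finset.mem_univ l)) E)))
        ?_
      rw [show x - (x - sharp (p := p) (cX (0 : Fin (d + 1))) g) = sharp _ g by ring]
      refine (hg Γ w hw.le_one).trans ?_
      rcases le_total (w (sharp _ g)) (w (p : BaseUntilt p k d) ^ E) with h | h
      · rw [max_eq_right h]
        refine le_max_of_le_left ((mul_le_of_le_one_left' (hw.le_one _)).trans
          (pow_le_pow_left' ?_ E))
        have h0 := hl' 0 (Finset.mem_univ _)
        rwa [baseU, Filt.US, sharp_self] at h0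
      · rw [max_eq_left h]
        exact le_max_right _ _
    have hgmem : g ∈ span (Set.range fun l : Fin (d + 1) => cX (p := p) (k := k) l) ^ (E - 1 - d) := by
      refine Filt.mem_pow_of_le_valuation (K := FractionRing (Cinf p k (d + 1))) (p := p) (M := 1)
        (π := cX (0 : Fin (d + 1))) (by rw [pow_one]; exact Ideal.mem_span_range_self (x := (0 : Fin (d + 1))))
        fun V hV hlt => ?_
      obtain ⟨Γ, _, w, h1, h0, h2, h3⟩ := exists_pointVal (p := p) V
        (algebraMap (Cinf p k (d + 1)) (FractionRing (Cinf p k (d + 1)))) hV (cX 0)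
        ((map_ne_zero_iff _ (IsFractionRing.injective _ _)).2 (cX_ne_zero 0)) hlt
      obtain ⟨l, hl⟩ := hgb Γ w ⟨h1, h0, h2⟩
      simp only [baseU, Filt.US, ← map_pow] at hl
      rcases (h3 _ _).1 hl with h | h
      · exact Or.inl ⟨l, by rwa [map_pow, map_pow] at h⟩
      · exact Or.inr (h _)
    have hsharp : sharp _ g ∈ aI (baseU p k d) ^ (E - 1 - d - d) :=
      Filt.sharp_mem (N := 1) (by rw [pow_one]; exact p_mem_baseU) hgmem
    obtain ⟨z, hz⟩ : (p : BaseUntilt p k d) ∣ x - sharp _ g := by
      have := pow_dvd_of_points (K := FractionRing (Cinf p k (d + 1))) (p := p)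
        (cX_ne_zero (p := p) (k := k) (0 : Fin (d + 1))) 1 (x := x - sharp _ g) fun Γ _ w h1 h0 h2 => by
          rw [pow_one]
          exact (hg Γ w h1).trans (mul_le_of_le_one_right'
            (max_le (h1 _) (pow_le_one₀ zero_le (h1 _))))
      rwa [pow_one] at this
    have hzb : ∀ (Γ : Type u) [LinearOrderedCommGroupWithZero Γ]
        (w : Valuation (BaseUntilt p k d) Γ), IsPt w → ∃ l, w z ≤ w (baseU p k d l) ^ E := by
      intro Γ _ w hw
      obtain ⟨l, hl⟩ := hgb Γ w hw
      have h := hg Γ w hw.le_one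
      rw [hz, map_mul] at h
      have h' := le_of_mul_le_mul_left h (pos_iff_ne_zero.2 hw.p_ne_zero)
      rcases le_total (w (sharp _ g)) (w (p : BaseUntilt p k d) ^ E) with hc | hc
      · rw [max_eq_right hc] at h'
        refine ⟨0, h'.trans_eq ?_⟩
        rw [baseU, Filt.US, sharp_self]
      · rw [max_eq_left hc] at h'
        exact ⟨l, h'.trans hl⟩
    obtain ⟨a, ha, b, hb, hab⟩ := Submodule.mem_sup.1 (ih z hzb)
    obtain ⟨c, rfl⟩ := mem_span_singleton.1 hb
    rw [show x = (sharp _ g + (p : BaseUntilt p k d) * a) + (p : BaseUntilt p k d) ^ (t + 1) * c by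
      rw [pow_succ']; linear_combination hz - (p : BaseUntilt p k d) * hab]
    exact add_mem (Ideal.mem_sup_left (add_mem hsharp (Ideal.mul_mem_left _ _ ha)))
      (Ideal.mem_sup_right (Ideal.mul_mem_right _ _ (mem_span_singleton_self _)))

theorem colMap_maximal {f : An p k (Fin d) 0} (hf : f ∈ maximalIdeal (An p k (Fin d) 0)) :
    colMap p k d (incl p k (Fin d) 0 f) ∈ aI (baseU p k d) := by
  have hle : maximalIdeal (An p k (Fin d) 0) ≤
      (aI (baseU p k d)).comap ((colMap p k d).comp (incl p k (Fin d) 0)) := by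
    rw [maximalIdeal_eq_span, sup_le_iff, Ideal.span_singleton_le_iff_mem, Ideal.span_le]
    refine ⟨?_, ?_⟩
    · rw [Ideal.mem_comap, RingHom.comp_apply, colMap_incl, levelMap_varpi,
        show cRoot 0 (cX (p := p) (k := k) (0 : Fin (d + 1))) = cX 0 by
          rw [cRoot, RingEquiv.symm_apply_eq, iterateFrobeniusEquiv_apply, iterateFrobenius_def,
            pow_zero, pow_one]]
      exact Ideal.mem_span_range_self (x := (0 : Fin (d + 1)))
    · rintro _ ⟨i, rfl⟩
      rw [SetLike.mem_coe, Ideal.mem_comap, RingHom.comp_apply, colMap_incl, levelMap_X,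
        show cRoot 0 (cX (p := p) (k := k) i.succ) = cX i.succ by
          rw [cRoot, RingEquiv.symm_apply_eq, iterateFrobeniusEquiv_apply, iterateFrobenius_def,
            pow_zero, pow_one]]
      exact Ideal.mem_span_range_self (x := i.succ)
  exact hle hf

theorem colMap_mPow {w : ℕ} {y : Acol p k (Fin d)} (hy : y ∈ mPow p k (Fin d) w) :
    colMap p k d y ∈ aI (baseU p k d) ^ w := by
  have hle : (maximalIdeal (An p k (Fin d) 0)).map ((colMap p k d).comp (incl p k (Fin d) 0)) ≤
      aI (baseU p k d) := Ideal.map_le_iff_le_comap.2 fun f hf => colMap_maximal hf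
  refine Ideal.pow_right_mono hle w ?_
  rw [← Ideal.map_pow, ← Ideal.map_map]
  exact Ideal.mem_map_of_mem _ hy

theorem baseU_le_image (K : ℕ) (l : Fin (d + 1)) :
    ∃ y ∈ mPow p k (Fin d) 1, (p : BaseUntilt p k d) ^ K ∣ colMap p k d y - baseU p k d l := by
  cases l using Fin.cases with
  | zero =>
    refine ⟨incl p k (Fin d) 0 (MvPowerSeries.C (varpi p k 0)), ?_, ?_⟩
    · refine Ideal.mem_map_of_mem _ ?_
      rw [pow_one, maximalIdeal_eq_span]
      exact Ideal.mem_sup_left (mem_span_singleton_self _)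
    · rw [colMap_incl, levelMap_varpi, baseU, Filt.US,
        show cRoot 0 (cX (p := p) (k := k) (0 : Fin (d + 1))) = cX 0 by
          rw [cRoot, RingEquiv.symm_apply_eq, iterateFrobeniusEquiv_apply, iterateFrobenius_def,
            pow_zero, pow_one], sub_self]
      exact dvd_zero _
  | succ i =>
    refine ⟨incl p k (Fin d) 0 (MvPowerSeries.X i), ?_, ?_⟩
    · refine Ideal.mem_map_of_mem _ ?_
      rw [pow_one, maximalIdeal_eq_span]
      exact Ideal.mem_sup_right (Ideal.subset_span ⟨i, rfl⟩)
    · rw [colMap_incl, levelMap_X, baseU, Filt.US,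
        show cRoot 0 (cX (p := p) (k := k) i.succ) = cX i.succ by
          rw [cRoot, RingEquiv.symm_apply_eq, iterateFrobeniusEquiv_apply, iterateFrobenius_def,
            pow_zero, pow_one], sub_self]
      exact dvd_zero _

theorem exists_lift_baseU_pow (K N : ℕ) {x : BaseUntilt p k d} (hx : x ∈ aI (baseU p k d) ^ N) :
    ∃ y ∈ mPow p k (Fin d) N, (p : BaseUntilt p k d) ^ K ∣ colMap p k d y - x := by
  have hmul : ∀ {a b : BaseUntilt p k d} {i j : ℕ},
      (∃ y ∈ mPow p k (Fin d) i, (p : BaseUntilt p k d) ^ K ∣ colMap p k d y - a) →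
      (∃ y ∈ mPow p k (Fin d) j, (p : BaseUntilt p k d) ^ K ∣ colMap p k d y - b) →
      ∃ y ∈ mPow p k (Fin d) (i + j), (p : BaseUntilt p k d) ^ K ∣ colMap p k d y - a * b := by
    rintro a b i j ⟨y, hy, hya⟩ ⟨z, hz, hzb⟩
    refine ⟨y * z, ?_, ?_⟩
    · rw [mPow, pow_add, extI, Ideal.map_mul]
      exact Ideal.mul_mem_mul hy hz
    · rw [map_mul]
      exact dvd_mul_sub_mul hya hzb
  have hone : ∀ z : BaseUntilt p k d,
      ∃ y ∈ mPow p k (Fin d) 0, (p : BaseUntilt p k d) ^ K ∣ colMap p k d y - z := by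
    intro z
    obtain ⟨y, hy⟩ := colMap_surjective_mod K z
    exact ⟨y, by simp [mPow, extI, Ideal.map_top], hy⟩
  induction N generalizing x with
  | zero => exact hone x
  | succ N ih =>
    rw [pow_succ] at hx
    induction hx using Submodule.mul_induction_on' with
    | mem_mul_mem s hs t ht =>
      refine hmul (ih hs) ?_
      induction ht using Submodule.span_induction with
      | mem z hz => obtain ⟨l, rfl⟩ := hz; exact baseU_le_image K l
      | zero => exact ⟨0, zero_mem _, by simp⟩
      | add a b _ _ ha hb =>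
        obtain ⟨y, hy, hya⟩ := ha
        obtain ⟨z, hz, hzb⟩ := hb
        exact ⟨y + z, add_mem hy hz, by rw [map_add, add_sub_add_comm]; exact dvd_add hya hzb⟩
      | smul c z _ hz =>
        have := hmul (hone c) hz
        simpa [smul_eq_mul] using this
    | add a _ b _ ha hb =>
      obtain ⟨y, hy, hya⟩ := ha
      obtain ⟨z, hz, hzb⟩ := hb
      exact ⟨y + z, add_mem hy hz, by rw [map_add, add_sub_add_comm]; exact dvd_add hya hzb⟩

/-- The image of an element of the base in the untilt. -/
noncomputable abbrev baseH (h : Base p k d) : BaseUntilt p k d := unramLevel 0 h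

/-- `sharp b` approximates `h` at every point with precision `M`. -/
def Approximates (h : Base p k d) (b : Cinf p k (d + 1)) (M : ℕ) : Prop :=
  ∀ (Γ : Type u) [LinearOrderedCommGroupWithZero Γ] (w : Valuation (BaseUntilt p k d) Γ), IsPt w →
    w (baseH h - sharp _ b) ≤
      w (p : BaseUntilt p k d) * max (w (sharp _ b)) (w (p : BaseUntilt p k d) ^ M)

theorem exists_approximates (h : Base p k d) (M : ℕ) : ∃ b, Approximates h b M := by
  obtain ⟨b, -, hb⟩ := exists_sharp_approx_dvd.{u, u} (baseH h) M
  exact ⟨b, fun Γ _ w hw => hb Γ w hw.le_one⟩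

/-- Approximations of a nonzero element stay outside a fixed power of the maximal ideal. -/
theorem exists_weight_bound {h : Base p k d} (hh : h ≠ 0) :
    ∃ w : ℕ, ∀ M K, w ≤ M → w ≤ K → ∀ b, Approximates h b M → ∀ y : Acol p k (Fin d),
      (p : BaseUntilt p k d) ^ K ∣ colMap p k d y - sharp _ b → y ∉ mPow p k (Fin d) w := by
  have hD : baseIso p k d h ≠ 0 := fun h0 => hh (baseIso_bijective.1 (h0.trans (map_zero _).symm))
  obtain ⟨w₁, hw₁⟩ := exists_not_mem hD
  refine ⟨w₁ + 1 + d + d, fun M K hM hK b hb y hyb hy => ?_⟩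
  set W := w₁ + 1 + d + d with hW
  have hbound : ∀ (Γ : Type u) [LinearOrderedCommGroupWithZero Γ]
      (v : Valuation (BaseUntilt p k d) Γ), IsPt v →
        ∃ l, v (baseH h) ≤ v (baseU p k d l) ^ W := by
    intro Γ _ v hv
    obtain ⟨l, -, hl⟩ := Finset.exists_max_image Finset.univ (fun i => v (baseU p k d i))
      Finset.univ_nonempty
    refine ⟨l, ?_⟩
    have hp_le : v (p : BaseUntilt p k d) ≤ v (baseU p k d l) := by
      have := hl 0 (Finset.mem_univ _)
      rwa [baseU, Filt.US, sharp_self] at this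
    have hpK : ∀ {n : ℕ}, W ≤ n → v (p : BaseUntilt p k d) ^ n ≤ v (baseU p k d l) ^ W := fun hn =>
      (pow_le_pow_right_of_le_one' (hv.le_one _) hn).trans (pow_le_pow_left' hp_le W)
    have hsum : ∀ z ∈ aI (baseU p k d), v z ≤ v (baseU p k d l) := by
      intro z hz
      induction hz using Submodule.span_induction with
      | mem z hz => obtain ⟨i, rfl⟩ := hz; exact hl i (Finset.mem_univ i)
      | zero => simp
      | add a c _ _ ha hc => exact v.map_add_le ha hc
      | smul c z _ hz =>
        rw [smul_eq_mul, map_mul]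
        exact (mul_le_of_le_one_left' (hv.le_one c)).trans hz
    have hpow : ∀ (n : ℕ) z, z ∈ aI (baseU p k d) ^ n → v z ≤ v (baseU p k d l) ^ n := by
      intro n
      induction n with
      | zero => intro z _; rw [pow_zero]; exact hv.le_one z
      | succ n ih =>
        intro z hz
        rw [pow_succ] at hz ⊢
        induction hz using Submodule.mul_induction_on' with
        | mem_mul_mem s hs t ht =>
          rw [map_mul]
          exact mul_le_mul' (ih s hs) (hsum t ht)
        | add s _ t _ hs ht => exact v.map_add_le hs ht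
    have hbv : v (sharp _ b) ≤ v (baseU p k d l) ^ W := by
      rw [show sharp _ b = colMap p k d y - (colMap p k d y - sharp _ b) by ring]
      refine v.map_sub_le (hpow W _ (colMap_mPow hy)) ((Perf.val_le_of_dvd v hv.le_one hyb).trans ?_)
      rw [map_pow]
      exact hpK hK
    rw [show baseH h = sharp _ b + (baseH h - sharp _ b) by ring]
    refine v.map_add_le hbv ((hb Γ v hv).trans ((mul_le_of_le_one_left' (hv.le_one _)).trans ?_))
    exact max_le hbv (hpK hM)
  obtain ⟨a, ha, c, hc, hac⟩ :=
    Submodule.mem_sup.1 (mem_baseU_pow_of_bound W K (baseH h) hbound)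
  obtain ⟨y', hy', hy'a⟩ := exists_lift_baseU_pow K (W - 1 - d - d) ha
  have hdvd : (p : BaseUntilt p k d) ^ K ∣
      colMap p k d (y' - incl p k (Fin d) 0 (baseIso p k d h)) := by
    rw [map_sub, colMap_incl, levelMap_baseIso, show colMap p k d y' - unramLevel 0 h =
      (colMap p k d y' - a) - c by rw [show unramLevel 0 h = a + c from hac.symm]; ring]
    exact dvd_sub hy'a (mem_span_singleton.1 hc)
  refine hw₁ K (by omega) y' (pow_dvd_of_colMap hdvd) ?_
  rwa [show W - 1 - d - d = w₁ by omega] at hy'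

/-- Lifts of deep roots of approximations are almost units. -/
theorem almostUnit_loss {h : Base p k d} (hh : h ≠ 0) :
    ∃ w : ℕ, ∀ (L : ℕ) (I : Ideal (An p k (Fin d) 0)), maximalIdeal (An p k (Fin d) 0) ^ L ≤ I →
      ∀ (M : ℕ → ℕ) (bs : ℕ → Cinf p k (d + 1)), (∀ j, w ≤ M j) →
        (∀ j, Approximates h (bs j) (M j)) → ∀ β : ℕ → Acol p k (Fin d),
        (∀ j, (p : BaseUntilt p k d) ^ w ∣ colMap p k d (β j) - sharp _ (Filt.root p j (bs j))) →
        AlmostUnit (lvl p k (Fin d)) (cc p (Fin d)) I β := by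
  obtain ⟨w, hw⟩ := exists_weight_bound hh
  refine ⟨w, fun L I hI M bs hM hbs β hβ =>
    BaseTower.almostUnit L w I hI β (fun j => p ^ j)
      (tendsto_pow_atTop_atTop_of_one_lt hp.out.one_lt) fun j => hw (M j) w (hM j) le_rfl (bs j) (hbs j) _ ?_⟩
  have h1 := (hβ j).trans (sub_dvd_pow_sub_pow _ _ (p ^ j))
  rwa [← map_pow, ← map_pow, Filt.root_pow] at h1

end Vale.Agent.P202.Mixed2
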