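import Vale.Agent.P202.Mixed2.Cover.Ext
import Vale.Agent.P202.Mixed2.Integral

/-!
# The cover: all roots of a monic polynomial at once

For coefficients `f j` in the untilt of `Cinf` that are topologically nilpotent modulo `p`, there is a
finite extension `E` and `τ i` in `E.B` such that the coefficients of `∏ (X - sharp (τ i))` agree with
`f` modulo `p ^ K`. No choice of roots is made.
-/

namespace Vale.Agent.P202.Mixed2

open Ideal Polynomial Vale.Agent.P202.Perf IsLocalRing

universe u v

variable {p : ℕ} [hp : Fact p.Prime]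

section Generic

variable {B : Type u} [CommRing B] [CharP B p] [PerfectRing B p]

/-- `sharp` modulo `p` as a ring map. -/
noncomputable def sharpMod (π : B) : B →+* Untilt p π ⧸ span {(p : Untilt p π)} where
  toFun b := Ideal.Quotient.mk _ (sharp π b)
  map_one' := by rw [map_one, map_one]
  map_mul' a b := by rw [map_mul, map_mul]
  map_zero' := by rw [sharp_zero, map_zero]
  map_add' a b := by
    rw [← map_add (Ideal.Quotient.mk _), Ideal.Quotient.eq, mem_span_singleton]
    exact dvd_sharp_add_sub π a b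

variable [IsDomain B] {π : B}

/-- Approximation by Teichmüller elements, congruent modulo `p`. -/
theorem exists_sharp_approx_dvd [Fact (π ≠ 0)] [Fact ¬IsUnit π] (x : Untilt p π) (m : ℕ) :
    ∃ b : B, (p : Untilt p π) ∣ x - sharp π b ∧
      ∀ (Γ : Type v) [LinearOrderedCommGroupWithZero Γ] (w : Valuation (Untilt p π) Γ),
        (∀ y, w y ≤ 1) →
          w (x - sharp π b) ≤ w (p : Untilt p π) * max (w (sharp π b)) (w (p : Untilt p π) ^ m) := by
  obtain ⟨π', hπ'⟩ := exists_tilt_pi (p := p) π
  obtain ⟨g, hgd, hg⟩ := exists_untilt_approx (frobenius_surjective_modP π) π' hπ' m x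
  obtain ⟨b, hb⟩ := exists_sharp_sub_untilt g m
  refine ⟨b, ?_, fun Γ _ w hw => ?_⟩
  · rw [show x - sharp π b = (x - g.untilt) + (g.untilt - sharp π b) by ring]
    exact dvd_add hgd (dvd_trans (dvd_pow_self _ m.succ_ne_zero) hb)
  · set P := w (p : Untilt p π)
    have hM : max (w g.untilt) (P ^ m) ≤ max (w (sharp π b)) (P ^ m) := by
      refine max_le ?_ (le_max_right _ _)
      rw [show g.untilt = sharp π b + (g.untilt - sharp π b) by ring]
      refine w.map_add_le (le_max_left _ _) ((val_le_of_dvd w hw hb).trans ?_)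
      rw [map_pow]
      exact le_max_of_le_right (pow_le_pow_right_of_le_one' (hw _) m.le_succ)
    rw [show x - sharp π b = (x - g.untilt) + (g.untilt - sharp π b) by ring]
    refine w.map_add_le ((hg Γ w hw).trans (mul_le_mul_right hM _)) ((val_le_of_dvd w hw hb).trans ?_)
    rw [map_pow, pow_succ']
    exact mul_le_mul_right (le_max_right _ _) _

/-- Divisibility by powers of `p` is tested at the points. -/
theorem pow_dvd_of_points {K : Type u} [Field K] [Algebra B K] [IsFractionRing B K] [CharP K p]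
    [PerfectRing K p] [IsIntegrallyClosed B] (hπ : π ≠ 0) (t : ℕ) {x : Untilt p π}
    (hx : ∀ (Γ : Type u) [LinearOrderedCommGroupWithZero Γ] (w : Valuation (Untilt p π) Γ),
      (∀ y, w y ≤ 1) → w (p : Untilt p π) ≠ 0 → w (p : Untilt p π) < 1 →
        w x ≤ w (p : Untilt p π) ^ t) : (p : Untilt p π) ^ t ∣ x := by
  induction t generalizing x with
  | zero => simp
  | succ t ih =>
    obtain ⟨b, c, hc⟩ := exists_eq_sharp_add π x
    have hb : π ∣ b := dvd_of_le_valuation (K := K) hπ fun V hV hlt => by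
      obtain ⟨Γ, _, w, h1, h0, h2, h3⟩ := exists_pointVal (p := p) V (algebraMap B K) hV π
        (by simpa using (map_ne_zero_iff _ (IsFractionRing.injective B K)).2 hπ) hlt
      have hle : w (sharp π b) ≤ w (sharp π π) := by
        rw [sharp_self, show sharp π b = x - (p : Untilt p π) * c by rw [← hc]; ring]
        refine w.map_sub_le ((hx Γ w h1 h0 h2).trans ?_) ?_
        · rw [pow_succ]
          exact mul_le_of_le_one_left' (pow_le_one₀ zero_le (h1 _))
        · rw [map_mul]
          exact mul_le_of_le_one_right' (h1 c)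
      rcases (h3 b π).1 hle with h | h
      · exact h
      · simpa using h 1
    obtain ⟨b', rfl⟩ := hb
    obtain ⟨x', rfl⟩ : (p : Untilt p π) ∣ x := ⟨sharp π b' + c, by
      rw [mul_add, ← hc, map_mul, sharp_self]; ring⟩
    rw [pow_succ']
    refine mul_dvd_mul_left _ (ih fun Γ _ w h1 h0 h2 => ?_)
    have h := hx Γ w h1 h0 h2
    rw [map_mul, pow_succ'] at h
    exact le_of_mul_le_mul_left h (pos_iff_ne_zero.2 h0)

end Generic

theorem mapUntilt_mapUntilt {A B C : Type u} [CommRing A] [CharP A p] [CommRing B] [CharP B p]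
    [CommRing C] [CharP C p] (g : B →+* C) (f : A →+* B) (π : A) (x : Untilt p π) :
    mapUntilt g (f π) (mapUntilt f π x) = mapUntilt (g.comp f) π x := by
  obtain ⟨w, rfl⟩ := Ideal.Quotient.mk_surjective x
  simp only [mapUntilt, Ideal.quotientMap_mk]
  exact congrArg _ (WittVector.ext fun l => by simp [WittVector.map_coeff])

section Model

variable {k : Type u} [Field k] [CharP k p] {m r : ℕ}

/-- The product `∏ (X - t i)`. -/
noncomputable def rootPoly {S : Type*} [CommRing S] (t : Fin r → S) : S[X] :=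
  ∏ i, (X - C (t i))

theorem map_rootPoly {S S' : Type*} [CommRing S] [CommRing S'] (φ : S →+* S') (t : Fin r → S) :
    (rootPoly t).map φ = rootPoly (φ ∘ t) := by
  simp [rootPoly, Polynomial.map_prod]

theorem rootPoly_zero {S : Type*} [CommRing S] : rootPoly (fun _ : Fin r => (0 : S)) = X ^ r := by
  simp [rootPoly]

/-- The monic relation satisfied by each root. -/
theorem pow_eq_neg_sum {S : Type*} [CommRing S] [Nontrivial S] (t : Fin r → S) (i : Fin r) :
    t i ^ r = -∑ j : Fin r, (rootPoly t).coeff j * t i ^ (j : ℕ) := by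
  have hm : (rootPoly t).Monic := monic_prod_of_monic _ _ fun j _ => monic_X_sub_C _
  have hd : (rootPoly t).natDegree = r := by
    rw [rootPoly, natDegree_prod_of_monic _ _ fun j _ => monic_X_sub_C _]
    simp
  have h0 : (rootPoly t).eval (t i) = 0 := by
    rw [rootPoly, eval_prod]
    exact Finset.prod_eq_zero (Finset.mem_univ i) (by simp)
  rw [eval_eq_sum_range, hd, Finset.sum_range_succ, Finset.sum_range] at h0
  have hl : (rootPoly t).coeff r = 1 := by simpa [hd] using hm.coeff_natDegree
  rw [hl, one_mul] at h0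
  rw [eq_neg_iff_add_eq_zero, add_comm]
  exact h0

/-- The variables of the base in the universal ring. -/
noncomputable def baseVar (i : Fin (m + 1)) : MvPowerSeries (Fin (m + 1 + r)) k :=
  MvPowerSeries.X (Fin.castAdd r i)

/-- The base inside the universal ring. -/
noncomputable def toUniv : Cinf p k (m + 1) →+* Cinf p k (m + 1 + r) :=
  PerfectClosure.lift _ p _ (cOf.comp (psMap (baseVar (r := r)) fun _ => X_mem_maximalIdeal _))

theorem toUniv_cOf (x : MvPowerSeries (Fin (m + 1)) k) :
    toUniv (r := r) (p := p) (cOf x) = cOf (psMap (baseVar (r := r)) (fun _ => X_mem_maximalIdeal _) x) :=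
  RingHom.congr_fun ((PerfectClosure.lift (MvPowerSeries (Fin (m + 1)) k) p
    (Cinf p k (m + 1 + r))).left_inv
    (cOf.comp (psMap (baseVar (r := r)) fun _ => X_mem_maximalIdeal _))) x

theorem psMap_mem_span {M D : ℕ} (y : Fin M → MvPowerSeries (Fin D) k)
    (hy : ∀ i, y i ∈ maximalIdeal (MvPowerSeries (Fin D) k)) {x : MvPowerSeries (Fin M) k}
    (hx : x ∈ maximalIdeal (MvPowerSeries (Fin M) k)) : psMap y hy x ∈ span (Set.range y) := by
  rw [Vale.Agent.P202.Char.Stage2.maximalIdeal_ps] at hx
  have := Ideal.mem_map_of_mem (psMap y hy) hx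
  rwa [Ideal.map_span, ← Set.range_comp,
    show (psMap y hy) ∘ MvPowerSeries.X = y from funext (psMap_X y hy)] at this

/-- All roots at once, modulo `p ^ K`. -/
theorem exists_rootModel (f : Fin r → Untilt p (cX (p := p) (k := k) (0 : Fin (m + 1))))
    (c : Fin r → Cinf p k (m + 1)) (hc : ∀ j, (p : Untilt p _) ∣ f j - sharp _ (c j))
    (hcm : ∀ j, ∃ (n : ℕ) (x : MvPowerSeries (Fin (m + 1)) k),
      c j ^ p ^ n = cOf x ∧ x ∈ maximalIdeal (MvPowerSeries (Fin (m + 1)) k))
    (K : ℕ) :
    ∃ (E : CoverExt p k (m + 1)) (τ : Fin r → E.B),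
      (∀ j : Fin r, (p : Untilt p (E.inB (cX 0))) ^ K ∣
        (rootPoly fun i => sharp (E.inB (cX 0)) (τ i)).coeff j - mapUntilt E.inB (cX 0) (f j)) ∧
      ∀ i, ∃ N : ℕ, τ i ^ N ∈ span (Set.range fun l => E.inB (cX l)) := by
  classical
  set ιU : Cinf p k (m + 1) →+* Cinf p k (m + 1 + r) := toUniv
  set πU := ιU (cX (p := p) (k := k) (0 : Fin (m + 1))) with hπU
  have hπUX : πU = cX (Fin.castAdd r 0) := by
    rw [hπU]
    show toUniv (cOf (MvPowerSeries.X 0)) = _
    rw [toUniv_cOf]
    exact congrArg cOf (psMap_X _ _ _)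
  have : Fact (πU ≠ 0) := ⟨hπUX ▸ cX_ne_zero _⟩
  have : Fact ¬IsUnit πU := ⟨hπUX ▸ cX_not_isUnit _⟩
  let tU : Fin r → Cinf p k (m + 1 + r) := fun i => cX (Fin.natAdd (m + 1) i)
  let F : Fin r → Untilt p πU := fun j =>
    (rootPoly fun i => sharp πU (tU i)).coeff j - mapUntilt ιU (cX (p := p) (k := k) (0 : Fin (m + 1))) (f j)
  choose b hbd hb using fun j => exists_sharp_approx_dvd.{u, u} (F j) K
  -- reduction modulo `p`
  have hred : ∀ j, πU ∣ b j - ((rootPoly tU).coeff j - ιU (c j)) := by
    intro j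
    rw [← dvd_sharp_sub_iff (p := p), ← mem_span_singleton, ← Ideal.Quotient.eq]
    have h1 : Ideal.Quotient.mk (span {(p : Untilt p πU)}) (sharp πU (b j)) =
        Ideal.Quotient.mk _ (F j) := by
      rw [Ideal.Quotient.eq, mem_span_singleton, ← dvd_neg, neg_sub]
      exact hbd j
    have h2 : Ideal.Quotient.mk (span {(p : Untilt p πU)}) (mapUntilt ιU (cX (p := p) (k := k) (0 : Fin (m + 1))) (f j)) =
        sharpMod πU (ιU (c j)) := by
      change _ = Ideal.Quotient.mk _ (sharp πU (ιU (c j)))
      rw [Ideal.Quotient.eq, mem_span_singleton, ← mapUntilt_sharp]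
      have := map_dvd (mapUntilt (p := p) ιU (cX (p := p) (k := k) (0 : Fin (m + 1)))) (hc j)
      rwa [map_natCast, map_sub] at this
    rw [h1, map_sub (Ideal.Quotient.mk _), h2, ← Polynomial.coeff_map, map_rootPoly]
    change _ = sharpMod πU _
    rw [map_sub, ← Polynomial.coeff_map, map_rootPoly]
    rfl
  -- a common level
  choose nc x hx hxm using hcm
  choose nb g hg using fun j => exists_pow_eq_cOf (b j)
  choose e he using hred
  choose ne e' he' using fun j => exists_pow_eq_cOf (e j)
  set n := Finset.univ.sup nc + Finset.univ.sup nb + Finset.univ.sup ne with hn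
  have hlev : ∀ {M : ℕ} {z : Cinf p k M} {i : ℕ} {z' : MvPowerSeries (Fin M) k}, z ^ p ^ i = cOf z' →
      i ≤ n → z ^ p ^ n = cOf (z' ^ p ^ (n - i)) := fun {M z i z'} h hi => by
    rw [map_pow, ← h, ← pow_mul, ← pow_add, Nat.add_sub_cancel' hi]
  have hle : ∀ (s : Fin r → ℕ) (j : Fin r), s j ≤ Finset.univ.sup s := fun s j =>
    Finset.le_sup (Finset.mem_univ j)
  let tP : Fin r → MvPowerSeries (Fin (m + 1 + r)) k := fun i =>
    MvPowerSeries.X (Fin.natAdd (m + 1) i)
  set S := span (Set.range (baseVar (k := k) (m := m) (r := r)))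
  let G : Fin r → MvPowerSeries (Fin (m + 1 + r)) k := fun j => g j ^ p ^ (n - nb j)
  have hG : ∀ j, b j ^ p ^ n = cOf (G j) := fun j =>
    hlev (hg j) (by have := hle nb j; omega)
  let q := p ^ n
  have hq0 : q ≠ 0 := pow_ne_zero _ hp.out.ne_zero
  -- `G j` is the coefficient of the root polynomial modulo the base variables
  have hGE : ∀ j : Fin r, G j - (rootPoly fun i => tP i ^ q).coeff j ∈ S := by
    intro j
    set x' := psMap (baseVar (r := r)) (fun _ => X_mem_maximalIdeal _) (x j ^ p ^ (n - nc j))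
    have hx' : x' ∈ S := psMap_mem_span _ _ (Ideal.pow_mem_of_mem _ (hxm j) _
      (pow_pos hp.out.pos _))
    have h1 : cOf (p := p) (G j - ((rootPoly fun i => tP i ^ q).coeff j - x')) =
        cOf (baseVar 0 ^ q * e' j ^ p ^ (n - ne j)) := by
      have hcoeff : cOf (p := p) ((rootPoly fun i => tP i ^ q).coeff j) =
          (rootPoly tU).coeff j ^ q := by
        rw [← Polynomial.coeff_map, map_rootPoly,
          show (rootPoly tU).coeff j ^ q = iterateFrobenius (Cinf p k (m + 1 + r)) p n
            ((rootPoly tU).coeff j) from rfl, ← Polynomial.coeff_map, map_rootPoly]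
        congr 2
        funext i
        simp only [Function.comp_apply, map_pow, iterateFrobenius_def, tU, tP, cX, q]
      rw [map_sub, map_sub, ← hG, hcoeff, show cOf (p := p) x' = ιU (c j) ^ q by
        rw [← map_pow, hlev (hx j) (by have := hle nc j; omega), toUniv_cOf]]
      rw [← sub_pow_char_pow, ← sub_pow_char_pow, he j, mul_pow, map_mul, map_pow,
        ← hlev (he' j) (by have := hle ne j; omega), hπUX]
      rfl
    have h2 := cOf_injective h1
    rw [show G j - (rootPoly fun i => tP i ^ q).coeff j =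
      (G j - ((rootPoly fun i => tP i ^ q).coeff j - x')) - x' by ring, h2]
    exact sub_mem (Ideal.mul_mem_right _ _ (Ideal.pow_mem_of_mem _ (Ideal.subset_span (Set.mem_range_self _)) _
      (Nat.pos_of_ne_zero hq0))) hx'
  have hSmax : S ≤ maximalIdeal (MvPowerSeries (Fin (m + 1 + r)) k) := by
    rw [span_le]
    rintro _ ⟨i, rfl⟩
    exact X_mem_maximalIdeal _
  have hGmem : ∀ j, G j ∈ maximalIdeal (MvPowerSeries (Fin (m + 1 + r)) k) := by
    intro j
    have h1 : (rootPoly fun i => tP i ^ q).coeff j ∈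
        maximalIdeal (MvPowerSeries (Fin (m + 1 + r)) k) := by
      rw [← Ideal.Quotient.eq_zero_iff_mem, ← Polynomial.coeff_map, map_rootPoly,
        show (Ideal.Quotient.mk (maximalIdeal (MvPowerSeries (Fin (m + 1 + r)) k))) ∘
          (fun i => tP i ^ q) = fun _ => 0 from funext fun i =>
          Ideal.Quotient.eq_zero_iff_mem.2 (Ideal.pow_mem_of_mem _ (X_mem_maximalIdeal _) _
            (Nat.pos_of_ne_zero hq0)), rootPoly_zero, coeff_X_pow, if_neg]
      exact (j.2).ne
    have := add_mem (hSmax (hGE j)) h1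
    rwa [sub_add_cancel] at this
  obtain ⟨P, hPp, hPG, hfin, hinj⟩ := exists_finite_prime (M := m + 1) G hGmem fun i => by
    refine ⟨q * r, ?_⟩
    rw [pow_mul, show (MvPowerSeries.X (Fin.natAdd (m + 1) i) :
      MvPowerSeries (Fin (m + 1 + r)) k) ^ q = (fun i => tP i ^ q) i from rfl,
      pow_eq_neg_sum (fun i => tP i ^ q) i]
    refine neg_mem (sum_mem fun j _ => Ideal.mul_mem_right _ _ ?_)
    rw [show (rootPoly fun i => tP i ^ q).coeff j =
      G j - (G j - (rootPoly fun i => tP i ^ q).coeff j) by ring]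
    exact sub_mem (Ideal.mem_sup_left (Ideal.subset_span ⟨j, rfl⟩))
      (Ideal.mem_sup_right (hGE j))
  have : IsDomain (MvPowerSeries (Fin (m + 1 + r)) k ⧸ P) := Ideal.Quotient.isDomain P
  have : CharP (MvPowerSeries (Fin (m + 1 + r)) k ⧸ P) p := charP_of_injective_ringHom
    ((Ideal.Quotient.mk P).comp MvPowerSeries.C).injective p
  obtain ⟨E, gl, -, hgl, hglB⟩ := CoverExt.exists_coverExt (p := p) _ hinj hfin
  let gB : MvPowerSeries (Fin (m + 1 + r)) k →+* E.B :=
    (gl.codRestrict E.B hglB).comp (Ideal.Quotient.mk P)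
  let gU : Cinf p k (m + 1 + r) →+* E.B := PerfectClosure.lift _ p _ gB
  have hgU : ∀ z, gU (cOf z) = gB z := fun z =>
    RingHom.congr_fun ((PerfectClosure.lift _ p E.B).left_inv gB) z
  have hcomp : gU.comp ιU = E.inB := by
    refine (PerfectClosure.lift _ p E.B).symm.injective (RingHom.ext fun z => Subtype.ext ?_)
    change ((gU (ιU (cOf z)) : E.B) : E.L) = (E.inB (cOf z) : E.L)
    rw [toUniv_cOf, hgU]
    exact hgl z
  have hgUπ : gU πU = E.inB (cX (p := p) (k := k) (0 : Fin (m + 1))) := RingHom.congr_fun hcomp (cX (p := p) (k := k) (0 : Fin (m + 1)))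
  refine ⟨E, fun i => gU (tU i), fun j => ?_, fun i => ?_⟩
  · have hb0 : gU (b j) = 0 := by
      refine (pow_eq_zero_iff hq0).1 ?_
      rw [← map_pow, hG, hgU]
      refine Subtype.ext ?_
      change gl (Ideal.Quotient.mk P (G j)) = 0
      rw [Ideal.Quotient.eq_zero_iff_mem.2 (hPG j), map_zero]
    -- transport along `gU`
    have hpts : (p : Untilt p (gU πU)) ^ K ∣ mapUntilt gU πU (F j) := by
      have : Fact (gU πU ≠ 0) := hgUπ ▸ E.instFactNeZero 0
      refine pow_dvd_of_points (K := E.L) Fact.out K fun Γ _ w h1 h0 h2 => ?_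
      have h := hb j Γ (w.comap (mapUntilt gU πU)) fun y => h1 _
      simp only [Valuation.comap_apply, map_sub, map_natCast, mapUntilt_sharp, hb0, sharp_zero,
        sub_zero, map_zero] at h
      refine h.trans ((mul_le_mul_right (max_le zero_le le_rfl) _).trans ?_)
      exact mul_le_of_le_one_left' (h1 _)
    have hmap : ∀ (ψ : Cinf p k (m + 1) →+* E.B) (_ : gU.comp ιU = ψ),
        (p : Untilt p (gU πU)) ^ K ∣ mapUntilt gU πU (F j) →
        (p : Untilt p (ψ (cX (p := p) (k := k) (0 : Fin (m + 1))))) ^ K ∣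
          (rootPoly fun i => sharp (ψ (cX (p := p) (k := k) (0 : Fin (m + 1)))) (gU (tU i))).coeff j - mapUntilt ψ (cX (p := p) (k := k) (0 : Fin (m + 1))) (f j) := by
      rintro ψ rfl h
      have hF : mapUntilt gU πU (F j) = (rootPoly fun i => sharp (gU πU) (gU (tU i))).coeff j -
          mapUntilt (gU.comp ιU) (cX (p := p) (k := k) (0 : Fin (m + 1))) (f j) := by
        simp only [F, map_sub, ← Polynomial.coeff_map, map_rootPoly]
        refine congrArg₂ (· - ·) ?_ (mapUntilt_mapUntilt _ _ _ _)
        refine congrArg (fun t : Fin r → Untilt p (gU πU) => (rootPoly t).coeff j) (funext fun i => ?_)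
        exact mapUntilt_sharp gU πU (tU i)
      rw [hF] at h
      exact h
    exact hmap _ hcomp hpts
  · refine ⟨q * r, ?_⟩
    have h0 : gB (tP i ^ (q * r)) ∈ span (Set.range fun l => E.inB (cX l)) := by
      have hS : S.map gB ≤ span (Set.range fun l => E.inB (cX l)) := by
        rw [Ideal.map_span, span_le]
        rintro _ ⟨_, ⟨l, rfl⟩, rfl⟩
        refine Ideal.subset_span ⟨l, Subtype.ext ?_⟩
        change (E.inB (cX l) : E.L) = gl (Ideal.Quotient.mk P (baseVar l))
        have := (hgl (MvPowerSeries.X l)).symm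
        rw [RingHom.comp_apply, psMap_X] at this
        exact this
      rw [pow_mul, pow_eq_neg_sum (fun i => tP i ^ q) i, map_neg, map_sum]
      refine neg_mem (sum_mem fun j _ => ?_)
      rw [map_mul]
      refine Ideal.mul_mem_right _ _ ?_
      rw [show (rootPoly fun i => tP i ^ q).coeff j =
        G j - (G j - (rootPoly fun i => tP i ^ q).coeff j) by ring, map_sub,
        show gB (G j) = 0 from Subtype.ext (by
          change gl (Ideal.Quotient.mk P (G j)) = 0
          rw [Ideal.Quotient.eq_zero_iff_mem.2 (hPG j), map_zero]), zero_sub]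
      exact neg_mem (hS (Ideal.mem_map_of_mem _ (hGE j)))
    rw [map_pow, ← hgU] at h0
    exact h0

end Model

end Vale.Agent.P202.Mixed2
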