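import Vale.Agent.P202.Mixed2.Cover.Algebra
import Vale.Agent.P202.Mixed2.Filtration
import Vale.Agent.P202.Mixed2.Core

/-!
# The second base of the cover: `π` is nilpotent modulo `(τ, ζ)`

The constant term of the equation is a nonzero constant modulo the variables, so a fixed power of `p`
lies in `(τ, ζ)` on the untilt; reducing modulo a prime containing `(τ, ζ)` gives the statement in `B`.
-/

namespace Vale.Agent.P202.Mixed2

open Ideal IsLocalRing Vale.Agent.P202.Perf.Base

universe u

/-- Lying over for a finite ring map. -/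
theorem exists_prime_comap {A S W : Type*} [CommRing A] [CommRing S] [CommRing W] [IsDomain W]
    (f : A →+* S) (hf : f.Finite) (g : A →+* W) (h : ∀ P, f P = 0 → g P = 0) :
    ∃ Q : Ideal S, Q.IsPrime ∧ ∀ P, g P = 0 ↔ f P ∈ Q := by
  let : Algebra A S := f.toAlgebra
  have : Module.Finite A S := hf
  have : (RingHom.ker g).IsPrime := RingHom.ker_isPrime g
  obtain ⟨Q, -, hQp, hQc⟩ := Ideal.exists_ideal_over_prime_of_isIntegral (RingHom.ker g)
    (⊥ : Ideal S) (fun P hP => h P (Ideal.mem_bot.1 hP))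
  exact ⟨Q, hQp, fun P => (SetLike.ext_iff.1 hQc P).symm⟩

namespace CoreData

variable {p : ℕ} [hp : Fact p.Prime] {R : Type u} [CommRing R] [IsLocalRing R] {n : ℕ}
variable (C : CoreData p R n) [CharP (ResidueField R) p] [PerfectRing (ResidueField R) p]

theorem constantCoeff_coeff_zero_ne_zero :
    MvPowerSeries.constantCoeff (C.Φ.coeff 0) ≠ 0 := by
  intro h0
  obtain ⟨Q, hQp, hQ⟩ := exists_prime_comap (Polynomial.eval₂RingHom C.φ C.θ)
    (RingHom.Finite.of_comp_finite (f := Polynomial.C) (by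
      rw [show (Polynomial.eval₂RingHom C.φ C.θ).comp Polynomial.C = C.φ from
        RingHom.ext fun a => by simp]
      exact C.φ_finite))
    (Polynomial.eval₂RingHom (MvPowerSeries.constantCoeff (σ := Fin n)
      (R := WittVector p (ResidueField R))) 0)
    (fun P hP => by
      obtain ⟨c, rfl⟩ := C.dvd_of_root P hP
      rw [map_mul, Polynomial.coe_eval₂RingHom, Polynomial.eval₂_at_zero, h0, zero_mul])
  have hspan : span (Set.range (Fin.cons C.θ fun i => C.φ (MvPowerSeries.X i))) ≤ Q := by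
    rw [span_le]
    rintro _ ⟨l, rfl⟩
    cases l using Fin.cases with
    | zero => simpa using (hQ Polynomial.X).1 (by simp)
    | succ i => simpa using (hQ (Polynomial.C (MvPowerSeries.X i))).1 (by simp)
  obtain ⟨-, c, hc⟩ := C.isRed
  have hm : maximalIdeal R ≤ Q := by
    intro x hx
    have hx' := hc (Ideal.pow_mem_pow hx (c + 1))
    refine hQp.mem_of_pow_mem (c + 1) ?_
    have hJ : span (Set.range (Fin.cons C.θ fun i => C.φ (MvPowerSeries.X i) : Fin (n + 1) → R)) *
        maximalIdeal R ^ c ≤ Q := le_trans Ideal.mul_le_left hspan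
    exact hJ hx'
  have hp' : (p : R) ∈ maximalIdeal R := by
    rw [← residue_eq_zero_iff, map_natCast, CharP.cast_eq_zero]
  have h1 := (hQ (p : Polynomial (Base p (ResidueField R) n))).2 (by
    rw [map_natCast]
    exact hm hp')
  rw [map_natCast] at h1
  exact WittVector.p_nonzero p (ResidueField R) h1

theorem exists_constantCoeff_eq :
    ∃ (v : ℕ) (u : (WittVector p (ResidueField R))ˣ),
      MvPowerSeries.constantCoeff (C.Φ.coeff 0) = (p : WittVector p (ResidueField R)) ^ v * u :=
  WittVector.exists_eq_pow_p_mul' _ C.constantCoeff_coeff_zero_ne_zero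

end CoreData

/-- A polynomial is congruent to its constant modulo the variables. -/
theorem sub_C_constantCoeff_mem_zIdeal {p : ℕ} [Fact p.Prime] {k : Type u} [Field k] [CharP k p]
    [PerfectRing k p] {d : ℕ} (Φ : Polynomial (Base p k d)) :
    Φ - Polynomial.C (MvPowerSeries.C (MvPowerSeries.constantCoeff (Φ.coeff 0))) ∈
      Choices.zIdeal p k d := by
  have h1 : Φ - Polynomial.C (Φ.coeff 0) ∈ Choices.zIdeal p k d := by
    obtain ⟨c, hc⟩ := Polynomial.X_dvd_iff.2 (show (Φ - Polynomial.C (Φ.coeff 0)).coeff 0 = 0 by simp)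
    rw [hc]
    exact Ideal.mul_mem_right _ _ (Ideal.subset_span ⟨0, by simp⟩)
  have h2 : Φ.coeff 0 - MvPowerSeries.C (MvPowerSeries.constantCoeff (Φ.coeff 0)) ∈
      Ideal.span (Set.range (MvPowerSeries.X : Fin d → Base p k d)) := by
    rw [← pow_one (Ideal.span _)]
    refine mem_pow_span_X fun a ha => ?_
    rw [(Finsupp.degree_eq_zero_iff a).1 (Nat.lt_one_iff.1 ha), map_sub,
      MvPowerSeries.coeff_zero_C, MvPowerSeries.coeff_zero_eq_constantCoeff_apply, sub_self]
  have h3 : Polynomial.C (Φ.coeff 0 - MvPowerSeries.C (MvPowerSeries.constantCoeff (Φ.coeff 0))) ∈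
      Choices.zIdeal p k d := by
    have h4 := Ideal.mem_map_of_mem (Polynomial.C) h2
    rw [Ideal.map_span] at h4
    refine (Ideal.span_le.2 ?_) h4
    rintro _ ⟨_, ⟨i, rfl⟩, rfl⟩
    exact Ideal.subset_span ⟨i.succ, by simp⟩
  have := add_mem h1 h3
  rwa [map_sub, sub_add_sub_cancel] at this

namespace CoverExt

variable {p : ℕ} [hp : Fact p.Prime] {k : Type u} [Field k] [CharP k p] [PerfectRing k p] {d : ℕ}
variable (E : CoverExt p k (d + 1)) (t : E.B)

/-- The base in the untilt of the cover. -/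
noncomputable def baseToO : Base p k d →+* E.O :=
  (algebraMap (An p k (Fin d) 0) E.O).comp (baseIso p k d)

theorem baseToO_apply (f : Base p k d) :
    E.baseToO f = mapUntilt E.inB (cX 0) (unramLevel 0 f) := by
  rw [baseToO, RingHom.comp_apply, E.algebraMap_bot, levelMap_baseIso]

/-- The second parameters `(τ, ζ)`. -/
noncomputable def sideY : Fin (d + 1) → E.B := Fin.cons t fun l => E.inB (cX l.succ)

/-- The ideal of the second parameters in the untilt. -/
noncomputable abbrev sideI : Ideal E.O := aI (Filt.US (p := p) (E.inB (cX 0)) (E.sideY t))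

/-- Evaluation at a root. -/
noncomputable def evQ : Polynomial (Base p k d) →+* E.O :=
  Polynomial.eval₂RingHom E.baseToO (sharp (E.inB (cX 0)) t)

theorem evQ_C (f : Base p k d) : E.evQ t (Polynomial.C f) = E.baseToO f := by
  simp [evQ]

theorem evQ_zIdeal {P : Polynomial (Base p k d)} (hP : P ∈ Choices.zIdeal p k d) :
    E.evQ t P ∈ E.sideI t := by
  refine (show Choices.zIdeal p k d ≤ (E.sideI t).comap (E.evQ t) from ?_) hP
  refine Ideal.span_le.2 ?_
  rintro _ ⟨l, rfl⟩
  refine Ideal.subset_span ⟨l, ?_⟩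
  cases l using Fin.cases with
  | zero => simp [evQ, sideY, Filt.US]
  | succ i =>
    rw [Fin.cons_succ, E.evQ_C, E.baseToO_apply, unramLevel_X, mapUntilt_sharp, Filt.US, sideY,
      Fin.cons_succ]
    congr 2
    symm
    rw [cRoot, RingEquiv.symm_apply_eq, iterateFrobeniusEquiv_apply, iterateFrobenius_def, pow_zero,
      pow_one]

/-- A root modulo `p ^ K` puts a power of `p` in `(τ, ζ)`. -/
theorem p_pow_mem_sideI {Φ : Polynomial (Base p k d)} {v : ℕ} {u : (WittVector p k)ˣ}
    (h0 : MvPowerSeries.constantCoeff (Φ.coeff 0) = (p : WittVector p k) ^ v * u) {K : ℕ}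
    (hK : v < K) (hroot : (p : E.O) ^ K ∣ E.evQ t Φ) : (p : E.O) ^ v ∈ E.sideI t := by
  have hsub := sub_C_constantCoeff_mem_zIdeal Φ
  have h := E.evQ_zIdeal t hsub
  rw [map_sub, E.evQ_C, h0, map_mul, map_mul, map_pow, map_pow, map_natCast, map_natCast] at h
  have := isAdicComplete_untilt (p := p) (Fact.out : E.inB (cX (0 : Fin (d + 1))) ≠ 0)
  refine Filt.pow_mem_of_mem_sup ?_
  obtain ⟨e, he⟩ := (u.isUnit.map MvPowerSeries.C).map E.baseToO |>.exists_right_inv
  rw [show (p : E.O) ^ v = ((p : E.O) ^ v * E.baseToO (MvPowerSeries.C (u : WittVector p k))) * e by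
    rw [mul_assoc, he, mul_one]]
  refine Ideal.mul_mem_right _ _ ?_
  rw [show (p : E.O) ^ v * E.baseToO (MvPowerSeries.C (u : WittVector p k)) =
    E.evQ t Φ - (E.evQ t Φ - (p : E.O) ^ v * E.baseToO (MvPowerSeries.C (u : WittVector p k))) by ring]
  exact sub_mem (Ideal.mem_sup_right (mem_span_singleton.2 ((pow_dvd_pow _ hK).trans hroot)))
    (Ideal.mem_sup_left h)

omit [PerfectRing k p] in
/-- `π` lies in every maximal ideal of `B`. -/
theorem pi_mem_maximal (P : Ideal E.B) [P.IsMaximal] : E.inB (cX (0 : Fin (d + 1))) ∈ P := by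
  have : Algebra.IsIntegral (Cinf p k (d + 1)) E.B :=
    ⟨fun b => IsIntegralClosure.isIntegral (Cinf p k (d + 1)) E.L b⟩
  have hmax : (P.comap (algebraMap (Cinf p k (d + 1)) E.B)).IsMaximal :=
    Ideal.isMaximal_comap_of_isIntegral_of_isMaximal (R := Cinf p k (d + 1)) (S := E.B) P
  by_contra hne
  obtain ⟨c, m, hm, hcm⟩ := hmax.exists_inv (x := cX (0 : Fin (d + 1))) hne
  refine hmax.ne_top (Ideal.eq_top_of_isUnit_mem _ hm ?_)
  obtain ⟨i, x, hx⟩ := exists_pow_eq_cOf c
  refine (isUnit_pow_iff (pow_ne_zero i hp.out.ne_zero)).1 ?_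
  rw [show m = 1 - c * cX (0 : Fin (d + 1)) by rw [← hcm]; ring, sub_pow_char_pow, one_pow, mul_pow,
    hx, cX, ← map_pow, ← map_mul, ← map_one (cOf (p := p) (k := k) (M := d + 1)), ← map_sub,
    cOf_isUnit_iff]
  rw [MvPowerSeries.isUnit_iff_constantCoeff]
  simp [zero_pow (pow_ne_zero i hp.out.ne_zero)]

/-- `π` is nilpotent modulo the second parameters. -/
theorem pi_mem_radical {v : ℕ} (h : (p : E.O) ^ v ∈ E.sideI t) :
    ∃ N : ℕ, E.inB (cX (0 : Fin (d + 1))) ^ N ∈ span (Set.range (E.sideY t)) := by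
  suffices E.inB (cX (0 : Fin (d + 1))) ∈ (span (Set.range (E.sideY t))).radical from this
  rw [Ideal.radical_eq_sInf, Ideal.mem_sInf]
  rintro Q ⟨hQle, hQ⟩
  by_contra hπ
  have : CharP (E.B ⧸ Q) p :=
    charP_of_injective_ringHom ((Ideal.Quotient.mk Q).comp
      (E.inB.comp (cOf.comp MvPowerSeries.C))).injective p
  have : PerfectRing (E.B ⧸ Q) p := PerfectRing.ofSurjective _ p fun x => by
    obtain ⟨x, rfl⟩ := Ideal.Quotient.mk_surjective x
    exact ⟨Ideal.Quotient.mk Q ((frobeniusEquiv E.B p).symm x), by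
      rw [frobenius_def, ← map_pow, frobeniusEquiv_symm_pow_p]⟩
  set mk := Ideal.Quotient.mk Q
  set π' := mk (E.inB (cX (0 : Fin (d + 1)))) with hπ'
  have hπ'0 : π' ≠ 0 := fun h0 => hπ (Ideal.Quotient.eq_zero_iff_mem.1 h0)
  have hker : ∀ z ∈ E.sideI t, mapUntilt (p := p) mk (E.inB (cX (0 : Fin (d + 1)))) z = 0 := by
    intro z hz
    induction hz using Submodule.span_induction with
    | mem z hz =>
      obtain ⟨l, rfl⟩ := hz
      rw [Filt.US, mapUntilt_sharp, Ideal.Quotient.eq_zero_iff_mem.2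
        (hQle (Ideal.subset_span ⟨l, rfl⟩)), sharp_zero]
    | zero => exact map_zero _
    | add a b _ _ ha hb => rw [map_add, ha, hb, add_zero]
    | smul a b _ hb => rw [smul_eq_mul, map_mul, hb, mul_zero]
  have h0 := hker _ h
  rw [map_pow, map_natCast] at h0
  have hone : ∀ j : ℕ, (p : Untilt p π') ^ j = 0 → (1 : Untilt p π') = 0 := by
    intro j
    induction j with
    | zero => intro h1; rwa [pow_zero] at h1
    | succ j ih =>
      intro h1
      rw [pow_succ'] at h1
      exact ih (mul_left_cancel_p hπ'0 (h1.trans (mul_zero _).symm))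
  have hunit : IsUnit π' := isUnit_of_dvd_one ((p_dvd_sharp_iff π' 1).1 (by
    rw [map_one, hone v h0]
    exact dvd_zero _))
  obtain ⟨b, hb⟩ := hunit.exists_right_inv
  obtain ⟨b, rfl⟩ := Ideal.Quotient.mk_surjective b
  obtain ⟨M, hM, hQM⟩ := Ideal.exists_le_maximal Q hQ.ne_top
  refine hM.ne_top ((Ideal.eq_top_iff_one M).2 ?_)
  have h1 : E.inB (cX (0 : Fin (d + 1))) * b - 1 ∈ Q := by
    rw [← Ideal.Quotient.eq, map_mul, map_one]
    exact hb
  have h2 := sub_mem (Ideal.mul_mem_right b M (E.pi_mem_maximal M)) (hQM h1)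
  rwa [sub_sub_cancel] at h2

/-- All the variables of the base are nilpotent modulo the second parameters. -/
theorem cX_mem_radical {v : ℕ} (h : (p : E.O) ^ v ∈ E.sideI t) (l : Fin (d + 1)) :
    ∃ N : ℕ, E.inB (cX l) ^ N ∈ span (Set.range (E.sideY t)) := by
  cases l using Fin.cases with
  | zero => exact E.pi_mem_radical t h
  | succ i => exact ⟨1, by rw [pow_one]; exact Ideal.subset_span ⟨i.succ, by simp [sideY]⟩⟩

end CoverExt

end Vale.Agent.P202.Mixed2
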