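import Mathlib

/-!
# Power series rings over fields are integrally closed

Division of power series is tested by almost integrality: if `c * a ^ m` is a multiple of `b ^ m` for all
`m` and some `c ≠ 0`, then `b` divides `a`. This passes from a ring to its power series ring.
-/

namespace Vale.Agent.P202.Mixed2

universe u

/-- Complete integral closedness, stated as a divisibility. -/
def DivClosed (R : Type u) [CommRing R] : Prop :=
  ∀ a b c : R, b ≠ 0 → c ≠ 0 → (∀ m : ℕ, b ^ m ∣ c * a ^ m) → b ∣ a

theorem divClosed_field (k : Type u) [Field k] : DivClosed k :=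
  fun _ _ _ hb _ _ => (isUnit_iff_ne_zero.2 hb).dvd

theorem divClosed_equiv {R S : Type u} [CommRing R] [CommRing S] (e : R ≃+* S) (h : DivClosed R) :
    DivClosed S := by
  intro a b c hb hc hm
  have := h (e.symm a) (e.symm b) (e.symm c) (by simpa using hb) (by simpa using hc) fun m => by
    have := map_dvd e.symm (hm m)
    rwa [map_pow, map_mul, map_pow] at this
  simpa using map_dvd e this

theorem isIntegrallyClosed_of_divClosed {R : Type u} [CommRing R] [IsDomain R] (h : DivClosed R) :
    IsIntegrallyClosed R := by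
  refine (isIntegrallyClosed_iff (FractionRing R)).2 fun {x} hx => ?_
  obtain ⟨a, b, hb, rfl⟩ := IsFractionRing.div_surjective (A := R) x
  obtain ⟨c, hc, hcm⟩ := hx.isAlmostIntegral
  have hb0 : b ≠ 0 := nonZeroDivisors.ne_zero hb
  have hbK : algebraMap R (FractionRing R) b ≠ 0 := by
    simpa using (map_ne_zero_iff _ (IsFractionRing.injective R (FractionRing R))).2 hb0
  obtain ⟨y, rfl⟩ := h a b c hb0 (nonZeroDivisors.ne_zero hc) fun m => by
    obtain ⟨z, hz⟩ := hcm m
    refine ⟨z, IsFractionRing.injective R (FractionRing R) ?_⟩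
    rw [Algebra.smul_def, div_pow] at hz
    rw [map_mul, map_mul, map_pow, map_pow, hz]
    field_simp
  exact ⟨y, by rw [map_mul, mul_div_cancel_left₀ _ hbK]⟩

open PowerSeries in
theorem divClosed_powerSeries {R : Type u} [CommRing R] [IsDomain R] (h : DivClosed R) :
    DivClosed (PowerSeries R) := by
  classical
  intro a b c hb hc hm
  -- reduce to `b` with nonzero constant term
  have key : ∀ a b : PowerSeries R, constantCoeff b ≠ 0 → (∀ m : ℕ, b ^ m ∣ c * a ^ m) → b ∣ a := by
    intro a b hb0 hab
    have step : ∀ a : PowerSeries R, (∀ m : ℕ, b ^ m ∣ c * a ^ m) →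
        ∃ y : R, ∃ a' : PowerSeries R, a = C y * b + X * a' ∧ ∀ m : ℕ, b ^ m ∣ c * a' ^ m := by
      intro a ha
      have hfirst : ∀ f g : PowerSeries R, constantCoeff f ≠ 0 →
          ∀ i, (∀ j < i, coeff j g = 0) → coeff i (f * g) = constantCoeff f * coeff i g := by
        intro f g _ i hg
        rw [coeff_mul, Finset.sum_eq_single (0, i)]
        · rw [coeff_zero_eq_constantCoeff_apply]
        · rintro ⟨u, w⟩ huw hne
          have hu : u ≠ 0 := fun h0 => hne (by
            rw [Finset.HasAntidiagonal.mem_antidiagonal] at huw; subst h0; simp at huw; rw [huw])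
          rw [Finset.HasAntidiagonal.mem_antidiagonal] at huw
          rw [hg w (by omega), mul_zero]
        · intro h0
          exact absurd (Finset.HasAntidiagonal.mem_antidiagonal.2 (zero_add i)) h0
      obtain ⟨s, hs, hsmin⟩ : ∃ s, coeff s c ≠ 0 ∧ ∀ j < s, coeff j c = 0 := by
        have hex : ∃ s, coeff s c ≠ 0 := by
          by_contra hno
          push Not at hno
          exact hc (PowerSeries.ext fun j => by simpa using hno j)
        exact ⟨Nat.find hex, Nat.find_spec hex, fun j hj => not_not.1 (Nat.find_min hex hj)⟩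
      obtain ⟨y, hy⟩ := h (constantCoeff a) (constantCoeff b) (coeff s c) hb0 hs fun m => by
        obtain ⟨g, hg⟩ := ha m
        have hbm : constantCoeff (b ^ m) ≠ 0 := by rw [map_pow]; exact pow_ne_zero _ hb0
        have hlow : ∀ j < s, coeff j (c * a ^ m) = 0 := fun j hj => by
          rw [coeff_mul]
          refine Finset.sum_eq_zero fun u hu => ?_
          rw [Finset.HasAntidiagonal.mem_antidiagonal] at hu
          rw [hsmin u.1 (by omega), zero_mul]
        have hglow : ∀ j < s, coeff j g = 0 := by
          intro j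
          induction j using Nat.strong_induction_on with
          | _ j ih =>
            intro hj
            have := hfirst (b ^ m) g hbm j fun l hl => ih l hl (by omega)
            rw [← hg, hlow j hj, eq_comm, mul_eq_zero] at this
            exact this.resolve_left hbm
        refine ⟨coeff s g, ?_⟩
        have h1 := hfirst (b ^ m) g hbm s hglow
        rw [← hg, map_pow] at h1
        rw [← h1, coeff_mul, Finset.sum_eq_single (s, 0)]
        · rw [coeff_zero_eq_constantCoeff_apply, map_pow]
        · rintro ⟨u, w⟩ huw hne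
          rw [Finset.HasAntidiagonal.mem_antidiagonal] at huw
          rcases lt_or_ge u s with hu | hu
          · rw [hsmin u hu, zero_mul]
          · exfalso
            apply hne
            simp only [Prod.mk.injEq]
            omega
        · intro h0
          exact absurd (Finset.HasAntidiagonal.mem_antidiagonal.2 (add_zero s)) h0
      obtain ⟨a', ha'⟩ : X ∣ a - C y * b := by
        rw [X_dvd_iff, map_sub, map_mul, constantCoeff_C, hy]
        ring
      refine ⟨y, a', by rw [← ha']; ring, fun m => ?_⟩
      have h1 : b ^ m ∣ c * (X * a') ^ m := by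
        rw [← ha', sub_eq_add_neg, add_pow, Finset.mul_sum]
        refine Finset.dvd_sum fun i hi => ?_
        rw [Finset.mem_range] at hi
        obtain ⟨g, hg⟩ := ha i
        refine ⟨g * (-C y) ^ (m - i) * (m.choose i : PowerSeries R), ?_⟩
        rw [show (-(C y * b)) ^ (m - i) = (-C y) ^ (m - i) * b ^ (m - i) by
          rw [← mul_pow, neg_mul]]
        rw [show c * (a ^ i * ((-C y) ^ (m - i) * b ^ (m - i)) * (m.choose i : PowerSeries R))
          = (c * a ^ i) * ((-C y) ^ (m - i) * b ^ (m - i) * (m.choose i : PowerSeries R)) by ring,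
          hg, show b ^ m = b ^ i * b ^ (m - i) by rw [← pow_add, Nat.add_sub_cancel' (by omega)]]
        ring
      obtain ⟨g, hg⟩ := h1
      obtain ⟨g', rfl⟩ : X ^ m ∣ g := by
        refine X_prime.pow_dvd_of_dvd_mul_left m (a := b ^ m) (fun hdvd => ?_)
          ⟨c * a' ^ m, by rw [← hg]; ring⟩
        exact hb0 (X_dvd_iff.1 (X_prime.dvd_of_dvd_pow hdvd))
      refine ⟨g', mul_left_cancel₀ (pow_ne_zero m (X_ne_zero (R := R))) ?_⟩
      linear_combination hg
    choose y next hy hnext using step
    let seq : ℕ → {f : PowerSeries R // ∀ m : ℕ, b ^ m ∣ c * f ^ m} := fun i =>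
      Nat.rec ⟨a, hab⟩ (fun _ f => ⟨next f.1 f.2, hnext f.1 f.2⟩) i
    let Y : ℕ → R := fun i => y (seq i).1 (seq i).2
    have hseq : ∀ i, a = (∑ j ∈ Finset.range i, C (Y j) * X ^ j) * b + X ^ i * (seq i).1 := by
      intro i
      induction i with
      | zero => simp [seq]
      | succ i ih =>
        conv_lhs => rw [ih, hy (seq i).1 (seq i).2]
        rw [Finset.sum_range_succ, pow_succ]
        simp only [Y, seq]
        ring
    refine ⟨PowerSeries.mk Y, PowerSeries.ext fun i => ?_⟩
    have h0 := congrArg (coeff i) (hseq (i + 1))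
    rw [map_add, coeff_X_pow_mul' (seq (i + 1)).1, if_neg (by omega), add_zero] at h0
    rw [h0, mul_comm b, coeff_mul, coeff_mul]
    refine Finset.sum_congr rfl fun u hu => ?_
    rw [Finset.HasAntidiagonal.mem_antidiagonal] at hu
    rw [map_sum, coeff_mk]
    congr 1
    rw [Finset.sum_eq_single u.1]
    · simp
    · intro j _ hj
      simp [coeff_C_mul, coeff_X_pow, Ne.symm hj]
    · intro h0
      exact absurd (Finset.mem_range.2 (by omega)) h0
  obtain ⟨t, b', hb', rfl⟩ : ∃ (t : ℕ) (b' : PowerSeries R), constantCoeff b' ≠ 0 ∧ b = X ^ t * b' := by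
    refine ⟨b.order.toNat, divXPowOrder b, ?_, X_pow_order_mul_divXPowOrder.symm⟩
    exact constantCoeff_divXPowOrder_eq_zero_iff.not.2 hb
  have hord : (X : PowerSeries R) ^ t ∣ a := by
    rcases eq_or_ne a 0 with rfl | ha
    · exact dvd_zero _
    rw [X_pow_dvd_iff]
    intro j hj
    by_contra hne
    have hco := hm (c.order.toNat + 1)
    have hle : (X : PowerSeries R) ^ (t * (c.order.toNat + 1)) ∣ c * a ^ (c.order.toNat + 1) :=
      dvd_trans (by rw [mul_pow, ← pow_mul]; exact dvd_mul_right _ _) hco
    have h1 := le_order (c * a ^ (c.order.toNat + 1)) ((t * (c.order.toNat + 1) : ℕ) : ℕ∞)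
      fun i hi => (X_pow_dvd_iff.1 hle) i (by exact_mod_cast hi)
    rw [order_mul, order_pow] at h1
    have h2 : a.order ≤ j := order_le j hne
    have h3 : c.order = (c.order.toNat : ℕ∞) := (ENat.natCast_toNat (fun ht => hc (order_eq_top.1 ht))).symm
    have h4 : ((t * (c.order.toNat + 1) : ℕ) : ℕ∞) ≤
        ((c.order.toNat + (c.order.toNat + 1) * j : ℕ) : ℕ∞) := by
      refine h1.trans ?_
      rw [Nat.cast_add, Nat.cast_mul, ← h3, nsmul_eq_mul]
      exact add_le_add le_rfl (mul_le_mul' le_rfl h2)
    have h5 : t * (c.order.toNat + 1) ≤ c.order.toNat + (c.order.toNat + 1) * j := by exact_mod_cast h4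
    nlinarith
  obtain ⟨a', rfl⟩ := hord
  refine mul_dvd_mul_left _ (key a' b' hb' fun m => ?_)
  have := hm m
  rw [mul_pow, mul_pow, mul_left_comm] at this
  exact (mul_dvd_mul_iff_left (pow_ne_zero m (pow_ne_zero t X_ne_zero))).1 this

theorem divClosed_mvPowerSeries (k : Type u) [Field k] : ∀ n : ℕ, DivClosed (MvPowerSeries (Fin n) k)
  | 0 => by
    intro a b c hb _ _
    refine (MvPowerSeries.isUnit_iff_constantCoeff.2 (isUnit_iff_ne_zero.2 fun h => hb ?_)).dvd
    refine MvPowerSeries.ext fun x => ?_
    rw [Subsingleton.elim x 0, MvPowerSeries.coeff_zero_eq_constantCoeff_apply, h, map_zero]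
  | n + 1 => by
    have : IsDomain (MvPowerSeries (Fin n) k) := NoZeroDivisors.to_isDomain _
    exact divClosed_equiv (MvPowerSeries.finSuccEquiv k n).symm.toRingEquiv
      (divClosed_powerSeries (divClosed_mvPowerSeries k n))

end Vale.Agent.P202.Mixed2
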