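import Vale.Agent.P202.Mixed2.Cover.SideMap
import Vale.Agent.P202.Mixed2.Filtration
import Vale.Agent.P202.Mixed2.FiltRegular

/-!
# Almost bases over the second parameters, and the regularity of their roots

`B` is, up to any root of one element `δ`, free over the perfected power series in `y`; hence the
roots `u` of `y` are regular on the untilt up to `sharp` of any root of `δ`.
-/

namespace Vale.Agent.P202.Mixed2.Side

open Vale.Agent.P202.Mixed2.Filt

universe u

section Generic

/-- Up to one denominator the integral elements lie in a free module. -/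
theorem almost_basis (A K L : Type*) [CommRing A] [IsDomain A] [IsIntegrallyClosed A] [Field K]
    [Algebra A K] [IsFractionRing A K] [Field L] [Algebra K L] [Algebra A L] [IsScalarTower A K L]
    [FiniteDimensional K L] [Algebra.IsSeparable K L] :
    ∃ (n : ℕ) (e : Fin n → L) (δ : A), δ ≠ 0 ∧ (∀ i, IsIntegral A (e i)) ∧
      (∀ b, IsIntegral A b → ∃ c : Fin n → A, algebraMap A L δ * b = ∑ i, algebraMap A L (c i) * e i) ∧
      ∀ c : Fin n → A, ∑ i, algebraMap A L (c i) * e i = 0 → c = 0 := by
  classical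
  obtain ⟨y, hy, hint⟩ := exists_integral_multiples A K (Finset.univ.image (Module.finBasis K L))
  have hy' : algebraMap A K y ≠ 0 := (map_ne_zero_iff _ (IsFractionRing.injective A K)).2 hy
  set b := (Module.finBasis K L).unitsSMul fun _ => Units.mk0 _ hy' with hb
  have hb_int : ∀ i, IsIntegral A (b i) := fun i => by
    rw [hb, Module.Basis.unitsSMul_apply, Units.smul_def, Units.val_mk0, algebraMap_smul]
    exact hint _ (Finset.mem_image_of_mem _ (Finset.mem_univ i))
  set d := (Algebra.traceForm K L).dualBasis (traceForm_nondegenerate K L) b with hd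
  obtain ⟨δ, hδ, hdint⟩ := exists_integral_multiples A K (Finset.univ.image d)
  refine ⟨Module.finrank K L, fun i => algebraMap A L δ * d i, δ, hδ, fun i => ?_, fun x hx => ?_,
    fun c hc => ?_⟩
  · show IsIntegral A (algebraMap A L δ * d i)
    rw [← Algebra.smul_def]
    exact hdint _ (Finset.mem_image_of_mem _ (Finset.mem_univ i))
  · obtain ⟨c, hc⟩ := (Submodule.mem_span_range_iff_exists_fun A).1
      (integralClosure_le_span_dualBasis b hb_int (show x ∈ Subalgebra.toSubmodule _ from hx))
    refine ⟨c, ?_⟩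
    rw [← hc, Finset.mul_sum]
    refine Finset.sum_congr rfl fun i _ => ?_
    rw [Algebra.smul_def]
    ring
  · have hδ' : algebraMap A K δ ≠ 0 := (map_ne_zero_iff _ (IsFractionRing.injective A K)).2 hδ
    have h0 : ∑ i, (algebraMap A K (c i) * algebraMap A K δ) • d i = 0 := by
      rw [← hc]
      refine Finset.sum_congr rfl fun i _ => ?_
      rw [Algebra.smul_def, map_mul, ← IsScalarTower.algebraMap_apply,
        ← IsScalarTower.algebraMap_apply, mul_assoc]
    funext i
    have := Fintype.linearIndependent_iff.1 d.linearIndependent _ h0 i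
    exact IsFractionRing.injective A K (((mul_eq_zero.1 this).resolve_right hδ').trans
      (map_zero _).symm)

/-- Finitely generated subfields over a perfect field contain all roots. -/
theorem mem_of_pow_mem {p : ℕ} [Fact p.Prime] {K' L : Type*} [Field K'] [Field L] [CharP L p]
    [PerfectField K'] [Algebra K' L] (F : IntermediateField K' L) [FiniteDimensional K' F]
    {x : L} {j : ℕ} (h : x ^ p ^ j ∈ F) : x ∈ F := by
  have : CharP F p := (algebraMap F L).charP (algebraMap F L).injective p
  have : PerfectField F := Algebra.IsAlgebraic.perfectField K'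
  have : PerfectRing F p := PerfectField.toPerfectRing p
  obtain ⟨z, hz⟩ := (iterateFrobeniusEquiv F p j).surjective ⟨_, h⟩
  have : (z : L) ^ p ^ j = x ^ p ^ j := by
    rw [iterateFrobeniusEquiv_def] at hz
    exact congrArg Subtype.val hz
  exact iterateFrobenius_inj L p j (by simpa [iterateFrobenius_def] using this) ▸ z.2

/-- `L` is finite over `K'` if it is finite over a field inside a finitely generated extension. -/
theorem finite_of_mem_adjoin {K' K L : Type*} [Field K'] [Field K] [Field L]
    [Algebra K' L] [Algebra.IsAlgebraic K' L] (ι : K →+* L) {m : ℕ} (b : Fin m → L)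
    (hb : ∀ x, ∃ c : Fin m → K, x = ∑ i, ι (c i) * b i) (S : Finset L)
    (h : ∀ z : K, ι z ∈ IntermediateField.adjoin K' (S : Set L)) :
    FiniteDimensional K' L := by
  classical
  set T := S ∪ Finset.univ.image b
  set F := IntermediateField.adjoin K' (T : Set L)
  have : FiniteDimensional K' F := IntermediateField.finiteDimensional_adjoin fun x _ =>
    (Algebra.IsAlgebraic.isAlgebraic x).isIntegral
  have hF : ∀ x : L, x ∈ F := fun x => by
    obtain ⟨c, rfl⟩ := hb x
    exact sum_mem fun i _ => mul_mem (IntermediateField.adjoin.mono K' _ _ (by simp [T]) (h _))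
      (IntermediateField.subset_adjoin K' _ (by simp [T]))
  exact Module.Finite.of_surjective F.val.toLinearMap fun x => ⟨⟨x, hF x⟩, rfl⟩

end Generic

section Cover

variable {p : ℕ} [hp : Fact p.Prime] {k : Type u} [Field k] [CharP k p] {M : ℕ}
variable (E : CoverExt p k M)

/-- Every nonzero element divides a nonzero element of the base. -/
theorem exists_dvd_inB {δ : E.B} (hδ : δ ≠ 0) : ∃ a ≠ 0, δ ∣ E.inB a := by
  obtain ⟨a, ha, hdvd⟩ := (Algebra.IsIntegral.isIntegral (R := Cinf p k M) δ).isAlgebraic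
    |>.exists_nonzero_dvd (mem_nonZeroDivisors_of_ne_zero hδ)
  exact ⟨a, ha, hdvd⟩

/-- An almost basis over the perfected power series in `y`. -/
theorem exists_sideBasis (y : Fin M → E.B)
    (hy : ∀ i, ∃ N : ℕ, y i ^ N ∈ Ideal.span (Set.range fun l => E.inB (cX l)))
    (hX : ∀ l, ∃ N : ℕ, E.inB (cX l) ^ N ∈ Ideal.span (Set.range y)) :
    ∃ (ψ : Cinf p k M →+* E.B) (n : ℕ) (e : Fin n → E.B) (δ : E.B), δ ≠ 0 ∧
      Function.Injective ψ ∧ (∀ i, ψ (cX i) = y i) ∧
      (∀ b, ∃ c : Fin n → Cinf p k M, δ * b = ∑ i, ψ (c i) * e i) ∧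
      ∀ c : Fin n → Cinf p k M, ∑ i, ψ (c i) * e i = 0 → c = 0 := by
  classical
  obtain ⟨ψ, hinj, hψX, hint, S, hS⟩ := exists_side E y hy hX
  have hint' : ∀ b : E.B, ψ.IsIntegralElem b := fun b => by
    obtain ⟨P, hP, hP0⟩ := hint b
    obtain ⟨Q, hQ, -, hQm⟩ := Polynomial.lifts_and_degree_eq_and_monic (f := ψ.rangeRestrict)
      (Polynomial.map_surjective _ ψ.rangeRestrict_surjective P) hP
    refine ⟨Q, hQm, ?_⟩
    rwa [← hQ, Polynomial.eval₂_map] at hP0
  -- data of the first base
  set K := FractionRing (Cinf p k M)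
  let ι : K →+* E.L := algebraMap K E.L
  let b := Module.finBasis K E.L
  have hb : ∀ x, ∃ c : Fin (Module.finrank K E.L) → K, x = ∑ i, ι (c i) * b i := fun x =>
    ⟨fun i => b.repr x i, by simpa [Algebra.smul_def] using (b.sum_repr x).symm⟩
  have hι : ∀ z : K, ∃ a c : Cinf p k M, ι z = (E.inB a : E.L) / (E.inB c : E.L) := fun z => by
    obtain ⟨a, c, -, rfl⟩ := IsFractionRing.div_surjective (A := Cinf p k M) z
    refine ⟨a, c, ?_⟩
    rw [map_div₀]
    exact congrArg₂ (· / ·) (IsScalarTower.algebraMap_apply (Cinf p k M) K E.L a).symm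
      (IsScalarTower.algebraMap_apply (Cinf p k M) K E.L c).symm
  -- the second base
  let φ : Cinf p k M →+* E.L := (algebraMap E.B E.L).comp ψ
  have hφ : Function.Injective φ := (IsFractionRing.injective E.B E.L).comp hinj
  let : Algebra (Cinf p k M) E.L := φ.toAlgebra
  let : Algebra K E.L := (IsFractionRing.lift hφ).toAlgebra
  have : IsScalarTower (Cinf p k M) K E.L :=
    IsScalarTower.of_algebraMap_eq fun c => (IsFractionRing.lift_algebraMap hφ c).symm
  have hintL : ∀ x : E.B, IsIntegral (Cinf p k M) (x : E.L) := fun x => by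
    obtain ⟨P, hP, hP0⟩ := hint' x
    refine ⟨P, hP, ?_⟩
    show Polynomial.eval₂ ((algebraMap E.B E.L).comp ψ) (algebraMap E.B E.L x) P = 0
    rw [← Polynomial.hom_eval₂, hP0, map_zero]
  have halg : Algebra.IsAlgebraic K E.L := ⟨fun x => by
    obtain ⟨a, c, -, rfl⟩ := IsFractionRing.div_surjective (A := E.B) x
    rw [div_eq_mul_inv]
    exact ((hintL a).tower_top (A := K)).isAlgebraic.mul
      ((hintL c).tower_top (A := K)).isAlgebraic.inv⟩
  have hroot : ∀ c, (E.inB c : E.L) ∈
      IntermediateField.adjoin K ((S.image fun x : E.B => (x : E.L)) : Set E.L) := fun c => by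
    obtain ⟨j, hj⟩ := hS c
    have : FiniteDimensional K
        (IntermediateField.adjoin K ((S.image fun x : E.B => (x : E.L)) : Set E.L)) :=
      IntermediateField.finiteDimensional_adjoin fun x _ =>
        (Algebra.IsAlgebraic.isAlgebraic x).isIntegral
    refine mem_of_pow_mem (p := p) _ (j := j) ?_
    have hle : Subring.closure (Set.range ψ ∪ ↑S) ≤
        (IntermediateField.adjoin K
          ((S.image fun x : E.B => (x : E.L)) : Set E.L)).toSubfield.toSubring.comap
          (algebraMap E.B E.L) := by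
      rw [Subring.closure_le]
      rintro x (⟨z, rfl⟩ | hx)
      · show algebraMap E.B E.L (ψ z) ∈ IntermediateField.adjoin K _
        rw [show algebraMap E.B E.L (ψ z) = algebraMap K E.L (algebraMap (Cinf p k M) K z) from
          (IsFractionRing.lift_algebraMap hφ z).symm]
        exact IntermediateField.algebraMap_mem _ _
      · exact IntermediateField.subset_adjoin K _ (by simpa using hx)
    exact hle hj
  have : FiniteDimensional K E.L :=
    finite_of_mem_adjoin ι b hb (S.image fun x : E.B => (x : E.L)) fun z => by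
      obtain ⟨a, c, hz⟩ := hι z
      rw [hz]
      exact div_mem (hroot a) (hroot c)
  obtain ⟨n, e, δ, hδ, he, hspan, hind⟩ := almost_basis (Cinf p k M) K E.L
  have heB : ∀ i, ∃ x : E.B, algebraMap E.B E.L x = e i := fun i => by
    refine IsIntegrallyClosed.isIntegral_iff.1 ?_
    obtain ⟨P, hP, hP0⟩ := he i
    refine ⟨P.map ψ, hP.map _, ?_⟩
    rw [Polynomial.eval₂_map]
    exact hP0
  choose e' he' using heB
  refine ⟨ψ, n, e', ψ δ, fun h => hδ (hinj (h.trans (map_zero ψ).symm)), hinj, hψX, fun x => ?_,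
    fun c hc => ?_⟩
  · obtain ⟨c, hc⟩ := hspan _ (hintL x)
    refine ⟨c, IsFractionRing.injective E.B E.L ?_⟩
    rw [map_mul, map_sum]
    simp only [map_mul, he']
    exact hc
  · refine hind c ?_
    have := congrArg (algebraMap E.B E.L) hc
    rw [map_sum, map_zero] at this
    simp only [map_mul, he'] at this
    exact this

/-- Roots of an almost basis. -/
theorem root_sideBasis (ψ : Cinf p k M →+* E.B) {n : ℕ} (e : Fin n → E.B) (δ : E.B)
    (hspan : ∀ b, ∃ c : Fin n → Cinf p k M, δ * b = ∑ i, ψ (c i) * e i)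
    (hind : ∀ c : Fin n → Cinf p k M, ∑ i, ψ (c i) * e i = 0 → c = 0) (j : ℕ) :
    (∀ b, ∃ c : Fin n → Cinf p k M,
        root p j δ * b = ∑ i, ψ (c i) * root p j (e i)) ∧
      ∀ c : Fin n → Cinf p k M, ∑ i, ψ (c i) * root p j (e i) = 0 → c = 0 := by
  have hpow : ∀ c : Cinf p k M, root p j (ψ c) = ψ (root p j c) := fun c => by
    refine iterateFrobenius_inj E.B p j ?_
    rw [iterateFrobenius_def, iterateFrobenius_def, root_pow, ← map_pow, root_pow]
  refine ⟨fun b => ?_, fun c hc => ?_⟩
  · obtain ⟨c, hc⟩ := hspan (b ^ p ^ j)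
    refine ⟨fun i => root p j (c i), ?_⟩
    have := congrArg (root p j) hc
    rw [map_mul, map_pow (root p j), root_pow, map_sum] at this
    simpa only [map_mul, hpow] using this
  · have := congrArg (iterateFrobenius E.B p j) hc
    rw [map_sum, map_zero] at this
    simp only [map_mul, iterateFrobenius_def, root_pow, ← map_pow ψ] at this
    funext i
    exact eq_zero_of_pow_eq_zero (congrFun (hind _ this) i)

/-- A finite subset of `Cinf` is a set of power series in one root of the variables. -/
theorem cinf_levels (q₀ : ℕ) (s : Finset (Cinf p k M)) :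
    ∃ (N : ℕ) (χ : Vale.Agent.P202.Zero.PS k M →+* Cinf p k M),
      Function.Injective χ ∧ (∀ x ∈ s, x ∈ χ.range) ∧
      ∀ i, χ (MvPowerSeries.X i ^ N) = root p q₀ (cX i) := by
  classical
  choose n x hx using fun c : Cinf p k M => exists_pow_eq_cOf c
  set m := q₀ + s.sup n
  refine ⟨p ^ (m - q₀), (root p m : Cinf p k M ≃+* Cinf p k M).toRingHom.comp cOf,
    (root p m : Cinf p k M ≃+* Cinf p k M).injective.comp cOf_injective, fun c hc => ?_, fun i => ?_⟩
  · have hnm : n c ≤ m := le_add_left (Finset.le_sup hc)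
    refine ⟨x c ^ p ^ (m - n c), iterateFrobenius_inj _ p m ?_⟩
    rw [iterateFrobenius_def, iterateFrobenius_def]
    refine (root_pow p m _).trans ?_
    rw [map_pow, ← hx, ← pow_mul, ← pow_add, Nat.add_sub_cancel' hnm]
  · refine iterateFrobenius_inj _ p m ?_
    rw [iterateFrobenius_def, iterateFrobenius_def]
    refine (root_pow p m _).trans ?_
    rw [map_pow, show p ^ m = p ^ q₀ * p ^ (m - q₀) by
      rw [← pow_add, Nat.add_sub_cancel' (Nat.le_add_right _ _)], pow_mul, root_pow]
    rfl

/-- The roots of `y` are regular up to any root of one `δ`, which divides an element of the base. -/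
theorem exists_side_regular (y : Fin M → E.B)
    (hy : ∀ i, ∃ N : ℕ, y i ^ N ∈ Ideal.span (Set.range fun l => E.inB (cX l)))
    (hX : ∀ l, ∃ N : ℕ, E.inB (cX l) ^ N ∈ Ideal.span (Set.range y)) :
    ∃ δ : E.B, δ ≠ 0 ∧ (∃ a ≠ 0, δ ∣ E.inB a) ∧
      ∀ (q₀ j D : ℕ) (f : MvPolynomial (Fin M) E.B), f.IsHomogeneous D →
        MvPolynomial.eval (fun l => root p q₀ (y l)) f ∈
          Ideal.span (Set.range fun l => root p q₀ (y l)) ^ (D + 1) →
        ∀ a, root p j δ * f.coeff a ∈ Ideal.span (Set.range fun l => root p q₀ (y l)) := by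
  obtain ⟨ψ, n, e, δ, hδ, -, hψX, hspan, hind⟩ := exists_sideBasis E y hy hX
  refine ⟨δ, hδ, exists_dvd_inB E hδ, fun q₀ j => ?_⟩
  obtain ⟨hs, hi⟩ := root_sideBasis E ψ e δ hspan hind j
  have hv : (fun l => ψ (root p q₀ (cX l))) = fun l => root p q₀ (y l) := funext fun l => by
    refine iterateFrobenius_inj E.B p q₀ ?_
    rw [iterateFrobenius_def, iterateFrobenius_def, root_pow, ← map_pow ψ, root_pow, hψX]
  intro D f hf hev a
  rw [← hv] at hev ⊢
  exact regular_of_basis ψ _ _ _ hs hi
    (fun D f hf hev a => regular_of_levels _ (cinf_levels q₀) f hf hev a) D f hf hev a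

end Cover

section Untilt

variable {p : ℕ} [hp : Fact p.Prime] {k : Type u} [Field k] [CharP k p] {n : ℕ}
variable (E : CoverExt p k (n + 1))

/-- (F1) on the cover: one sequence `bs` for every degree, below a root of an element of the base. -/
theorem exists_regUpTo (y : Fin (n + 1) → E.B)
    (hy : ∀ i, ∃ N : ℕ, y i ^ N ∈ Ideal.span (Set.range fun l => E.inB (cX l)))
    (hX : ∀ l, ∃ N : ℕ, E.inB (cX l) ^ N ∈ Ideal.span (Set.range y)) :
    ∃ (δ : E.B) (a : Cinf p k (n + 1)), a ≠ 0 ∧
      (∀ j, sharp (p := p) (E.inB (cX 0)) (root p j δ) ∣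
        sharp (E.inB (cX 0)) (root p j (E.inB a))) ∧
      ∀ (q₀ J : ℕ), 2 * n + 2 ≤ J →
        (p : Untilt p (E.inB (cX (0 : Fin (n + 1))))) ∈
          aI (US (p := p) (E.inB (cX 0)) fun l => root p q₀ (y l)) ^ J →
        ∀ j L, RegUpTo (US (p := p) (E.inB (cX 0)) fun l => root p q₀ (y l))
          (sharp (E.inB (cX 0)) (root p j δ)) L := by
  obtain ⟨δ, -, ⟨a, ha, hdvd⟩, hreg⟩ := exists_side_regular E y hy hX
  refine ⟨δ, a, ha, fun j => map_dvd _ (map_dvd (root p j) hdvd), fun q₀ J hJ hpJ j L => ?_⟩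
  obtain ⟨N, hN⟩ := hX 0
  have hM : E.inB (cX 0) ^ N ∈ Ideal.span (Set.range fun l => root p q₀ (y l)) := by
    refine Ideal.span_le.2 ?_ hN
    rintro _ ⟨l, rfl⟩
    rw [← root_pow p q₀ (y l)]
    exact Ideal.pow_mem_of_mem _ (Ideal.mem_span_range_self (x := l)) _ (pow_pos hp.out.pos q₀)
  exact regUpTo (K := E.L) (Fact.out : E.inB (cX (0 : Fin (n + 1))) ≠ 0) hM hJ hpJ
    (fun D f hf hev a => hreg q₀ j D f hf hev a) L

end Untilt

end Vale.Agent.P202.Mixed2.Side
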