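import Vale.Agent.P202.Mixed2.Cover.Ext
import Vale.Agent.P202.Char.EvalPS
import Vale.Agent.P202.Zero.Complete
import Vale.Agent.P202.Mixed2.FiltRoots

/-!
# The perfected power series in a second system of parameters

If `y : Fin M → B` and the parameters are nilpotent modulo each other, the perfection of the power
series in `y` embeds into `B`, and `B` is integral over it.
-/

namespace Vale.Agent.P202.Mixed2.Side

open IsLocalRing Vale.Agent.P202.Char Vale.Agent.P202.Zero Vale.Agent.P202.Zero.PSLen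

universe u

/-- Finite extensions do not lose dimension. -/
theorem dim_le_of_integral {A R : Type u} [CommRing A] [CommRing R] [Algebra A R]
    [Algebra.IsIntegral A R] (h : Function.Injective (algebraMap A R)) :
    ringKrullDim A ≤ ringKrullDim R := by
  refine iSup_le fun l => ?_
  obtain ⟨P, -, hP, hPl⟩ := Ideal.exists_ideal_over_prime_of_isIntegral l.head.asIdeal (⊥ : Ideal R)
    (by
      rw [show Ideal.comap (algebraMap A R) ⊥ = RingHom.ker (algebraMap A R) from rfl,
        (RingHom.injective_iff_ker_eq_bot _).1 h]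
      exact bot_le)
  have : P.LiesOver l.head.asIdeal := ⟨hPl.symm⟩
  obtain ⟨L, hL, -, -⟩ := Ideal.exists_ltSeries_of_hasGoingUp l P
  exact le_iSup_of_le L (by rw [hL])

/-- Generators along a finite map. -/
theorem exists_gen {A R : Type*} [CommRing A] [CommRing R] (g : A →+* R) (hg : g.Finite) :
    ∃ (t : ℕ) (w : Fin t → R), ∀ r, ∃ a : Fin t → A, r = ∑ i, g (a i) * w i := by
  let : Algebra A R := g.toAlgebra
  have : Module.Finite A R := hg
  obtain ⟨t, w, hw⟩ := Module.Finite.exists_fin (R := A) (M := R)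
  refine ⟨t, w, fun r => ?_⟩
  obtain ⟨a, ha⟩ := (Submodule.mem_span_range_iff_exists_fun _).1
    (hw.ge (Submodule.mem_top (x := r)))
  exact ⟨a, ha.symm⟩

section Local

variable {k : Type u} [Field k] {M : ℕ} {R : Type u} [CommRing R] [IsDomain R]

/-- A second system of parameters of a finite extension of `k[[X]]`. -/
theorem exists_param_map (f : MvPowerSeries (Fin M) k →+* R) (hf : f.Finite)
    (hinj : Function.Injective f) (y : Fin M → R)
    (hy : ∀ i, y i ∈ Ideal.span (Set.range fun l => f (MvPowerSeries.X l)))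
    (hX : ∀ l, ∃ N : ℕ, f (MvPowerSeries.X l) ^ N ∈ Ideal.span (Set.range y))
    (hle : (M : WithBot ℕ∞) ≤ ringKrullDim (MvPowerSeries (Fin M) k)) :
    ∃ g : MvPowerSeries (Fin M) k →+* R,
      g.Finite ∧ Function.Injective g ∧ ∀ i, g (MvPowerSeries.X i) = y i := by
  let : Algebra (MvPowerSeries (Fin M) k) R := f.toAlgebra
  have : Module.Finite (MvPowerSeries (Fin M) k) R := hf
  have : IsNoetherianRing R := IsNoetherianRing.of_finite (MvPowerSeries (Fin M) k) R
  set A := MvPowerSeries (Fin M) k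
  set J := (maximalIdeal A).map (algebraMap A R) with hJdef
  have hJ : J = Ideal.span (Set.range fun l => f (MvPowerSeries.X l)) := by
    rw [hJdef, Stage2.maximalIdeal_ps, Ideal.map_span, ← Set.range_comp]
    rfl
  have hJtop : J ≠ ⊤ := by
    obtain ⟨P, -, hP, hPm⟩ := Ideal.exists_ideal_over_prime_of_isIntegral (maximalIdeal A) (⊥ : Ideal R)
      (by
        rw [show Ideal.comap (algebraMap A R) ⊥ = RingHom.ker (algebraMap A R) from rfl,
          (RingHom.injective_iff_ker_eq_bot (algebraMap A R)).1 hinj]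
        exact bot_le)
    exact fun h => hP.ne_top (top_le_iff.1 (h.symm.le.trans
      (Ideal.map_le_iff_le_comap.2 hPm.ge)))
  have : IsAdicComplete (maximalIdeal A) A := Stage2.maximalIdeal_ps (L := k) (r := M) ▸ inferInstance
  have hpreA := Vale.Agent.P202.Zero.precomplete_finite (maximalIdeal A) R
  have : IsPrecomplete J R := IsPrecomplete.map_algebraMap_iff.2 hpreA
  have : IsHausdorff J R := IsHausdorff.of_isDomain J hJtop
  have : IsAdicComplete J R := {}
  let φ : k →+* R := f.comp MvPowerSeries.C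
  let g := EvalPS.eval φ y (N := J) fun i => hJ.symm ▸ hy i
  have hgX : ∀ i, g (MvPowerSeries.X i) = y i := EvalPS.eval_X _ _ _
  have hgC : ∀ a, g (MvPowerSeries.C a) = f (MvPowerSeries.C a) := EvalPS.eval_C _ _ _
  -- the two systems generate cofinal ideals
  obtain ⟨c, hc⟩ : ∃ c, J ^ c ≤ Ideal.span (Set.range y) := by
    refine Ideal.exists_pow_le_of_le_radical_of_fg ?_ (IsNoetherian.noetherian J)
    rw [hJ, Ideal.span_le]
    rintro _ ⟨l, rfl⟩
    exact hX l
  obtain ⟨t, w, hgen⟩ := exists_gen f hf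
  -- monomials below degree `c` times the generators span `R` modulo `(y)` over the constants
  have hlow : ∀ r : R, ∃ b : (Fin M →₀ ℕ) × Fin t → k,
      r - ∑ q ∈ lowSet M c ×ˢ (Finset.univ : Finset (Fin t)),
        f (MvPowerSeries.C (b q)) * (f (MvPowerSeries.monomial q.1 1) * w q.2)
        ∈ Ideal.span (Set.range y) := by
    intro r
    obtain ⟨a, rfl⟩ := hgen r
    refine ⟨fun q => MvPowerSeries.coeff q.1 (a q.2), hc ?_⟩
    rw [Finset.sum_product_right, ← Finset.sum_sub_distrib, hJdef, ← Ideal.map_pow]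
    refine Ideal.sum_mem _ fun i _ => ?_
    simp only [← mul_assoc, ← map_mul, ← Finset.sum_mul, ← map_sum, ← sub_mul, ← map_sub]
    refine Ideal.mul_mem_right _ _ (Ideal.mem_map_of_mem _ ?_)
    rw [show maximalIdeal A = zI k M from Stage2.maximalIdeal_ps, mem_zI_pow_iff]
    refine MvPowerSeries.nat_le_order fun α hα => ?_
    rw [map_sub, map_sum, Finset.sum_eq_single α]
    · simp [MvPowerSeries.coeff_C_mul]
    · intro β _ hβ
      simp [MvPowerSeries.coeff_C_mul, MvPowerSeries.coeff_monomial, Ne.symm hβ]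
    · exact fun h => absurd (mem_lowSet.2 hα) h
  have hgfin : g.Finite := by
    let algg : Algebra A R := g.toAlgebra
    let := algg
    have hmap : (maximalIdeal A).map (algebraMap A R) = Ideal.span (Set.range y) := by
      rw [Stage2.maximalIdeal_ps, Ideal.map_span, ← Set.range_comp,
        show algebraMap A R ∘ MvPowerSeries.X = y from funext hgX]
    have : IsHausdorff (maximalIdeal A) R := by
      refine (IsHausdorff.map_algebraMap_iff (I := maximalIdeal A) (S := R) (M := R)).1 ?_
      refine IsHausdorff.of_isDomain _ fun h => hJtop ?_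
      rw [hmap] at h
      rw [← top_le_iff, ← h, hJ, Ideal.span_le]
      rintro _ ⟨i, rfl⟩
      exact hy i
    have : Module.Finite A (R ⧸ (maximalIdeal A).map (algebraMap A R)) := by
      classical
      refine ⟨⟨(lowSet M c ×ˢ (Finset.univ : Finset (Fin t))).image fun q =>
        Ideal.Quotient.mk _ (f (MvPowerSeries.monomial q.1 1) * w q.2), eq_top_iff.2 ?_⟩⟩
      rintro z -
      obtain ⟨r, rfl⟩ := Ideal.Quotient.mk_surjective z
      obtain ⟨b, hb⟩ := hlow r
      rw [← hmap, ← Ideal.Quotient.eq] at hb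
      rw [hb, map_sum]
      refine Submodule.sum_mem _ fun q hq => ?_
      rw [← hgC, map_mul]
      exact Submodule.smul_mem _ (MvPowerSeries.C (b q))
        (Submodule.subset_span (Finset.mem_image.2 ⟨q, hq, rfl⟩))
    have : Module.Finite A (R ⧸ (maximalIdeal A • ⊤ : Submodule A R)) := by
      rw [Ideal.smul_top_eq_map]
      exact Module.Finite.equiv (Submodule.Quotient.restrictScalarsEquiv A _).symm
    exact PSBase.finite_of_complete (maximalIdeal A)
  refine ⟨g, hgfin, ?_, hgX⟩
  refine Stage2.injective_of_dim g hgfin (le_antisymm ?_ (hle.trans ?_))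
  · let algg : Algebra A R := g.toAlgebra
    have : Module.Finite A R := hgfin
    refine le_trans ?_ (Stage2.dim_ps_le (L := k) (r := M))
    refine Order.krullDim_le_of_strictMono
      (fun P : PrimeSpectrum R => PrimeSpectrum.comap g P) fun P P' h => ?_
    have := P.isPrime
    exact Ideal.IsIntegral.comap_lt_comap (R := A) h
  · exact dim_le_of_integral hinj

end Local

section Cover

open Vale.Agent.P202.Mixed2.Filt

variable {p : ℕ} [hp : Fact p.Prime] {k : Type u} [Field k] [CharP k p] {M : ℕ}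
variable (E : CoverExt p k M)

/-- The power series in the `p ^ m`-th roots of the parameters. -/
noncomputable def lev (m : ℕ) : MvPowerSeries (Fin M) k →+* E.B :=
  (root p m : E.B ≃+* E.B).toRingHom.comp (E.inB.comp cOf)

theorem lev_pow (m : ℕ) (x : MvPowerSeries (Fin M) k) : lev E m x ^ p ^ m = E.inB (cOf x) :=
  root_pow p m _

theorem lev_injective (m : ℕ) : Function.Injective (lev E m) :=
  (root p m : E.B ≃+* E.B).injective.comp (E.inB_injective.comp cOf_injective)

/-- A root of an element of a level lies in a higher level. -/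
theorem eq_lev {b : E.B} {n m : ℕ} (hnm : n ≤ m) {x : MvPowerSeries (Fin M) k}
    (h : b ^ p ^ n = E.inB (cOf x)) : lev E m (x ^ p ^ (m - n)) = b := by
  refine (iterateFrobenius_inj E.B p m) ?_
  rw [iterateFrobenius_def, iterateFrobenius_def, lev_pow, map_pow, map_pow, ← h, ← pow_mul,
    ← pow_add, Nat.add_sub_cancel' hnm]

/-- Integral elements are integral over some level. -/
theorem exists_level (b : E.B) : ∃ n, ∀ m, n ≤ m → (lev E m).IsIntegralElem b := by
  classical
  obtain ⟨P, hP, hP0⟩ : IsIntegral (Cinf p k M) (b : E.L) := b.2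
  choose n x hx using fun i => exists_pow_eq_cOf (P.coeff i)
  refine ⟨P.support.sup n, fun m hm => ?_⟩
  have hmem : P.map E.inB ∈ Polynomial.lifts (lev E m) := by
    rw [Polynomial.lifts_iff_coeff_lifts]
    intro i
    rw [Polynomial.coeff_map]
    by_cases hi : i ∈ P.support
    · exact ⟨x i ^ p ^ (m - n i), eq_lev E ((Finset.le_sup hi).trans hm)
        (by rw [← hx, map_pow])⟩
    · rw [Polynomial.notMem_support_iff.1 hi, map_zero]
      exact ⟨0, map_zero _⟩
  obtain ⟨Q, hQ, -, hQm⟩ := Polynomial.lifts_and_degree_eq_and_monic hmem (hP.map _)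
  refine ⟨Q, hQm, ?_⟩
  rw [← Polynomial.eval_map, hQ, Polynomial.eval_map]
  refine Subtype.ext ?_
  rw [← Subalgebra.coe_val, ← AlgHom.coe_toRingHom, Polynomial.hom_eval₂]
  exact hP0.trans (map_zero _).symm

/-- The perfected power series in `y` inside `B`. -/
theorem exists_side (y : Fin M → E.B)
    (hy : ∀ i, ∃ N : ℕ, y i ^ N ∈ Ideal.span (Set.range fun l => E.inB (cX l)))
    (hX : ∀ l, ∃ N : ℕ, E.inB (cX l) ^ N ∈ Ideal.span (Set.range y)) :
    ∃ ψ : Cinf p k M →+* E.B, Function.Injective ψ ∧ (∀ i, ψ (cX i) = y i) ∧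
      (∀ b : E.B, IsIntegral ψ.range b) ∧ ∃ S : Finset E.B,
        ∀ c : Cinf p k M, ∃ j, E.inB c ^ p ^ j ∈ Subring.closure (Set.range ψ ∪ ↑S) := by
  classical
  choose N hN using hy
  choose N' hN' using hX
  obtain ⟨e, he⟩ : ∃ e, Finset.univ.sup N ≤ p ^ e :=
    ⟨_, (Nat.lt_pow_self hp.out.one_lt).le⟩
  set y' : Fin M → E.B := fun i => y i ^ p ^ e with hy'def
  have hy' : ∀ i, ∃ c : Fin M → E.B, ∑ l, c l * E.inB (cX l) = y' i := fun i => by
    refine Ideal.mem_span_range_iff_exists_fun.1 ?_
    simp only [hy'def]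
    obtain ⟨r, hr⟩ := Nat.exists_eq_add_of_le ((Finset.le_sup (Finset.mem_univ i)).trans he)
    rw [hr, pow_add]
    exact Ideal.mul_mem_right _ _ (hN i)
  have hX' : ∀ l, ∃ d : Fin M → E.B, ∑ i, d i * y' i = E.inB (cX l) ^ (N' l * p ^ e) := fun l => by
    refine Ideal.mem_span_range_iff_exists_fun.1 ?_
    have h := Ideal.mem_map_of_mem (iterateFrobenius E.B p e) (hN' l)
    rwa [Ideal.map_span, ← Set.range_comp, iterateFrobenius_def, ← pow_mul,
      show (iterateFrobenius E.B p e) ∘ y = y' from funext fun i => iterateFrobenius_def ..] at h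
  choose c hc using hy'
  choose d hd using hX'
  choose lev₀ hlev₀ using exists_level E
  set S₀ : Finset E.B := (Finset.univ.image fun q : Fin M × Fin M => c q.1 q.2) ∪
    ((Finset.univ.image fun q : Fin M × Fin M => d q.1 q.2) ∪ Finset.univ.image y')
  obtain ⟨m, hm⟩ : ∃ m, ∀ b ∈ S₀, lev₀ b ≤ m := ⟨S₀.sup lev₀, fun b hb => Finset.le_sup hb⟩
  let : Algebra (MvPowerSeries (Fin M) k) E.B := (lev E m).toAlgebra
  let R := Algebra.adjoin (MvPowerSeries (Fin M) k) (S₀ : Set E.B)
  have hRfg : (Subalgebra.toSubmodule R).FG :=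
    fg_adjoin_of_finite S₀.finite_toSet fun b hb => hlev₀ b m (hm b hb)
  have : Module.Finite (MvPowerSeries (Fin M) k) R :=
    Module.Finite.iff_fg.2 hRfg
  set f := algebraMap (MvPowerSeries (Fin M) k) R
  have hf : f.Finite := RingHom.finite_algebraMap.2 this
  have hfinj : Function.Injective f := fun a b h => lev_injective E m (congrArg Subtype.val h)
  have hcX : ∀ l, E.inB (cX l) = lev E m (MvPowerSeries.X l ^ p ^ m) := fun l =>
    (eq_lev E (Nat.zero_le m) (by rw [pow_zero, pow_one]; rfl)).symm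
  have hS : ∀ b ∈ S₀, b ∈ R := fun b hb => Algebra.subset_adjoin hb
  let yR : Fin M → R := fun i => ⟨y' i, hS _ (by simp [S₀])⟩
  obtain ⟨g, hgfin, hginj, hgX⟩ := exists_param_map f hf hfinj yR
    (fun i => by
      have he : yR i = ∑ l, ⟨c i l, hS _ (by simp [S₀])⟩ * f (MvPowerSeries.X l) ^ p ^ m := by
        refine Subtype.ext ?_
        rw [AddSubmonoidClass.coe_finsetSum]
        refine (hc i).symm.trans (Finset.sum_congr rfl fun l _ => ?_)
        rw [hcX, map_pow]
        rfl
      rw [he]
      exact Ideal.sum_mem _ fun l _ => Ideal.mul_mem_left _ _ (Ideal.pow_mem_of_mem _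
        (Ideal.mem_span_range_self (x := l)) _ (pow_pos hp.out.pos m)))
    (fun l => by
      refine ⟨p ^ m * (N' l * p ^ e), ?_⟩
      have he : f (MvPowerSeries.X l) ^ (p ^ m * (N' l * p ^ e)) =
          ∑ i, ⟨d l i, hS _ (by simp [S₀])⟩ * yR i := by
        refine Subtype.ext ?_
        rw [AddSubmonoidClass.coe_finsetSum, SubmonoidClass.coe_pow]
        refine Eq.trans ?_ (hd l).symm
        rw [hcX, map_pow, pow_mul]
        rfl
      rw [he]
      exact Ideal.sum_mem _ fun i _ => Ideal.mul_mem_left _ _ (Ideal.mem_span_range_self (x := i)))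
    (le_ringKrullDim_ps M)
  let g' : MvPowerSeries (Fin M) k →+* E.B := R.val.toRingHom.comp g
  let ψ₀ : Cinf p k M →+* E.B := PerfectClosure.lift (MvPowerSeries (Fin M) k) p E.B g'
  have hψ₀ : ∀ x, ψ₀ (cOf x) = g' x := fun x =>
    RingHom.congr_fun ((PerfectClosure.lift (MvPowerSeries (Fin M) k) p E.B).left_inv g') x
  let ψ : Cinf p k M →+* E.B := (root p e : E.B ≃+* E.B).toRingHom.comp ψ₀
  have hψpow : ∀ x, ψ (cOf x ^ p ^ e) = g' x := fun x => by
    rw [map_pow, ← hψ₀]
    exact root_pow p e _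
  refine ⟨ψ, ?_, fun i => ?_, ?_, ?_⟩
  · refine (injective_iff_map_eq_zero ψ).2 fun z hz => ?_
    obtain ⟨n, x, hx⟩ := exists_pow_eq_cOf z
    have h0 : g' x = 0 := by
      rw [← hψpow, map_pow, ← hx, map_pow ψ, hz, zero_pow (pow_ne_zero n hp.out.ne_zero),
        zero_pow (pow_ne_zero e hp.out.ne_zero)]
    have : x = 0 := hginj ((Subtype.ext h0 : g x = 0).trans (map_zero g).symm)
    rw [this, map_zero, pow_eq_zero_iff (pow_ne_zero n hp.out.ne_zero)] at hx
    exact hx
  · show root p e (ψ₀ (cOf (MvPowerSeries.X i))) = y i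
    rw [hψ₀, show g' (MvPowerSeries.X i) = y' i from congrArg Subtype.val (hgX i), hy'def,
      map_pow, root_pow]
  all_goals
    have hrel : ∀ z, ∃ j, ∃ r : R, E.inB z ^ p ^ j = (r : E.B) := fun z => by
      obtain ⟨n, x, hx⟩ := exists_pow_eq_cOf z
      refine ⟨n, f x ^ p ^ m, ?_⟩
      rw [← map_pow, hx, ← lev_pow E m]
      rfl
  · -- integrality
    intro b
    have hint : ∀ r : R, IsIntegral ψ.range (r : E.B) := fun r => by
      obtain ⟨P, hP, hP0⟩ := hgfin.to_isIntegral r
      refine ⟨P.map (ψ.rangeRestrict.comp ((iterateFrobenius (Cinf p k M) p e).comp cOf)),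
        hP.map _, ?_⟩
      rw [Polynomial.eval₂_map,
        show (algebraMap ψ.range E.B).comp (ψ.rangeRestrict.comp
          ((iterateFrobenius (Cinf p k M) p e).comp cOf)) = g' from RingHom.ext fun a => by
            refine (congrArg ψ (iterateFrobenius_def ..)).trans (hψpow a)]
      show Polynomial.eval₂ (R.val.toRingHom.comp g) (R.val.toRingHom r) P = 0
      rw [← Polynomial.hom_eval₂, hP0, map_zero]
    have hinB : ∀ z, E.inB z ∈ integralClosure ψ.range E.B := fun z => by
      obtain ⟨j, r, hr⟩ := hrel z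
      exact IsIntegral.of_pow (pow_pos hp.out.pos j) (hr ▸ hint r)
    obtain ⟨P, hP, hP0⟩ : IsIntegral (Cinf p k M) (b : E.L) := b.2
    refine isIntegral_trans (R := ψ.range) (A := integralClosure ψ.range E.B) b
      ⟨P.map (E.inB.codRestrict (integralClosure ψ.range E.B) hinB), hP.map _, ?_⟩
    rw [Polynomial.eval₂_map]
    refine Subtype.ext ?_
    rw [← Subalgebra.coe_val, ← AlgHom.coe_toRingHom, Polynomial.hom_eval₂]
    exact hP0.trans (map_zero _).symm
  · -- generation
    obtain ⟨t, w, hw⟩ := exists_gen g hgfin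
    refine ⟨Finset.univ.image fun i => (w i : E.B), fun z => ?_⟩
    obtain ⟨j, r, hr⟩ := hrel z
    refine ⟨j, ?_⟩
    rw [hr]
    obtain ⟨a, rfl⟩ := hw r
    rw [AddSubmonoidClass.coe_finsetSum]
    refine Subring.sum_mem _ fun i _ => ?_
    rw [MulMemClass.coe_mul]
    refine mul_mem (Subring.subset_closure (Or.inl ⟨cOf (a i) ^ p ^ e, hψpow (a i)⟩))
      (Subring.subset_closure (Or.inr ?_))
    simp

end Cover

end Vale.Agent.P202.Mixed2.Side
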